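import Crest.Agent.X212.Mon62.Hyp
import Crest.Agent.X212.Mod61.Fmt
import Crest.Agent.X212.Std94.Smo
import Crest.Agent.X212.Eqv71.Res

/-! # Row 212, WORDH: the leaf `Ref.Sm` of `Mod61/Fmt` for the terms of `An/Gauge` -/

set_option autoImplicit false
set_option linter.unusedSectionVars false
set_option maxSynthPendingDepth 3
noncomputable section
open scoped Manifold ContDiff Topology InnerProductSpace
open MeasureTheory Set Function Filter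

namespace Crest.Agent.X212.Mon62
open An Sob92 Prm93 Mod61 Dm
open Ell97 (UB)

variable {E : Type} [NormedAddCommGroup E] [NormedSpace ℝ E] [FiniteDimensional ℝ E]
  [MeasurableSpace E] [BorelSpace E]
  {HM : Type} [TopologicalSpace HM] {I : ModelWithCorners ℝ E HM} [I.Boundaryless]
  {M : Type} [TopologicalSpace M] [ChartedSpace HM M] [IsManifold I ∞ M]
  [MeasurableSpace M] [T2Space M] [BorelSpace M] [SecondCountableTopology M] {ι : Type} [Fintype ι]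
  {lam : Type} [Fintype lam] {T : Type} [NormedAddCommGroup T] [NormedSpace ℝ T]

section hs
variable {V : Type} [NormedAddCommGroup V] [InnerProductSpace ℝ V] [CompleteSpace V]
  {F : Fr I M ι} {s : ℝ} {p : M → V →L[ℝ] V} {k : ℕ}

theorem sec_hs (hS : Sup F.toPre s) (u : Sec I p) : u.1 ∈ Hs F.toPre p :=
  fun _ hk => ⟨_, val_toH hS hk u⟩

theorem ofV_sec (hS : Sup F.toPre s) (hk : 4 ≤ k) (u : Sec I p) :
    ofV F.toPre k p u.1 = F.toH k p u :=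
  val_injective hS hk ((val_ofV (sec_hs hS u) hk).trans (val_toH hS hk u).symm)

theorem cb_hs (hS : Sup F.toPre s) {u : M → V} (hu : u ∈ Hs F.toPre p) : F.Cb u := by
  obtain ⟨h, rfl⟩ := hu 4 le_rfl
  refine Cb_val hS le_rfl fun j hj => ?_
  obtain ⟨g, hg⟩ := hu j hj
  exact ⟨g, val_injective hS le_rfl ((val_incl hS le_rfl hj g).trans hg)⟩

theorem proj_hs (hS : Sup F.toPre s) {u : M → V} (hu : u ∈ Hs F.toPre p) (x : M) :
    p x (u x) = u x := by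
  obtain ⟨h, rfl⟩ := hu 4 le_rfl
  exact val_proj hS le_rfl h x

variable (V) in
/-- the resolvent of the frame `F` on the `Cb` functions of `F₀` -/
def RE1 (F₀ : Pre I M ι) (F : Fr I M ι) : Prop :=
  ∀ (A : ι → M → V →L[ℝ] V) (s : M → V), (∀ c, F₀.Cb (A c)) → (∀ c x, Wz78.Skew (A c x)) →
    F₀.Cb s → ∃ u, F.IsRes A s u ∧ F₀.Cb u

end hs

variable {𝔉 : Fam I M ι lam T}

/-- `f` does not depend on the parameter where `χ ≠ 1` -/
def Off (Q : Set T) (χ : M → ℝ) (f : T → M → ℝ) : Prop :=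
  ∀ t ∈ Q, ∀ s ∈ Q, ∀ x, χ x ≠ 1 → f t x = f s x

/-- the hypotheses on the family (automatic on a closed manifold) -/
structure Hy (o : Ref 𝔉) : Prop where
  ok : 𝔉.OK
  loc : ∃ χ : M → ℝ, Sm I χ ∧ HasCompactSupport χ ∧ (∀ a b, Off 𝔉.Q χ fun t x => 𝔉.S t x a b) ∧
    (∀ a b k, Off 𝔉.Q χ fun t x => 𝔉.cf t x a b k) ∧ (∀ a, Off 𝔉.Q χ fun t x => 𝔉.la t x a) ∧
    (∀ a b k, Off 𝔉.Q χ fun t => (𝔉.G t).F.c a b k) ∧ ∀ a, Off 𝔉.Q χ fun t => (𝔉.G t).F.dv a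
  bV : ∀ t ∈ 𝔉.Q, RB1 o.m.V 𝔉.F0.toPre (𝔉.G t).F
  bA : ∀ t ∈ 𝔉.Q, RB1 o.m.A 𝔉.F0.toPre (𝔉.G t).F
  eV : ∀ t ∈ 𝔉.Q, RE1 o.m.V 𝔉.F0.toPre (𝔉.G t).F
  eA : ∀ t ∈ 𝔉.Q, RE1 o.m.A 𝔉.F0.toPre (𝔉.G t).F

theorem act_fam {V : Type} [NormedAddCommGroup V] [InnerProductSpace ℝ V] (h : 𝔉.OK) {t : T}
    (ht : t ∈ 𝔉.Q) : Act V 𝔉.F0.toPre (𝔉.G t).F :=
  act_mix (h.mix t ht) (fun a b => (h.sS a b).cb t ht) fun c => (h.sdv c).cb t ht

theorem hy_compact [CompactSpace M] (h : 𝔉.OK) (o : Ref 𝔉) : Hy o := by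
  have h0 : ∀ f : T → M → ℝ, Off 𝔉.Q (fun _ => (1 : ℝ)) f := fun _ _ _ _ _ _ h => absurd rfl h
  have hB : ∀ {V : Type} [NormedAddCommGroup V] [InnerProductSpace ℝ V] [FiniteDimensional ℝ V],
      ∀ t ∈ 𝔉.Q, RB1 V 𝔉.F0.toPre (𝔉.G t).F := fun t ht =>
    rb1_cmp (cmp_compact _ _) (act_fam h ht) (h.tameG t ht).choose_spec
  have hE : ∀ {V : Type} [NormedAddCommGroup V] [InnerProductSpace ℝ V] [FiniteDimensional ℝ V],
      ∀ t ∈ 𝔉.Q, RE1 V 𝔉.F0.toPre (𝔉.G t).F := fun t ht _ _ hA hs hu =>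
    let ⟨u, hu⟩ := exists_res (h.tameG t ht).choose_spec (fun c => Cb.sm (hA c)) hs (Cb.sm hu)
    ⟨u, hu, Cb_of_compact hu.1⟩
  exact ⟨h, ⟨fun _ => 1, contMDiff_const, HasCompactSupport.of_compactSpace _, fun _ _ => h0 _,
    fun _ _ _ => h0 _, fun _ => h0 _, fun _ _ _ => h0 _, fun _ => h0 _⟩, hB, hB, hE, hE⟩

variable {o : Ref 𝔉} {r n m k : ℕ}

theorem dense_pt (h : 𝔉.OK) (hk : 3 ≤ k) : o.U r k ⊆ closure (range (Pnt.pt k)) := by
  rintro ⟨α, φ, z, t⟩ ht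
  have hS := Sup.of_tame h.tame.choose_spec
  obtain ⟨a, ha⟩ := exists_seq α
  obtain ⟨b, hb⟩ := exists_seq φ
  refine mem_closure_of_tendsto (ha.prodMk_nhds (hb.prodMk_nhds tendsto_const_nhds))
    (.of_forall fun i => ⟨⟨(a i).1, (b i).1, z, t, sec_hs hS _, sec_hs hS _, ht⟩, ?_⟩)
  rw [Pnt.pt, ofV_sec hS (by omega), ofV_sec hS (by omega)]

/-- the Banach model of `Mod61/Fmt` -/
def dm (h : 𝔉.OK) (hk : 3 ≤ k) (y₀ : Pnt o r) :
    Dm I M ι (fun _ : Unit => o.C r k) fun _ => Pnt o r where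
  U _ := o.U r k
  B _ := {y₀.pt k}
  op _ := h.opn.preimage (f := fun v : o.C r k => v.2.2.2) (by fun_prop)
  sub _ := singleton_subset_iff.2 y₀.ht
  F _ := 𝔉.F0
  C := h.tame.choose
  tame _ := h.tame.choose_spec
  pt _ := Pnt.pt k
  y₀ _ := y₀
  mem _ y := y.ht
  dns _ := dense_pt h hk
  base _ := rfl

/-- its module -/
abbrev mf (o : Ref 𝔉) : MF M ι lam Unit :=
  ⟨o.m.N, o.m.J, fun _ => o.m.p, fun _ => o.m.ρ, fun _ => o.m.j⟩

/-- its configurations -/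
def cf (h : 𝔉.OK) (hk : 3 ≤ k) (y₀ : Pnt o r) : CF (dm h hk y₀) (mf o) r where
  G _ v := (𝔉.G v.2.2.2).F
  W _ y := o.W y.t y.α
  Φ _ y := o.Φ0 + y.φ
  z _ y := y.z

section model
variable {h : 𝔉.OK} {hk : 3 ≤ k} {y₀ : Pnt o r}
  {N : Type} [NormedAddCommGroup N] [NormedSpace ℝ N]

theorem uc_dm {f : o.C r k → N} (hf : ContDiffOn ℝ ∞ f (o.U r k)) :
    UC (dm h hk y₀).toRg fun _ => f := UC.of_compact (fun _ => isCompact_singleton) fun _ => hf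

theorem sc_par {c : T → N} (hc : ContDiffOn ℝ ∞ c 𝔉.Q) : (dm h hk y₀).Sc fun _ y => c y.t :=
  ⟨fun _ v => c v.2.2.2, uc_dm (hc.comp (by fun_prop) fun _ hv => hv), fun _ _ => rfl⟩

theorem us_dm {f : T → M → N} (hf : SB 𝔉.F0.toPre 𝔉.Q f) :
    (dm h hk y₀).US fun _ v => f v.2.2.2 :=
  US.of_sb (fun _ => isCompact_singleton) fun _ => hf.reparam (by fun_prop) fun _ hv => hv

theorem lc_dm {f : T → M → ℝ} (hf : SB 𝔉.F0.toPre 𝔉.Q f) {χ : M → ℝ} (h1 : Sm I χ)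
    (h2 : HasCompactSupport χ) (h3 : Off 𝔉.Q χ f) : (dm h hk y₀).Lc fun _ v => f v.2.2.2 :=
  Lc.of_cut (us_dm hf) (χ := fun _ => χ) (fun _ hj => A0.of_cs hj (fun _ => h1) fun _ => h2)
    fun _ y x => by
      by_cases e : χ x = 1
      · rw [e, one_smul]
      · have := h3 _ y.ht _ y₀.ht x e
        change χ x • (f y.t x - f y₀.t x) = f y.t x - f y₀.t x
        rw [this, sub_self, smul_zero]

theorem sz_dm {w : Pnt o r → M → N} (hw : ∀ y, 𝔉.F0.Cb (w y)) : (dm h hk y₀).Sz fun _ => w :=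
  ⟨fun _ => hw, ub_of_finite fun _ => hw y₀⟩

theorem a0_α {ε : Prop} : (dm h hk y₀).A0 ε (k + 1) fun _ y => y.α :=
  A0.of_coord (by omega) (p := fun _ => o.P1) (δ := fun _ v => v.1) (uc_dm contDiffOn_fst)
    (sz_dm fun y => cb_hs ((dm h hk y₀).sup ()) y.hα)
    fun _ y => (val_ofV y.hα (by omega)).symm

theorem a0_φ {ε : Prop} : (dm h hk y₀).A0 ε (k + 1) fun _ y => y.φ :=
  A0.of_coord (by omega) (p := fun _ => o.Pp) (δ := fun _ v => v.2.1)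
    (uc_dm (f := fun v => v.2.1) (by fun_prop))
    (sz_dm fun y => cb_hs ((dm h hk y₀).sup ()) y.hφ)
    fun _ y => (val_ofV y.hφ (by omega)).symm

theorem out_dm {V : Type} [NormedAddCommGroup V] [InnerProductSpace ℝ V] [CompleteSpace V]
    {j : ℕ} (hj : 4 ≤ j) {q : M → V →L[ℝ] V} (hq : 𝔉.F0.Cb q) (hi : ∀ x v, q x (q x v) = q x v)
    {w : Pnt o r → M → V} (H : (dm h hk y₀).A0 True j fun _ => w) :
    ∃ f : o.C r k → 𝔉.F0.H j q, ContDiffOn ℝ ∞ f (o.U r k) ∧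
      ∀ (y : Pnt o r) x, 𝔉.F0.val j q (f (y.pt k)) x = q x (w y x) := by
  have H' := A0.out (D := dm h hk y₀) hj (q := fun _ => q) (ub_of_finite fun _ => hq)
    (fun _ => hi) H
  obtain ⟨f, f1, f2⟩ := H'
  refine ⟨f (), ?_, fun y x => ?_⟩
  · exact f1.sm ()
  · exact f2 () y x

theorem sc_out {c : Pnt o r → N} (H : (dm h hk y₀).Sc fun _ => c) :
    ∃ γ : o.C r k → N, ContDiffOn ℝ ∞ γ (o.U r k) ∧ ∀ y : Pnt o r, γ (y.pt k) = c y :=
  let ⟨γ, g1, g2⟩ := H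
  ⟨γ (), g1.sm (), fun y => (g2 () y).symm⟩

end model

theorem dat_ref (h : 𝔉.OK) (o : Ref 𝔉) : Std94.Kl.Dat (Std94.cbK 𝔉.F0.toPre) 𝔉.B o.m id :=
  ⟨fun a b => ⟨_, h.P0 ▸ h.tame.choose_spec.P a b⟩, h.co, o.cp, o.cρ, o.cj⟩

theorem α_mem (h : 𝔉.OK) (y : Pnt o r) (x : M) (a : ι) : y.α x a ∈ o.m.gS x := by
  rw [← proj_hs (Sup.of_tame h.tame.choose_spec) y.hα x, Ref.P1, Wz78.idx_apply]
  refine Submodule.sum_mem _ fun b _ => Submodule.smul_mem _ _ ?_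
  by_cases hx : x ∈ 𝔉.Om
  · rw [Ref.Pg, indicator_of_mem hx]; exact Wz78.pg_mem x _
  · rw [Ref.Pg, indicator_of_notMem hx]; exact zero_mem _

theorem skw_W (h : 𝔉.OK) (y : Pnt o r) (a : ι) (x : M) : Skw (o.W y.t y.α a x) := fun v w => by
  have h1 := (h.conn o.m _ o.ok (o.connA h.B y.t) y.t y.ht).sk a x v w
  have h2 := Wz78.g_skw (m := o.m) (x := x) (ξ := idx (𝔉.S y.t x) (.id ℝ o.m.A) (y.α x) a)
    (by rw [Wz78.idx_apply]; exact Submodule.sum_mem _ fun b _ =>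
      Submodule.smul_mem _ _ (α_mem h y x b)) v w
  simp only [Ref.W, Md.addC, add_apply, inner_add_left, inner_add_right, h1, h2]
  ring

theorem Hy.ff (H : Hy o) {hk : 3 ≤ k} (y₀ : Pnt o r) : (dm H.ok hk y₀).FF (cf H.ok hk y₀).G := by
  obtain ⟨χ, c1, c2, l1, -, -, l4, l5⟩ := H.loc
  obtain ⟨ρ, r1, r2⟩ := H.ok.dens
  refine ⟨⟨fun a b _ v x => 𝔉.S v.2.2.2 x a b, fun a b => lc_dm (H.ok.sS a b) c1 c2 (l1 a b),
    fun _ v hv => H.ok.mix _ hv⟩, fun a => lc_dm (H.ok.sdv a) c1 c2 (l5 a),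
    fun a b c => lc_dm (H.ok.sc a b c) c1 c2 (l4 a b c),
    fun _ y => Mp86.bumps_of_tame _ (H.ok.tameG _ y.ht).choose_spec, _, us_dm r1, fun _ y g => ?_⟩
  change ∫ x, g x ∂(𝔉.G y.t).F.μ = ∫ x, ρ y.t x • g x ∂𝔉.F0.μ
  rw [(r2 _ y.ht).2, integral_withDensity_eq_integral_toReal_smul
    (Cb.sm (r1.cb _ y.ht)).continuous.measurable.ennreal_ofReal
    (.of_forall fun _ => ENNReal.ofReal_lt_top)]
  simp only [fun x => ENNReal.toReal_ofReal ((r2 _ y.ht).1 x).le]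

theorem Hy.cfOK [o.B0] (H : Hy o) (hk7 : 7 ≤ k) {hk : 3 ≤ k} (y₀ : Pnt o r) :
    (cf H.ok hk y₀).OK False (k + 1) := by
  have hF := H.ff (hk := hk) y₀
  obtain ⟨χ, c1, c2, l1, l2, l3, -, -⟩ := H.loc
  have h4 : 4 ≤ k + 1 := by omega
  have ub : ∀ {N : Type} [NormedAddCommGroup N] [NormedSpace ℝ N] {f : M → N}, 𝔉.F0.Cb f →
      UB (dm H.ok hk y₀).P fun _ => f := fun hf => ub_of_finite fun _ => hf
  have sS := fun a b => lc_dm (h := H.ok) (hk := hk) (y₀ := y₀) (H.ok.sS a b) c1 c2 (l1 a b)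
  refine ⟨by omega, hF, rb_of_finite (fun _ => finite_singleton _) fun _ v hv => H.bV _ hv,
    rb_of_finite (fun _ => finite_singleton _) fun _ v hv => H.bA _ hv,
    re_of_finite hF fun _ y => H.eV _ y.ht, re_of_finite hF fun _ y => H.eA _ y.ht, fun a => ?_,
    fun _ y => skw_W H.ok y, (A0.fixed (ub o.cΦ)).add a0_φ,
    ⟨fun _ v => v.2.2.1, uc_dm (f := fun v => v.2.2.1) (by fun_prop), fun _ _ => rfl⟩, fun a => ub (o.cρ a), ub o.cj,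
    ub ((dat_ref H.ok o).pg H.ok.B (Std94.pmx o.ok))⟩
  have mul := fun {f g : M → En (Fin o.m.N)} (hf : 𝔉.F0.Cb f) (hg : 𝔉.F0.Cb g) =>
    A0.fixed (j := k + 1) (ub (Cb_clm hsL (Cb_bil (ContinuousLinearMap.mul ℝ _) hf hg)))
  refine ((((A0.fsum Finset.univ fun b _ => (sS a b).smul h4
    (A0.fixed (ub (Cb_clm hsL (o.cA b))))).add (A0.fsum Finset.univ fun b _ =>
      A0.fsum Finset.univ fun c _ => (lc_dm (H.ok.scf a b c) c1 c2 (l2 a b c)).smul h4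
        (mul (o.cρ b) (o.cρ c)))).add ((lc_dm (H.ok.sla a) c1 c2 (l3 a)).smul h4
          (mul (Cb_const o.m.J) o.cp))).add (A0.fsum Finset.univ fun b _ => (sS a b).smul h4
            (a0_α.clm h4 (PiLp.proj 2 (fun _ : ι => o.m.A) b)))).congr fun _ y x => ?_
  simp only [cf, Ref.W, Ref.A_eq, Md.addC, Fam.W0, map_add, map_sum, map_smul, Wz78.hsL_opL,
    Wz78.idx_apply]
  rfl

theorem cb_Pm (h : 𝔉.OK) (o : Ref 𝔉) : 𝔉.F0.Cb o.Pm := Eqv71.Cb_ind h.Om' (dat_ref h o).pm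

theorem P2_eq (o : Ref 𝔉) : o.P2 = 𝔉.Om.indicator (o.m.p2 𝔉.B) := funext fun x => by
  by_cases hx : x ∈ 𝔉.Om
  · rw [Ref.P2, Ref.Pg, indicator_of_mem hx, indicator_of_mem hx, Md.p2]
  · rw [Ref.P2, Ref.Pg, indicator_of_notMem hx, indicator_of_notMem hx]
    ext1 v
    exact PiLp.ext fun s => by simp [Wz78.idx_apply]

theorem cb_P2 (h : 𝔉.OK) (o : Ref 𝔉) : 𝔉.F0.Cb o.P2 :=
  P2_eq o ▸ Eqv71.Cb_ind h.Om ((dat_ref h o).p2 h.B (Std94.pmx o.ok))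

theorem ind_app {V : Type} [NormedAddCommGroup V] [NormedSpace ℝ V] (O : Set M)
    {p : M → V →L[ℝ] V} {x : M} {u : M → V} (h : p x (u x) = u x) :
    O.indicator p x (u x) = O.indicator u x := by
  by_cases hx : x ∈ O <;> simp [hx, h]

theorem ind_idem {V : Type} [NormedAddCommGroup V] [NormedSpace ℝ V] (O : Set M)
    {p : M → V →L[ℝ] V} (h : ∀ x v, p x (p x v) = p x v) (x : M) (v : V) :
    O.indicator p x (O.indicator p x v) = O.indicator p x v := by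
  by_cases hx : x ∈ O <;> simp [hx, h]

theorem pm_idem (h : 𝔉.OK) (x : M) (v : o.m.V) : o.m.pm 𝔉.B x (o.m.pm 𝔉.B x v) = o.m.pm 𝔉.B x v :=
  congrArg (fun S : En (Fin o.m.N) => S v) (Std94.pm_pm h.B (Std94.pmx o.ok x))

/-- **The leaf from the calculus** (any perturbation). -/
theorem sm_of (h : 𝔉.OK) {τ : T → PtX M ι lam r n m}
    (pD : ∀ (y : Pnt o r) x, o.m.pm 𝔉.B x ((τ y.t).D y.cfg x) = (τ y.t).D y.cfg x)
    (pC : ∀ (y : Pnt o r) x, o.m.p2 𝔉.B x ((τ y.t).C y.cfg x) = (τ y.t).C y.cfg x)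
    (H : ∀ k (hk : 3 ≤ k), 7 ≤ k → ∀ y₀ : Pnt o r,
      (dm h hk y₀).A0 True (k + 1) (V := o.m.V) (fun _ y => (τ y.t).D y.cfg) ∧
      (dm h hk y₀).A0 True (k + 1) (V := Fm (ι × ι) o.m.A) (fun _ y => (τ y.t).C y.cfg) ∧
      (dm h hk y₀).Sc (fun _ y => (τ y.t).S y.cfg) ∧ (dm h hk y₀).Sc fun _ y => (τ y.t).R y.cfg) :
    o.Sm τ := fun k hk => by
  rcases isEmpty_or_nonempty (Pnt o r) with e | ⟨⟨y₀⟩⟩
  · exact ⟨fun _ => 0, contDiffOn_const, fun y => e.elim y⟩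
  obtain ⟨h1, h2, h3, h4⟩ := H k (by omega) hk y₀
  obtain ⟨γ, g1, g2⟩ := sc_out h3
  obtain ⟨γ', k1, k2⟩ := sc_out h4
  obtain ⟨f, f1, f2⟩ := out_dm (by omega) (cb_Pm h o) (ind_idem _ (pm_idem h)) h1
  obtain ⟨f', f3, f4⟩ := out_dm (by omega) (cb_P2 h o)
    (by rw [P2_eq]; exact ind_idem _ (Std94.p2_p2 h.B)) h2
  refine ⟨fun v => (f v, f' v, γ v, γ' v), f1.prodMk (f3.prodMk (g1.prodMk k1)), fun y =>
    ⟨funext fun x => (f2 y x).trans (ind_app _ (pD y x)), funext fun x => (f4 y x).trans ?_,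
      g2 y, k2 y⟩⟩
  rw [P2_eq]
  exact ind_app _ (pC y x)

/-- the perturbation `∑ w t i • Tm i` of the family -/
def wptX (𝔉 : Fam I M ι lam T) (m : ℕ) {K : Type} [Fintype K] (Tm : K → Tm M lam r n)
    (w : T → K → ℝ) (t : T) : PtX M ι lam r n m := ⟨wpt 𝔉.B (𝔉.G t).F Tm (w t), fun _ _ => 0⟩

theorem pm_tD (h : 𝔉.OK) (y : Pnt o r) (F : Fr I M ι) (t : Tm M lam r n) (x : M) :
    o.m.pm 𝔉.B x (y.cfg.tD 𝔉.B F t x) = y.cfg.tD 𝔉.B F t x := by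
  cases t with
  | lin u => exact pm_idem h x _
  | anti d s u => exact pm_idem h x _
  | _ => exact map_zero _

theorem p2_tC (h : 𝔉.OK) (y : Pnt o r) (F : Fr I M ι) (t : Tm M lam r n) (x : M) :
    o.m.p2 𝔉.B x (y.cfg.tC 𝔉.B F t x) = y.cfg.tC 𝔉.B F t x := by
  cases t with
  | ad g g' ξ => exact Std94.p2_p2 h.B x _
  | adj d s g g' u v l => exact Std94.p2_p2 h.B x _
  | adn f g g' φ L => exact Std94.p2_p2 h.B x _
  | _ => exact map_zero _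

/-- **WORDH**, closed manifolds and ends. -/
theorem Hy.sm_wpt [o.B0] (H : Hy o) {K : Type} [Fintype K] {Tm : K → Tm M lam r n}
    (hT : ∀ i, (Tm i).OK 𝔉.F0)
    (hp : ∀ i k (hk : 3 ≤ k), 7 ≤ k → ∀ y₀ : Pnt o r, (cf H.ok hk y₀).Pu (k + 1) (Tm i))
    {w : T → K → ℝ} (hw : ∀ i, ContDiffOn ℝ ∞ (fun t => w t i) 𝔉.Q) : o.Sm (wptX 𝔉 m Tm w) := by
  refine sm_of H.ok (fun y x => ?_) (fun y x => ?_) fun k hk hk7 y₀ => ?_
  · exact (map_sum _ _ _).trans (Finset.sum_congr rfl fun i _ =>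
      (map_smul _ _ _).trans (congrArg _ (pm_tD H.ok y _ _ x)))
  · exact (map_sum _ _ _).trans (Finset.sum_congr rfl fun i _ =>
      (map_smul _ _ _).trans (congrArg _ (p2_tC H.ok y _ _ x)))
  have c := H.cfOK hk7 (hk := hk) y₀
  have u := fun i => tmU (D := dm H.ok hk y₀) fun _ => hT i
  exact ⟨A0.fsum Finset.univ fun i _ => (c.tD (B := fun _ => 𝔉.B)
      (ub_of_finite fun _ => (dat_ref H.ok o).pm) (u i) (hp i k hk hk7 y₀)).smulc (sc_par (hw i)),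
    A0.fsum Finset.univ fun i _ => (c.tC (B := fun _ => 𝔉.B) (ub_of_finite fun _ =>
      (dat_ref H.ok o).p2 H.ok.B (Std94.pmx o.ok)) (u i) (hp i k hk hk7 y₀)).smulc (sc_par (hw i)),
    (Sc.lsum Finset.univ.toList fun i _ => (sc_par (hw i)).bil (ContinuousLinearMap.lsmul ℝ ℝ)
      (c.tS (u i))).congr fun _ y => funext fun a => by
        rw [Finset.sum_map_toList, Finset.sum_apply]; rfl, Sc.const 0⟩

/-- the syntactic decay condition: a compactly supported coefficient -/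
def Cs : Tm M lam r n → Prop
  | .lin u => ∃ f l, u = .mul f :: l ∧ HasCompactSupport f
  | .anti _ s _ => HasCompactSupport s
  | .ad _ _ ξ => ∃ f l, ξ.l = .mul f :: l ∧ HasCompactSupport f
  | .adj _ s _ _ _ _ _ => HasCompactSupport s
  | .adn f _ _ _ _ => HasCompactSupport f
  | _ => True

theorem cp_of_cs {J : Type} [Finite J] {X Y : J → Type} [∀ i, NormedAddCommGroup (X i)]
    [∀ i, NormedSpace ℝ (X i)] {D : Dm I M ι X Y} {j : ℕ} (hj : 4 ≤ j) {F : Fr I M ι}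
    {t : Tm M lam r n} (ht : t.OK F) (hc : Cs t) : D.Cp j t := by
  cases t with
  | lin u =>
    obtain ⟨f, l, rfl, hf⟩ := hc
    exact ⟨f, l, rfl, A0.of_cs hj (fun _ => Cb.sm (ht _ List.mem_cons_self)) fun _ => hf⟩
  | anti d s u => exact A0.of_cs hj (fun _ => Cb.sm ht.2.1) fun _ => hc
  | ad g g' ξ =>
    obtain ⟨f, l, e, hf⟩ := hc
    exact ⟨f, l, e, A0.of_cs hj (fun _ => Cb.sm (ht.2.2.2 (.mul f) (e ▸ List.mem_cons_self)))
      fun _ => hf⟩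
  | adj d s g g' u v l => exact A0.of_cs hj (fun _ => Cb.sm ht.2.1) fun _ => hc
  | adn f g g' φ L => exact A0.of_cs hj (fun _ => Cb.sm ht.1) fun _ => hc
  | _ => trivial

theorem Hy.sm_cs [o.B0] (H : Hy o) {K : Type} [Fintype K] {Tm : K → Tm M lam r n}
    (hT : ∀ i, (Tm i).OK 𝔉.F0) (hc : ∀ i, Cs (Tm i)) {w : T → K → ℝ}
    (hw : ∀ i, ContDiffOn ℝ ∞ (fun t => w t i) 𝔉.Q) : o.Sm (wptX 𝔉 m Tm w) :=
  H.sm_wpt hT (fun i _ _ hk7 y₀ => (H.cfOK hk7 y₀).pu_of_cp (tmU fun _ => hT i)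
    (cp_of_cs (by omega) (hT i) (hc i))) hw

/-- **WORDH on closed manifolds.** -/
theorem sm_compact [CompactSpace M] (h : 𝔉.OK) (o : Ref 𝔉) [o.B0] {K : Type} [Fintype K]
    {Tm : K → Tm M lam r n} (hT : ∀ i, (Tm i).OK 𝔉.F0) {w : T → K → ℝ}
    (hw : ∀ i, ContDiffOn ℝ ∞ (fun t => w t i) 𝔉.Q) : o.Sm (wptX 𝔉 m Tm w) :=
  (hy_compact h o).sm_wpt hT (fun i _ _ hk7 y₀ =>
    ((hy_compact h o).cfOK hk7 y₀).pu_compact (tmU fun _ => hT i)) hw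

end Crest.Agent.X212.Mon62
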