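import Crest.Agent.X212.Mon62.NkQ
import Crest.Agent.X212.Cyc79.Ub

/-! # Row 212, NK-SM: fixed necks, moving compact necks, homogeneity of `q1` -/

set_option autoImplicit false
set_option linter.unusedSectionVars false
set_option maxSynthPendingDepth 3
noncomputable section
open scoped Manifold ContDiff Topology InnerProductSpace
open MeasureTheory Set Function Filter

namespace Crest.Agent.X212.Mon62
open An Sob92 Prm93 Wz78 Dgr80 Nd18 Dm
open Ell97 (UB)
open Cyc79 (Cy)
open Nk89 (wm)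

section time
variable {p q : Option ℝ} {d s : ℝ}

/-- `0` at `0`, `1` on the values of `ct d` at depth `≥ d + 1/4` -/
def th (v : ℝ) : ℝ := Real.smoothTransition (v / Real.smoothTransition (1 / 4) ^ 2)

theorem contDiff_th : ContDiff ℝ ∞ th :=
  Real.smoothTransition.contDiff.comp (contDiff_id.div_const _)

theorem th_zero (h : s ∉ Dp p q d) : th (ct p q d s) = 0 := by simp [ct_zero h, th]

theorem th_one (h : s ∈ Dp p q (d + 1 / 4)) : th (ct p q d s) = 1 := by
  have h0 : 0 < Real.smoothTransition (1 / 4) := Real.smoothTransition.pos_of_pos (by norm_num)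
  refine Real.smoothTransition.one_of_one_le ((one_le_div (by positivity)).2 ?_)
  have h1 : Real.smoothTransition (1 / 4) ≤ p.elim 1 fun a => Real.smoothTransition (s - a - d) := by
    cases p with
    | none => exact Real.smoothTransition.le_one _
    | some a => exact Real.smoothTransition.monotone (by linarith [h.1 a rfl])
  have h2 : Real.smoothTransition (1 / 4) ≤ q.elim 1 fun a => Real.smoothTransition (a - s - d) := by
    cases q with
    | none => exact Real.smoothTransition.le_one _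
    | some a => exact Real.smoothTransition.monotone (by linarith [h.2 a rfl])
  rw [sq]
  exact mul_le_mul h1 h2 h0.le (h0.le.trans h1)

theorem abs_fl_le (h : 0 ≤ s) : |fl s| ≤ 1 := by
  rcases le_total 1 s with h1 | h1
  · simp [fl_ge h1]
  have h2 := Real.smoothTransition.nonneg (2 * s - 1)
  have h3 := Real.smoothTransition.le_one (2 * s - 1)
  rw [fl, abs_le]
  constructor <;> nlinarith

theorem abs_tf_sub (h : s ∈ Jv p q) : |tf p q s - s| ≤ 2 := by
  have h1 : |p.elim 0 fun a => fl (s - a)| ≤ 1 := by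
    cases p with
    | none => simp
    | some a => exact abs_fl_le (sub_nonneg.2 (h.1 a rfl).le)
  have h2 : |q.elim 0 fun a => fl (a - s)| ≤ 1 := by
    cases q with
    | none => simp
    | some a => exact abs_fl_le (sub_nonneg.2 (h.2 a rfl).le)
  rw [abs_le] at h1 h2 ⊢
  unfold tf
  constructor <;> linarith [h1.1, h1.2, h2.1, h2.2]

theorem integrable_exp_abs {η : ℝ} (h : 0 < η) : Integrable fun s : ℝ => Real.exp (-(η * |s|)) := by
  rw [← integrableOn_univ, ← Iic_union_Ioi (a := (0 : ℝ))]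
  exact ((integrableOn_exp_mul_Iic h 0).congr_fun (fun s hs => by
    simp [abs_of_nonpos (show s ≤ 0 from hs)]) measurableSet_Iic).union
    ((integrableOn_exp_mul_Ioi (neg_neg_of_pos h) 0).congr_fun (fun s hs => by
      simp [abs_of_pos (show 0 < s from hs)]) measurableSet_Ioi)

end time

variable {E3 : Type} [NormedAddCommGroup E3] [NormedSpace ℝ E3] [FiniteDimensional ℝ E3]
  [MeasurableSpace E3] [BorelSpace E3]
  {H3 : Type} [TopologicalSpace H3] {I3 : ModelWithCorners ℝ E3 H3} [I3.Boundaryless]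
  {Y : Type} [TopologicalSpace Y] [ChartedSpace H3 Y] [IsManifold I3 ∞ Y] [T2Space Y]
  [MeasurableSpace Y] [BorelSpace Y] [SecondCountableTopology Y] [CompactSpace Y]
  {κ : Type} [Fintype κ] {lam : Type} [Fintype lam]
  {E : Type} [NormedAddCommGroup E] [NormedSpace ℝ E] [FiniteDimensional ℝ E]
  [MeasurableSpace E] [BorelSpace E]
  {HM : Type} [TopologicalSpace HM] {I : ModelWithCorners ℝ E HM} [I.Boundaryless]
  {M : Type} [TopologicalSpace M] [ChartedSpace HM M] [IsManifold I ∞ M] [MeasurableSpace M]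
  [T2Space M] [BorelSpace M] [SecondCountableTopology M] {DY : YD I3 Y κ lam}
  {N : Type} [NormedAddCommGroup N] [NormedSpace ℝ N]

theorem cbs_e {ι : Type} [Fintype ι] {F F' : Pre I M ι} (h : F.e = F'.e) {f : M → N} {C : ℕ → ℝ}
    (hf : F.CBs f C) : F'.CBs f C := by
  have e : ∀ (w : List ι) (u : M → N), F'.Dw w u = F.Dw w u := fun w => by
    induction w with
    | nil => exact fun _ => rfl
    | cons a w ih => exact fun u => by rw [Pre.Dw, Pre.Dw, ih, Pre.D_def, Pre.D_def, h]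
  exact ⟨hf.1, fun k w hw x => e w f ▸ hf.2 k w hw x⟩

theorem sfinite_μ {ι : Type} [Fintype ι] (F : Pre I M ι) : SFinite F.μ :=
  have := Manifold.locallyCompact_of_finiteDimensional (M := M) I
  inferInstance

section same
variable {B B' : Base M (Option κ) lam} {G G' : Geo I M (Option κ) lam}

/-- volume growth along a neck -/
theorem vg_nk (K : Nk DY B G) {η : ℝ} (hη : 0 < η) : VG (G.F.μ.restrict (K.dp (1 / 2))) K.τ η
    (Nka63.vY DY * (Real.exp (2 * η) * ∫ s : ℝ, Real.exp (-(η * |s|)))) := fun t => by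
  have h1 := ((integrable_exp_abs hη).comp_sub_right t).const_mul (Real.exp (2 * η))
  let g := (Dp K.p K.q (1 / 2)).indicator fun s => Real.exp (2 * η) * Real.exp (-(η * |s - t|))
  have h0 : ∀ s ∉ K.J, g s = 0 := fun s hs => indicator_of_notMem
    (fun e => hs (Dp_sub one_half_pos e)) _
  have h2 := Nka63.integrable_tm K (h1.indicator isClosed_Dp.measurableSet) h0
  have h3 : ∀ᵐ z ∂G.F.μ.restrict (K.dp (1 / 2)), Real.exp (-(η * |K.τ z - t|)) ≤ g (K.tm z) :=
    (ae_restrict_mem K.isClosed_dp.measurableSet).mono fun z hz => by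
      rw [show g (K.tm z) = _ from indicator_of_mem (s := Dp _ _ _) hz _, ← Real.exp_add,
        Real.exp_le_exp]
      have h4 := abs_tf_sub (Dp_sub one_half_pos hz)
      have h5 := abs_sub_le (K.tm z) (K.τ z) t
      rw [abs_sub_comm] at h4
      nlinarith [mul_le_mul_of_nonneg_left (h5.trans (add_le_add_left h4 _)) hη.le]
  have c := K.sm_τ.continuous
  have h4 : Integrable (fun z => Real.exp (-(η * |K.τ z - t|))) (G.F.μ.restrict (K.dp (1 / 2))) :=
    h2.restrict.mono' (Continuous.aestronglyMeasurable (by fun_prop))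
      (h3.mono fun z hz => by rwa [Real.norm_of_nonneg (Real.exp_pos _).le])
  have g0 : ∀ s, 0 ≤ g s := indicator_nonneg fun _ _ => by positivity
  refine ⟨h4, (integral_mono_ae h4 h2.restrict h3).trans
    ((setIntegral_le_integral h2 (.of_forall fun z => g0 _)).trans ?_)⟩
  rw [Nka63.integral_tm K h0, smul_eq_mul,
    ← integral_sub_right_eq_self (fun s => Real.exp (-(η * |s|))) t,
    ← integral_const_mul (Real.exp (2 * η))]
  exact mul_le_mul_of_nonneg_left (integral_mono (h1.indicator isClosed_Dp.measurableSet) h1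
    (indicator_le_self' fun _ _ => by positivity)) (Nka63.vY_nonneg DY)

/-- the same neck in two backgrounds -/
structure Same (K : Nk DY B G) (K' : Nk DY B' G') : Prop where
  p : K.p = K'.p
  q : K.q = K'.q
  ψ : ∀ z ∈ K.ψ.source, K.ψ z = K'.ψ z

theorem Same.refl (K : Nk DY B G) : Same K K := ⟨rfl, rfl, fun _ _ => rfl⟩

namespace Same
variable {K : Nk DY B G} {K' : Nk DY B' G'} (h : Same K K') {x : M} {d : ℝ}
include h

theorem src : K.ψ.source = K'.ψ.source := by rw [K.src, K'.src, h.p, h.q]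

theorem tgt : K.ψ.target = K'.ψ.target := by
  rw [← K.ψ.image_source_eq_target, ← K'.ψ.image_source_eq_target, ← h.src]
  exact image_congr h.ψ

theorem inv (hx : x ∈ K.ψ.target) : K.ψ.symm x = K'.ψ.symm x := by
  have h1 := K.ψ.map_target hx
  rw [← K'.ψ.left_inv (x := K.ψ.symm x) (h.src ▸ h1), ← h.ψ _ h1, K.ψ.right_inv hx]

theorem tm (hx : x ∈ K.ψ.target) : K.tm x = K'.tm x := by
  rw [← K.snd_symm hx, ← K'.snd_symm (h.tgt ▸ hx), h.inv hx]

theorem time {g : Option ℝ → Option ℝ → ℝ → N} (h0 : ∀ s ∉ K'.J, g K'.p K'.q s = 0) (x : M) :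
    g K.p K.q (K.tm x) = g K'.p K'.q (K'.tm x) := by
  rw [h.p, h.q]
  by_cases hx : x ∈ K.ψ.target
  · rw [h.tm hx]
  · rw [h0 _ (by rwa [K.tgt, h.p, h.q] at hx), h0 _ (by rwa [h.tgt, K'.tgt] at hx)]

theorem cut (hd : 0 < d) (x : M) : K.cut d (K.tm x) = K'.cut d (K'.tm x) :=
  h.time (g := fun p q => ct p q d) (fun _ hs => ct_zero fun e => hs (Dp_sub hd e)) x

theorem dp (hd : 0 < d) : K.dp d = K'.dp d := Set.ext fun x => by
  by_cases hx : x ∈ K.ψ.target
  · rw [Nk.dp, Nk.dp, mem_preimage, mem_preimage, h.tm hx, h.p, h.q]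
  · exact iff_of_false (fun e => hx (K.dp_sub hd e)) fun e => hx (h.tgt ▸ K'.dp_sub hd e)

theorem ext (f : Y → N) : K.ext f = K'.ext f := funext fun x => by
  by_cases hx : x ∈ K.ψ.target
  · rw [Nk.ext, Nk.ext, h.inv hx, Nk.χ, h.cut one_pos]; rfl
  · rw [K.ext_zero f fun e => hx (K.dp_sub one_pos e),
      K'.ext_zero f fun e => hx (h.tgt ▸ K'.dp_sub one_pos e)]

theorem τ (hx : x ∈ K.ψ.target) : K.τ x = K'.τ x := by rw [Nk.τ, Nk.τ, h.tm hx, h.p, h.q]

theorem dτ : ∀ a, G.F.D a K.τ = G'.F.D a K'.τ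
  | none => by
    rw [K.D_τ_none, K'.D_τ_none]
    exact funext (h.time (g := fun p q => deriv (tf p q))
      fun _ hs => Nka63.dtf_zero K'.len fun e => hs (Dp_sub one_half_pos e))
  | some a => by rw [K.D_τ_some, K'.D_τ_some]

theorem wn (δ t : ℝ) {w : M → ℝ} (hw : ∀ x ∉ K.dp 1, w x = 0) :
    wn G.F.μ K.τ δ w t = wn (G'.F.μ.restrict (K'.dp (1 / 2))) K'.τ δ w t := by
  have h0 : ∀ (τ : M → ℝ) d, d ≤ 1 → ∀ x ∉ K.dp d, b δ (τ x - t) • w x = 0 := fun _ d hd x hx => by
    rw [hw x fun e => hx (Nka63.dp_mono K hd e), smul_zero]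
  have h1 := fun τ x (hx : x ∉ K.ψ.target) => h0 τ 1 le_rfl x fun e => hx (K.dp_sub one_pos e)
  rw [Dgr80.wn, Dgr80.wn, ← h.dp one_half_pos,
    setIntegral_eq_integral_of_forall_compl_eq_zero (h0 _ _ (by norm_num)),
    Nka63.integral_eq_prod K (h1 _), Nka63.integral_eq_prod K' (h.tgt ▸ h1 _), ← Nka63.restrict_src,
    ← Nka63.restrict_src, ← h.src]
  exact setIntegral_congr_fun K.ψ.open_source.measurableSet fun z hz => by
    simp only [← h.ψ z hz, h.τ (K.ψ.map_source hz)]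

end Same
end same

variable {J : Type} {X Q : J → Type} [∀ i, NormedAddCommGroup (X i)] [∀ i, NormedSpace ℝ (X i)]
  {D : Dm I M (Option κ) X Q} {μ : MF M (Option κ) lam J} {r n : ℕ} {c : CF D μ r}
  {B : J → Base M (Option κ) lam} {a : ∀ i, Q i → Option κ → M → En lam}
  (K : ∀ i y, Nk DY (B i) ⟨c.F i y, a i y⟩) {δ : ℝ} {j : ℕ}

/-- necks that do not depend on the parameter; the slope of the weight is less than `δ` -/
structure NE {G0 : J → Geo I M (Option κ) lam} (K0 : ∀ i, Nk DY (B i) (G0 i)) (δ : ℝ) : Prop where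
  e : ∀ i, (G0 i).F.e = (D.F i).e
  same : ∀ i y, Same (K i y) (K0 i)
  wt : ∃ (ψ : J → M → ℝ) (η C : ℝ), 0 < η ∧ η ≤ δ ∧ ∀ i, Continuous (ψ i) ∧
    (D.P i).μ = wm (G0 i).F.μ (ψ i) ∧ ∀ x ∈ (K0 i).dp (1 / 2), ∀ z ∈ (K0 i).dp (1 / 2),
      ψ i x - ψ i z ≤ C + (δ - η) * |(K0 i).tm x - (K0 i).tm z|

namespace NE
variable {K} {G0 : J → Geo I M (Option κ) lam} {K0 : ∀ i, Nk DY (B i) (G0 i)} (h : NE K K0 δ)
include h

theorem ub {f : J → M → N} {C : ℕ → ℝ} (hf : ∀ i, (G0 i).F.CBs (f i) C) : UB D.P f :=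
  ⟨C, fun i => cbs_e (h.e i) (hf i)⟩

theorem ucut {d : ℝ} (hd : 0 < d) : UB D.P fun i x => (K0 i).cut d ((K0 i).tm x) :=
  let ⟨_, hC⟩ := cbs_cut DY; h.ub fun i => hC (K0 i) d hd

theorem uτ (e : Option κ) : UB D.P fun i => (G0 i).F.D e (K0 i).τ :=
  let ⟨_, hC⟩ := cbs_Dτ DY; h.ub fun i => hC (K0 i) e

theorem we : D.WE δ (fun i => (G0 i).F.μ.restrict ((K0 i).dp (1 / 2))) (fun i => (K0 i).τ)
    fun i => (K0 i).dp (1 / 2) := by
  obtain ⟨ψ, η, C, h1, h2, h3⟩ := h.wt
  have ms := fun i => ((K0 i).isClosed_dp (d := 1 / 2)).measurableSet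
  refine ⟨h1.trans_le h2, fun i => (K0 i).sm_τ, fun e => ?_, ms,
    fun i => have := sfinite_μ (G0 i).F.toPre; inferInstance, fun i => ae_restrict_mem (ms i),
    ψ, η, C + (δ - η) * 4, _, h2, fun i => ⟨(h3 i).1, ?_, vg_nk _ h1, fun x hx z hz => ?_⟩⟩
  · simpa only [Pre.D_def, h.e] using h.uτ e
  · rw [(h3 i).2.1, wm, wm, restrict_withDensity (ms i)]
  · have h4 := abs_tf_sub (Dp_sub one_half_pos hx)
    have h5 := abs_tf_sub (Dp_sub one_half_pos hz)
    have h6 := abs_sub_le ((K0 i).tm x) ((K0 i).τ x) ((K0 i).tm z)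
    have h7 := abs_sub_le ((K0 i).τ x) ((K0 i).τ z) ((K0 i).tm z)
    rw [abs_sub_comm] at h4
    have h8 : |(K0 i).tm x - (K0 i).tm z| ≤ 4 + |(K0 i).τ x - (K0 i).τ z| := by
      unfold Nk.τ at *; linarith
    linarith [(h3 i).2.2 x hx z hz, mul_le_mul_of_nonneg_left h8 (sub_nonneg.2 h2)]

/-- **Fixed necks.** -/
theorem nh (hj : 4 ≤ j) : NH K δ j := by
  have ex : ∀ {V : Type} [NormedAddCommGroup V] [InnerProductSpace ℝ V] (l) (f : Y → V), Sm I3 f →
      D.A0 False l fun i y => (K i y).ext f := fun l f hf =>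
    let ⟨_, hC⟩ := cbs_ext DY hf
    (A0.fixed (h.ub fun i => hC (K0 i))).congr fun i y => congrFun ((h.same i y).ext f)
  refine ⟨ex _, ex _, fun e => (A0.fixed (h.uτ e)).congr fun i y => congrFun ((h.same i y).dτ e),
    fun d hd => (A0.fixed (h.ucut (one_pos.trans_le hd))).congr fun i y =>
      (h.same i y).cut (one_pos.trans_le hd), fun i _ x => th ((K0 i).cut (1 / 2) ((K0 i).tm x)),
    fun i y x hx => th_one (Dp_mono (by norm_num) (show x ∈ (K0 i).dp 1 from
      (h.same i y).dp one_pos ▸ hx)), fun s ε w h1 h2 => ?_⟩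
  refine (h.we.a0 (ub_nem contDiff_th (h.ucut one_half_pos)) (fun i => closure_minimal
    (fun x hx => by_contra fun e => hx (th_zero e)) (K0 i).isClosed_dp) s le_rfl hj h1).congr
    fun i y x => ?_
  by_cases hx : x ∈ (K0 i).dp (1 / 2)
  · rw [(h.same i y).wn δ _ (h2 i y), (h.same i y).τ ((h.same i y).tgt ▸
      (K0 i).dp_sub one_half_pos hx)]
  · exact (mul_eq_zero_of_left (th_zero hx) _).trans (mul_eq_zero_of_left (th_zero hx) _).symm

end NE

/-- finite necks inside a fixed compact set which depend smoothly on the parameter -/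
structure NF (P L : ∀ i, Q i → ℝ) : Prop where
  p : ∀ i y, (K i y).p = some (P i y)
  q : ∀ i y, (K i y).q = some (L i y)
  χ : ∃ χ : J → M → ℝ, (∀ l, 4 ≤ l → D.A0 True l fun i _ => χ i) ∧
    ∀ i y, ∀ x ∈ (K i y).dp (1 / 4), χ i x = 1
  us : ∀ {N : Type} [NormedAddCommGroup N] [NormedSpace ℝ N] (Φ : ℝ × ℝ × ℝ → ℝ) (f : Y → N) (d : ℝ),
    ContDiff ℝ ∞ Φ → Sm I3 f → 1 / 4 ≤ d →
    (∀ u v s, u + 2 ≤ v → s ∉ Dp (some u) (some v) d → Φ (u, v, s) = 0) → ∃ g, D.US g ∧
      ∀ i y x, g i (D.pt i y) x = Φ (P i y, L i y, (K i y).tm x) • f ((K i y).ψ.symm x).1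

theorem contDiff_ct3 (d : ℝ) : ContDiff ℝ ∞ fun z : ℝ × ℝ × ℝ => ct (some z.1) (some z.2.1) d z.2.2 :=
  (Real.smoothTransition.contDiff.comp (f := fun z : ℝ × ℝ × ℝ => z.2.2 - z.1 - d)
    (by fun_prop)).mul (Real.smoothTransition.contDiff.comp
      (f := fun z : ℝ × ℝ × ℝ => z.2.1 - z.2.2 - d) (by fun_prop))

theorem contDiff_tf3 : ContDiff ℝ ∞ fun z : ℝ × ℝ × ℝ => tf (some z.1) (some z.2.1) z.2.2 :=
  ((contDiff_snd.comp contDiff_snd).sub (contDiff_fl.comp (f := fun z : ℝ × ℝ × ℝ => z.2.2 - z.1)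
    (by fun_prop))).add (contDiff_fl.comp (f := fun z : ℝ × ℝ × ℝ => z.2.1 - z.2.2) (by fun_prop))

theorem contDiff_dtf3 :
    ContDiff ℝ ∞ fun z : ℝ × ℝ × ℝ => deriv (tf (some z.1) (some z.2.1)) z.2.2 := by
  have h := (contDiff_infty_iff_deriv.1 contDiff_fl).2
  simp only [deriv_tf]
  exact (contDiff_const.add (contDiff_const.mul (h.comp (f := fun z : ℝ × ℝ × ℝ => z.2.2 + -z.1)
    (by fun_prop)))).add (contDiff_const.mul (h.comp (f := fun z : ℝ × ℝ × ℝ => z.2.1 - z.2.2)
      (by fun_prop)))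

namespace NF
variable {K} {P L : ∀ i, Q i → ℝ} (h : NF K P L) {ε : Prop}
include h

theorem len (i : J) (y : Q i) : P i y + 2 ≤ L i y := (K i y).len _ (h.p i y) _ (h.q i y)

/-- families supported in the neck are pure -/
theorem pure {V : Type} [NormedAddCommGroup V] [InnerProductSpace ℝ V] [CompleteSpace V]
    (hj : 4 ≤ j) {w : ∀ i, Q i → M → V} {ε' : Prop} (hw : D.A0 ε' j w)
    (h0 : ∀ i y, ∀ x ∉ (K i y).dp (1 / 4), w i y x = 0) : D.A0 ε j w := by
  obtain ⟨χ, c1, c2⟩ := h.χ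
  refine ((A0.smul (Lev.left (by omega) (by omega)) hj (c1 (j + 7) (by omega)) hw).imp
    fun _ => .inl trivial).congr fun i y x => ?_
  by_cases hx : x ∈ (K i y).dp (1 / 4)
  · rw [c2 i y x hx, one_smul]
  · rw [h0 i y x hx, smul_zero]

theorem a0 {V : Type} [NormedAddCommGroup V] [InnerProductSpace ℝ V] [CompleteSpace V]
    (hj : 4 ≤ j) {Φ : ℝ × ℝ × ℝ → ℝ} {f : Y → V} {d : ℝ} (h1 : ContDiff ℝ ∞ Φ) (h2 : Sm I3 f)
    (hd : 1 / 4 ≤ d) (h3 : ∀ u v s, u + 2 ≤ v → s ∉ Dp (some u) (some v) d → Φ (u, v, s) = 0) :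
    D.A0 ε j fun i y x => Φ (P i y, L i y, (K i y).tm x) • f ((K i y).ψ.symm x).1 := by
  obtain ⟨g, g1, g2⟩ := h.us Φ f d h1 h2 hd h3
  obtain ⟨χ, c1, c2⟩ := h.χ
  have h0 : ∀ i y, ∀ x ∉ (K i y).dp (1 / 4), g i (D.pt i y) x = 0 := fun i y x hx => by
    rw [g2, h3 _ _ _ (h.len i y) fun e => hx (Nka63.dp_mono _ hd (by
      rwa [Nk.dp, h.p, h.q])), zero_smul]
  have h4 : ∀ i y x, χ i x • g i (D.pt i y) x = g i (D.pt i y) x := fun i y x => by
    by_cases hx : x ∈ (K i y).dp (1 / 4)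
    · rw [c2 i y x hx, one_smul]
    · rw [h0 i y x hx, smul_zero]
  exact (h.pure hj (A0.loc hj g1 (c1 j hj) fun i y x => by rw [smul_sub, h4, h4]) h0).congr
    fun i y x => (g2 i y x).symm

theorem time (hj : 4 ≤ j) {g : Option ℝ → Option ℝ → ℝ → ℝ} {d : ℝ}
    (h1 : ContDiff ℝ ∞ fun z : ℝ × ℝ × ℝ => g (some z.1) (some z.2.1) z.2.2) (hd : 1 / 4 ≤ d)
    (h3 : ∀ u v s, u + 2 ≤ v → s ∉ Dp (some u) (some v) d → g (some u) (some v) s = 0) :
    D.A0 ε j fun i y x => g (K i y).p (K i y).q ((K i y).tm x) :=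
  (h.a0 hj (f := fun _ => (1 : ℝ)) h1 contMDiff_const hd h3).congr fun i y x => by
    rw [h.p, h.q, smul_eq_mul, mul_one]

theorem cut (hj : 4 ≤ j) {d : ℝ} (hd : 1 / 4 ≤ d) :
    D.A0 ε j fun i y x => (K i y).cut d ((K i y).tm x) :=
  h.time hj (g := fun p q => ct p q d) (contDiff_ct3 d) hd fun _ _ _ _ => ct_zero

theorem dτ (hj : 4 ≤ j) : ∀ e, D.A0 ε j fun i y => (c.F i y).D e (K i y).τ
  | none => (h.time hj (g := fun p q => deriv (tf p q)) contDiff_dtf3 (d := 1 / 2) (by norm_num)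
      fun u v s k => Nka63.dtf_zero (by simpa using k)).congr
      fun i y => congrFun (K i y).D_τ_none
  | some e => A0.zero.congr fun i y => congrFun ((K i y).D_τ_some e)

theorem ext {V : Type} [NormedAddCommGroup V] [InnerProductSpace ℝ V] [CompleteSpace V]
    (hj : 4 ≤ j) {f : Y → V} (hf : Sm I3 f) : D.A0 ε j fun i y => (K i y).ext f :=
  (h.a0 hj (contDiff_ct3 1) hf (by norm_num) fun _ _ _ _ => ct_zero).congr fun i y x => by
    rw [Nk.ext, Nk.χ, Nk.cut, h.p, h.q]

/-- **Moving compact necks.** -/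
theorem nh (hF : D.FF c.G) (hj : 4 ≤ j) : NH K δ j := by
  refine ⟨fun f => h.ext (by omega), fun f => h.ext hj, h.dτ hj,
    fun d hd => h.cut hj (by linarith),
    fun i y x => th ((K i y).cut (1 / 2) ((K i y).tm x)),
    fun i y x hx => th_one (Dp_mono (by norm_num) hx), fun s ε w h1 h2 => ?_⟩
  obtain ⟨τ, t1, t2⟩ := h.us (fun z => th (ct (some z.1) (some z.2.1) (1 / 4) z.2.2) *
    tf (some z.1) (some z.2.1) z.2.2) (fun _ => (1 : ℝ)) (1 / 4)
    ((contDiff_th.comp (contDiff_ct3 _)).mul contDiff_tf3) contMDiff_const le_rfl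
    fun _ _ _ _ k => mul_eq_zero_of_left (th_zero k) _
  have t3 : ∀ i y, ∀ x ∈ (K i y).dp (1 / 2), τ i (D.pt i y) x = (K i y).τ x := fun i y x hx => by
    rw [t2, ← h.p, ← h.q, th_one (by norm_num; exact hx), one_mul, smul_eq_mul, mul_one]; rfl
  obtain ⟨χ, c1, c2⟩ := h.χ
  have h0 : ∀ i y, ∀ x ∉ (K i y).dp (1 / 4), w i y x = 0 := fun i y x hx => h2 i y x fun e =>
    hx (Nka63.dp_mono _ (by norm_num) e)
  obtain ⟨g, g1, g2⟩ := (c1 4 le_rfl).us_wn hF t1 δ s le_rfl (h.pure le_rfl h1 h0) fun i y x => by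
    by_cases hx : x ∈ (K i y).dp (1 / 4)
    · rw [c2 i y x hx, one_mul]
    · rw [h0 i y x hx, mul_zero]
  refine ((h.time hj (g := fun p q s => th (ct p q (1 / 2) s)) (contDiff_th.comp (contDiff_ct3 _))
    (d := 1 / 2) (by norm_num) fun _ _ _ _ => th_zero).us_smul hj g1).congr fun i y x => ?_
  by_cases hx : x ∈ (K i y).dp (1 / 2)
  · rw [g2, t3 i y x hx, smul_eq_mul, mul_comm]
    refine congrArg (· * _) (integral_congr_ae (.of_forall fun z => ?_))
    by_cases hz : z ∈ (K i y).dp 1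
    · simp only [t3 i y z (Nka63.dp_mono _ (by norm_num) hz)]
    · simp only [h2 i y z hz, smul_zero]
  · exact (mul_eq_zero_of_left (th_zero hx) _).trans (mul_eq_zero_of_right _ (th_zero hx)).symm

theorem oc {N : ND Y lam} (o : c.OK ε j) (hy : ∀ i, Sm I3 (N.y i)) {T : YT Y} (hT : T.OK I3) :
    D.A0 True j fun i y => N.oc (K i y) T (c.c i y) :=
  h.pure o.h4 ((h.nh o.F o.h4).oc o hy hT) fun i y x hx => mul_eq_zero_of_left
    (((K i y).cut_τ (by norm_num) x).trans (ct_zero fun e => hx (Dp_mono (by norm_num) e))) _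

end NF

/-! ### homogeneity of the gradients -/

section hom
open Mp86 (Mc Bumps res_smul)
variable {ι : Type} [Fintype ι] {F : Fr I M ι} (hB : Bumps I F.e F.dv) (t : ℝ)
include hB

section eng
variable {V U : Type} [NormedAddCommGroup V] [InnerProductSpace ℝ V] [CompleteSpace V]
  [NormedAddCommGroup U] [InnerProductSpace ℝ U] [CompleteSpace U] {A : ι → M → CL V V}
  (hA : Mc I A)
include hA

theorem bk_smul (w : List (SL M V)) (l : M → V) :
    bk F A w (fun y => t • l y) = fun y => t • bk F A w l y := by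
  induction w generalizing l with
  | nil => rfl
  | cons s w ih =>
    cases s with
    | op T => simp only [bk, slT, map_smul, ih]
    | G => simp only [bk, slT, res_smul hB hA, ih]

theorem gc_smul (ρ : CL U (CL V V)) (s : M → V) (w : List (SL M V)) (l : M → V) (y : M) :
    gc F A ρ s w (fun y => t • l y) y = t • gc F A ρ s w l y := by
  induction w generalizing l with
  | nil => exact (smul_zero _).symm
  | cons s w ih =>
    cases s with
    | op T => simp only [gc, slT, map_smul, ih]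
    | G =>
      simp only [gc, res_smul hB hA, ih, smul_sub]
      congr 1
      ext1 b
      simp only [cur, nab_csmul b t (Mp86.sm_res F A l y), tp, map_smul,
        smul_apply, PiLp.smul_apply, smul_add]

end eng

variable {c : Cfg M ι lam r} (hW : Mc I c.W) (hA : Mc I (c.m.adW c.W))

omit hB in
/-- homogeneous gradients -/
structure DH (c : Cfg M ι lam r) (d : Den M ι lam r) : Prop where
  A : ∀ (t : ℝ) f x, d.gA c (fun y => t * f y) x = t • d.gA c f x
  P : ∀ (t : ℝ) f x, d.gP c (fun y => t * f y) x = t • d.gP c f x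

omit hB in
/-- homogeneous gradients -/
structure SH (c : Cfg M ι lam r) (S : Sed M ι lam r) : Prop where
  A : ∀ (t : ℝ) l x, S.sA c (fun y => t • l y) x = t • S.sA c l x
  P : ∀ (t : ℝ) l, S.sP c (fun y => t • l y) = fun x => t • S.sP c l x

omit hB in
theorem DH.cut {d : Den M ι lam r} (h : DH c d) (χ : M → ℝ) : DH c (dcut χ d) :=
  ⟨fun t f x => by simpa only [dcut, mul_assoc] using h.A t _ x,
    fun t f x => by simpa only [dcut, mul_assoc] using h.P t _ x⟩

omit hB in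
theorem SH.sed {S S' : Sed M ι lam r} (h : SH c S) (h' : SH c S') : DH c (Den.sed S S') :=
  ⟨fun t f x => by simp only [Den.sed, mul_smul, h.A, h'.A, smul_add],
    fun t f x => by simp only [Den.sed, mul_smul, h.P, h'.P, smul_add]⟩

include hW in
theorem dh_sw (T : Pk M lam) (u v : SW M) : DH c (Den.sw F T u v) :=
  ⟨fun t f x => by simp only [Den.sw, mul_smul, swA, gc_smul hB t hW, smul_add],
    fun t f x => by
      simp only [Den.sw, mul_smul, swP, bk_smul hB t hW, dn, real_inner_smul_right]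
      module⟩

include hA

theorem SH.wd {S : Sed M ι lam r} (h : SH c S) (w : List (La M)) : SH c (S.wd F w) :=
  ⟨fun t l x => by simp only [Sed.wd, gc_smul hB t hA, bk_smul hB t hA, h.A, smul_add],
    fun t l => by simp only [Sed.wd, bk_smul hB t hA, h.P]⟩

theorem sh_cyc (d : Cy M) : SH c (d.sed F) := by
  have h : Mc I (Cyc79.AA F c) :=
    ⟨Cyc79.sm_aA hA.sm, fun a x => Cyc79.skew_amp (hA.sk a x)⟩
  refine ⟨fun t l x => ?_, fun t l => funext fun x => (smul_zero t).symm⟩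
  have e : ∀ u, Cyc79.adl F c (fun y => t • l y) u = fun y => t • Cyc79.adl F c l u y :=
    fun u => funext fun y => by simp only [Cyc79.adl, map_smul, smul_apply]
  simp only [Cy.sed, Cyc79.gh, e, gc_smul hB t h, bk_smul hB t h, smul_add, smul_sub]

end hom

section smul
variable {B : Base M (Option κ) lam} {G : Geo I M (Option κ) lam} (K : Nk DY B G) {N : ND Y lam}
  {c : Cfg M (Option κ) lam r} (hB : Mp86.Bumps I G.F.e G.F.dv) (hc : c.m.IsConn B G c.W)
  (hN : ContDiff ℝ ∞ N.φ) (t : ℝ)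
include hB hc

theorem dh_dg (k : N.J) : DH c ((N.dg K).d k) := by
  have h1 := Mp86.mc_W hc
  have h2 := Mp86.mc_adW hc
  rcases k with k | k | k
  · simp only [ND.dg, Sum.elim_inl]
    cases N.d0 k with
    | sw u v => exact (dh_sw hB h1 _ _ _).cut _
    | cy d w d' w' => exact (((sh_cyc hB h2 _).wd hB h2 _).sed ((sh_cyc hB h2 _).wd hB h2 _)).cut _
  · exact (dh_sw hB h1 _ _ _).cut _
  · exact (dh_sw hB h1 _ _ _).cut _

include hN

omit hB hc in
theorem β_smul (k : N.J) (s : ℝ) :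
    ((N.smul t).dg K).β G.F c k s = t * (N.dg K).β G.F c k s := by
  refine Eq.trans (integral_congr_ae (.of_forall fun u => ?_)) (integral_const_mul t _)
  have := fderiv_const_smul (𝕜 := ℝ) (((hN.comp (contDiff_cx N)).differentiable (by simp))
    ((N.dg K).Iv G.F c u)) t
  refine (congrArg (fun L : (N.J → ℝ) →L[ℝ] ℝ => K.cut 3 u * L (Pi.single k 1) * b N.δ (s - u))
    this).trans ?_
  change K.cut 3 u * (t * _) * _ = t * (K.cut 3 u * _ * _)
  rw [mul_left_comm, mul_assoc t]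
  rfl

/-- **`q1` is homogeneous in `φ`.** -/
theorem q1_smul (x : M) :
    ((N.smul t).q1 (n := n) K).D c x = t • (N.q1 (n := n) K).D c x ∧
    ((N.smul t).q1 (n := n) K).C c x = t • (N.q1 (n := n) K).C c x := by
  have hP : ((N.smul t).dg K).gP G.F c x = t • (N.dg K).gP G.F c x := by
    refine (Finset.sum_congr rfl fun (k : N.J) _ => ?_).trans Finset.smul_sum.symm
    exact (congrArg (((N.dg K).d k).gP c · x) (funext fun y => β_smul K hN t k _)).trans
      ((dh_dg K hB hc k).P t _ x)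
  have hA : ((N.smul t).dg K).gA G.F c x = t • (N.dg K).gA G.F c x := by
    refine (Finset.sum_congr rfl fun (k : N.J) _ => ?_).trans Finset.smul_sum.symm
    exact (congrArg (((N.dg K).d k).gA c · x) (funext fun y => β_smul K hN t k _)).trans
      ((dh_dg K hB hc k).A t _ x)
  constructor
  · simp only [ND.q1, DG.q1, hP, map_smul, smul_neg, Finset.smul_sum, smul_comm t]
    rfl
  · simp only [ND.q1, DG.q1, hA]
    rw [smul_comm t, ← map_smul _ t]
    congr 2
    exact PiLp.ext fun s => smul_comm (G.F.D s.1 K.τ x) t ((N.dg K).gA G.F c x s.2)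

end smul

end Crest.Agent.X212.Mon62
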