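import Crest.Agent.X212.Sob92.Bil

/-! # Row 212, WORDH: composition with a smooth function, estimates for test functions -/

set_option autoImplicit false
set_option linter.unusedSectionVars false
noncomputable section
open scoped Manifold ContDiff Topology InnerProductSpace
open MeasureTheory Set Function Filter

namespace Crest.Agent.X212.Mon62
open An Sob92

variable {E : Type} [NormedAddCommGroup E] [NormedSpace ℝ E] [FiniteDimensional ℝ E]
  [MeasurableSpace E] [BorelSpace E]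
  {HM : Type} [TopologicalSpace HM] {I : ModelWithCorners ℝ E HM}
  {M : Type} [TopologicalSpace M] [ChartedSpace HM M] [IsManifold I ∞ M]
  [MeasurableSpace M] {ι : Type} [Fintype ι] {F : Pre I M ι}
  {V : Type} [NormedAddCommGroup V] [InnerProductSpace ℝ V]

theorem cd_deriv {h : ℝ → ℝ} (hh : ContDiff ℝ ∞ h) : ContDiff ℝ ∞ (deriv h) :=
  (contDiff_infty_iff_deriv.1 hh).2

theorem sm_comp {h : ℝ → ℝ} (hh : ContDiff ℝ ∞ h) {u : M → ℝ} (hu : Sm I u) :
    Sm I fun x => h (u x) := hh.contMDiff.comp hu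

theorem D_comp {h : ℝ → ℝ} (hh : ContDiff ℝ ∞ h) {u : M → ℝ} (hu : Sm I u) (a : ι) :
    F.D a (fun x => h (u x)) = fun x => deriv h (u x) * F.D a u x := by
  funext x
  have h1 := dv_comp (e := F.e a) (hu.mdifferentiableAt (x := x) (by simp))
    ((hh.differentiable (by simp) (u x)).hasDerivAt.hasFDerivAt)
  refine h1.trans ?_
  simp [Pre.D, mul_comm]

theorem exists_bound {h : ℝ → ℝ} (hh : Continuous h) (ρ : ℝ) :
    ∃ L, 0 ≤ L ∧ ∀ t, |t| ≤ ρ → |h t| ≤ L := by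
  obtain ⟨L, hL⟩ := (isCompact_Icc (a := -ρ) (b := ρ)).exists_bound_of_continuousOn hh.continuousOn
  exact ⟨|L|, abs_nonneg _, fun t ht => (hL t (abs_le.1 ht)).trans (le_abs_self L)⟩

theorem exists_lip {h : ℝ → ℝ} (hh : ContDiff ℝ ∞ h) (ρ : ℝ) :
    ∃ L, 0 ≤ L ∧ ∀ s t, |s| ≤ ρ → |t| ≤ ρ → |h t - h s| ≤ L * |t - s| := by
  obtain ⟨L, h0, hL⟩ := exists_bound (cd_deriv hh).continuous ρ
  exact ⟨L, h0, fun s t hs ht => (convex_Icc (-ρ) ρ).norm_image_sub_le_of_norm_deriv_le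
    (fun x _ => hh.differentiable (by simp) x) (fun x hx => hL x (abs_le.2 hx)) (abs_le.1 hs)
    (abs_le.1 ht)⟩

/-- composition, bounded derivatives (uniform in the function) -/
theorem CB_comp (C : ℕ → ℝ) (k : ℕ) : ∀ {h : ℝ → ℝ}, ContDiff ℝ ∞ h → ∃ K, ∀ (F : Pre I M ι)
    (u : M → ℝ), F.CBs u C → F.CB k (fun x => h (u x)) K := by
  induction k with
  | zero =>
    intro h hh
    obtain ⟨L, -, hL⟩ := exists_bound hh.continuous (C 0)
    exact ⟨L, fun F u hu => CB_zero.2 fun x => hL _ (CB_bound (hu.2 0) x)⟩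
  | succ k ih =>
    intro h hh
    obtain ⟨L, -, hL⟩ := exists_bound hh.continuous (C 0)
    obtain ⟨K, hK⟩ := ih (cd_deriv hh)
    refine ⟨max L (2 ^ (k + 1) * ‖ContinuousLinearMap.mul ℝ ℝ‖ * |K| * |C (k + 1)|),
      fun F u hu => CB_succ.2 ⟨fun x => (hL _ (CB_bound (hu.2 0) x)).trans (le_max_left _ _),
        fun a => ?_⟩⟩
    rw [D_comp hh hu.1]
    exact CB_mono (CB_bil (ContinuousLinearMap.mul ℝ ℝ) (sm_comp (cd_deriv hh) hu.1)
      (F.sm_D hu.1 a) (hK F u hu) (CB_D (hu.2 (k + 1)) a)) (le_max_right _ _)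

theorem Cb_comp_fun {h : ℝ → ℝ} (hh : ContDiff ℝ ∞ h) {u : M → ℝ} (hu : F.Cb u) :
    F.Cb fun x => h (u x) := by
  obtain ⟨C, hu⟩ := hu
  choose K hK using fun k => CB_comp (I := I) (M := M) (ι := ι) C k hh
  exact ⟨K, sm_comp hh hu.1, fun k => hK k F u hu⟩

variable [T2Space M] [BorelSpace M]

theorem nrm_zero_le {W : Type} [NormedAddCommGroup W] [InnerProductSpace ℝ W] {u : M → V}
    {v : M → W} {L : ℝ} (hL : 0 ≤ L) (hv : Sm I v) (hc : HasCompactSupport v)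
    (h : ∀ x, ‖u x‖ ≤ L * ‖v x‖) : F.nrm 0 u ≤ L * F.nrm 0 v := by
  refine nrm_le_of_sq (mul_nonneg hL (nrm_nonneg _ _)) ?_
  rw [mul_pow, nrm_sq, ← ip_eq, ← ip_eq]
  simp only [Pre.ip, real_inner_self_eq_norm_sq]
  rw [← integral_const_mul]
  refine integral_mono_of_nonneg (Eventually.of_forall fun x => sq_nonneg _) ?_
    (Eventually.of_forall fun x => ?_)
  · have := F.integrable_inner hv.continuous hc hv.continuous
    simp only [real_inner_self_eq_norm_sq] at this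
    exact this.const_mul _
  · simp only [← mul_pow]
    exact pow_le_pow_left₀ (norm_nonneg _) (h x) 2

theorem nrm_succ_le (k : ℕ) (u : M → V) :
    F.nrm (k + 1) u ≤ F.nrm 0 u + ∑ a, F.nrm k (F.D a u) := by
  have h0 : 0 ≤ ∑ a, F.nrm k (F.D a u) := Finset.sum_nonneg fun _ _ => nrm_nonneg _ _
  refine abs_le_of_sq_le_sq' ?_ (add_nonneg (nrm_nonneg _ _) h0) |>.2
  rw [nrm_succ_sq]
  have h1 : ∑ a, F.nrm k (F.D a u) ^ 2 ≤ (∑ a, F.nrm k (F.D a u)) ^ 2 :=
    Finset.sum_sq_le_sq_sum_of_nonneg fun _ _ => nrm_nonneg _ _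
  nlinarith [mul_nonneg (nrm_nonneg (F := F) 0 u) h0]

theorem hcs_comp_sub (h : ℝ → ℝ) (u : M → ℝ) {σ τ : M → ℝ} (hσ : HasCompactSupport σ)
    (hτ : HasCompactSupport τ) : HasCompactSupport fun x => h (u x + τ x) - h (u x + σ x) :=
  (hτ.sub hσ).mono fun x hx h0 => hx (by
    have h1 : τ x = σ x := sub_eq_zero.1 h0
    simp only [h1, sub_self])

variable [SecondCountableTopology M]

theorem nrm_mul_le {S : ℝ} (hS : Sup F S) {k l : ℕ} (hk : 7 ≤ k) (hl : l ≤ k) {u v : M → ℝ}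
    (hu : Sm I u) (hc : HasCompactSupport u) (hv : Sm I v) (hc' : HasCompactSupport v) :
    F.nrm l (fun x => u x * v x) ≤
      cB ι l l S ‖ContinuousLinearMap.mul ℝ ℝ‖ * F.nrm l u * F.nrm k v :=
  nrm_bil hS (Lev.right hk hl) (β := fun _ => ContinuousLinearMap.mul ℝ ℝ) contMDiff_const
    (CB_const l _) hu hc hv hc'

/-- **Moser estimate**: composition is Lipschitz on balls (uniform in the frame and the base). -/
theorem nem_lip (S : ℝ) (C : ℕ → ℝ) {k : ℕ} (hk : 7 ≤ k) (R : ℝ) (l : ℕ) (hl : l ≤ k + 1) :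
    ∀ {h : ℝ → ℝ}, ContDiff ℝ ∞ h → ∃ L, 0 ≤ L ∧ ∀ (F : Pre I M ι) (u σ τ : M → ℝ), Sup F S →
      F.CBs u C → Sm I σ → HasCompactSupport σ → Sm I τ → HasCompactSupport τ →
      F.nrm (k + 1) σ ≤ R → F.nrm (k + 1) τ ≤ R →
      F.nrm l (fun x => h (u x + τ x) - h (u x + σ x)) ≤ L * F.nrm (k + 1) (τ - σ) := by
  have h0 : ∀ {h : ℝ → ℝ}, ContDiff ℝ ∞ h → ∃ L, 0 ≤ L ∧ ∀ (F : Pre I M ι) (u σ τ : M → ℝ),
      Sup F S → F.CBs u C → Sm I σ → HasCompactSupport σ → Sm I τ → HasCompactSupport τ →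
      F.nrm (k + 1) σ ≤ R → F.nrm (k + 1) τ ≤ R →
      F.nrm 0 (fun x => h (u x + τ x) - h (u x + σ x)) ≤ L * F.nrm (k + 1) (τ - σ) := by
    intro h hh
    obtain ⟨L, hL0, hL⟩ := exists_lip hh (C 0 + √|S| * R)
    refine ⟨L, hL0, fun F u σ τ hS hu hσ cσ hτ cτ rσ rτ => ?_⟩
    have hb : ∀ {σ : M → ℝ}, Sm I σ → HasCompactSupport σ → F.nrm (k + 1) σ ≤ R → ∀ x,
        |u x + σ x| ≤ C 0 + √|S| * R := fun hσ cσ rσ x =>
      (abs_add_le _ _).trans (add_le_add (CB_bound (hu.2 0) x) ((CB_bound (hS.CB 0 hσ cσ) x).trans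
        (mul_le_mul_of_nonneg_left ((nrm_mono (by omega) _).trans rσ) (Real.sqrt_nonneg _))))
    refine (nrm_zero_le hL0 (hτ.sub hσ) (cτ.sub cσ) fun x => ?_).trans
      (mul_le_mul_of_nonneg_left (nrm_mono (Nat.zero_le _) _) hL0)
    simpa using hL _ _ (hb hσ cσ rσ x) (hb hτ cτ rτ x)
  induction l with
  | zero => exact @h0
  | succ l ih =>
    intro h hh
    obtain ⟨L₀, p₀, H₀⟩ := h0 hh
    obtain ⟨L₁, p₁, H₁⟩ := ih (by omega) (cd_deriv hh)
    obtain ⟨K, hK⟩ := CB_comp (I := I) (M := M) (ι := ι) C l (cd_deriv hh)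
    set b := cB ι l l S ‖ContinuousLinearMap.mul ℝ ℝ‖
    have hb : 0 ≤ b := cB_nonneg _ _
    have hc := cK_nonneg (ι := ι) l
    refine ⟨L₀ + Fintype.card ι * (cK ι l * |C (l + 1)| * L₁ + b * L₁ * |R| + cK ι l * |K| +
      b * (L₁ * |R|)), by positivity, fun F u σ τ hS hu hσ cσ hτ cτ rσ rτ => ?_⟩
    refine (nrm_succ_le l _).trans ?_
    rw [add_mul, mul_assoc]
    refine add_le_add (H₀ F u σ τ hS hu hσ cσ hτ cτ rσ rτ)
      ((Finset.sum_le_card_nsmul _ _ _ fun a _ => ?_).trans (by rw [nsmul_eq_mul, Finset.card_univ]))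
    set d := F.nrm (k + 1) (τ - σ)
    have hd : 0 ≤ d := nrm_nonneg _ _
    have hR : 0 ≤ R := (nrm_nonneg _ _).trans rσ
    have su : ∀ {σ : M → ℝ}, Sm I σ → Sm I fun x => u x + σ x := fun hσ => hu.1.add hσ
    have z0 : F.nrm (k + 1) (fun _ : M => (0 : ℝ)) ≤ R := by
      have := nrm_const_smul (F := F) (k + 1) 0 hσ
      rw [zero_smul, abs_zero, zero_mul] at this
      exact (le_of_eq this).trans hR
    let Δ : M → ℝ := fun x => deriv h (u x + τ x) - deriv h (u x + σ x)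
    let Δ₀ : M → ℝ := fun x => deriv h (u x + τ x) - deriv h (u x + 0)
    have sΔ : Sm I Δ := (sm_comp (cd_deriv hh) (su hτ)).sub (sm_comp (cd_deriv hh) (su hσ))
    have sΔ₀ : Sm I Δ₀ :=
      (sm_comp (cd_deriv hh) (su hτ)).sub (sm_comp (cd_deriv hh) (su contMDiff_const))
    have cΔ : HasCompactSupport Δ := hcs_comp_sub _ u cσ cτ
    have cΔ₀ : HasCompactSupport Δ₀ := hcs_comp_sub _ u HasCompactSupport.zero cτ
    have nΔ : F.nrm l Δ ≤ L₁ * d := H₁ F u σ τ hS hu hσ cσ hτ cτ rσ rτ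
    have nΔ₀ : F.nrm l Δ₀ ≤ L₁ * |R| := by
      have := H₁ F u (fun _ => 0) τ hS hu contMDiff_const HasCompactSupport.zero hτ cτ z0 rτ
      rw [show (τ - fun _ => 0) = τ from sub_zero τ] at this
      exact this.trans (mul_le_mul_of_nonneg_left (rτ.trans (le_abs_self R)) p₁)
    have sη : Sm I (F.D a (τ - σ)) := F.sm_D (hτ.sub hσ) a
    have cη : HasCompactSupport (F.D a (τ - σ)) := F.hcs_D (cτ.sub cσ) a
    have nη : F.nrm k (F.D a (τ - σ)) ≤ d := nrm_D_le k _ a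
    have nσ : F.nrm k (F.D a σ) ≤ |R| := (nrm_D_le k _ a).trans (rσ.trans (le_abs_self R))
    have e : F.D a (fun x => h (u x + τ x) - h (u x + σ x)) =
        ((fun x => F.D a u x • Δ x) + fun x => Δ x * F.D a σ x) +
          ((fun x => deriv h (u x) • F.D a (τ - σ) x) + fun x => Δ₀ x * F.D a (τ - σ) x) := by
      funext x
      have e1 := dv_sub (e := F.e a) (x := x)
        ((sm_comp hh (su hτ)).mdifferentiableAt (by simp))
        ((sm_comp hh (su hσ)).mdifferentiableAt (by simp))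
      have e2 := congrFun (D_comp (F := F) hh (su hτ) a) x
      have e3 := congrFun (D_comp (F := F) hh (su hσ) a) x
      have e4 := congrFun (F.D_add hu.1 hτ a) x
      have e5 := congrFun (F.D_add hu.1 hσ a) x
      have e6 : F.D a (τ - σ) x = F.D a τ x - F.D a σ x :=
        dv_sub (hτ.mdifferentiableAt (by simp)) (hσ.mdifferentiableAt (by simp))
      refine e1.trans ?_
      change F.D a (fun x => h (u x + τ x)) x - F.D a (fun x => h (u x + σ x)) x = _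
      rw [e2, e3]
      change deriv h (u x + τ x) * F.D a (u + τ) x - deriv h (u x + σ x) * F.D a (u + σ) x = _
      rw [e4, e5]
      simp only [Pi.add_apply, e6, smul_eq_mul, Δ, Δ₀, add_zero]
      ring
    have s1 : Sm I fun x => F.D a u x • Δ x := (F.sm_D hu.1 a).smul sΔ
    have s2 : Sm I fun x => Δ x * F.D a σ x := sΔ.mul (F.sm_D hσ a)
    have s3 : Sm I fun x => deriv h (u x) • F.D a (τ - σ) x := (sm_comp (cd_deriv hh) hu.1).smul sη
    have s4 : Sm I fun x => Δ₀ x * F.D a (τ - σ) x := sΔ₀.mul sη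
    have c1 : HasCompactSupport fun x => F.D a u x • Δ x := cΔ.mul_left
    have c2 : HasCompactSupport fun x => Δ x * F.D a σ x := cΔ.mul_right
    have c3 : HasCompactSupport fun x => deriv h (u x) • F.D a (τ - σ) x := cη.mul_left
    have c4 : HasCompactSupport fun x => Δ₀ x * F.D a (τ - σ) x := cη.mul_left
    have n1 := (nrm_smul (F.sm_D hu.1 a) sΔ (CB_D (hu.2 (l + 1)) a) (FL_of_hcs l sΔ cΔ)).trans
      (mul_le_mul_of_nonneg_left nΔ (by positivity))
    have n2 := (nrm_mul_le hS hk (by omega : l ≤ k) sΔ cΔ (F.sm_D hσ a) (F.hcs_D cσ a)).trans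
      (mul_le_mul (mul_le_mul_of_nonneg_left nΔ hb) nσ (nrm_nonneg _ _) (by positivity))
    have n3 := (nrm_smul (sm_comp (cd_deriv hh) hu.1) sη (hK F u hu) (FL_of_hcs l sη cη)).trans
      (mul_le_mul_of_nonneg_left ((nrm_mono (by omega : l ≤ k) _).trans nη) (by positivity))
    have n4 := (nrm_mul_le hS hk (by omega : l ≤ k) sΔ₀ cΔ₀ sη cη).trans
      (mul_le_mul (mul_le_mul_of_nonneg_left nΔ₀ hb) nη (nrm_nonneg _ _) (by positivity))
    rw [e]
    refine (nrm_add_le l (s1.add s2) (c1.add c2) (s3.add s4) (c3.add c4)).trans ?_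
    have a1 := nrm_add_le (F := F) l s1 c1 s2 c2
    have a2 := nrm_add_le (F := F) l s3 c3 s4 c4
    nlinarith

end Crest.Agent.X212.Mon62
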