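import Crest.Agent.X212.Mon62.Aff
import Crest.Agent.X212.Mon62.Nem0

/-! # Row 212, WORDH: Nemytskii operators on the Sobolev scale -/

set_option autoImplicit false
set_option linter.unusedSectionVars false
set_option maxSynthPendingDepth 3
noncomputable section
open scoped Manifold ContDiff Topology InnerProductSpace
open MeasureTheory Set Function Filter

namespace Crest.Agent.X212.Mon62
open An Sob92 Prm93
open Ell97 (UB)

section abs
variable {S H Z : Type*} [NormedAddCommGroup H] [NormedAddCommGroup Z] [CompleteSpace Z]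

/-- extension of maps that are Lipschitz on balls -/
theorem exists_lip_ext {e : S → H} (he : DenseRange e) {f : S → Z} {L : ℝ → ℝ}
    (h : ∀ R s t, ‖e s‖ ≤ R → ‖e t‖ ≤ R → ‖f t - f s‖ ≤ L R * ‖e t - e s‖) :
    ∃ N : H → Z, (∀ s, N (e s) = f s) ∧ Continuous N ∧
      ∀ R x y, ‖x‖ < R → ‖y‖ < R → ‖N y - N x‖ ≤ L R * ‖y - x‖ := by
  have nb : ∀ x, (comap e (𝓝 x)).NeBot := fun x => comap_neBot fun t ht => he.mem_nhds ht
  have ev : ∀ {R x}, ‖x‖ < R → ∀ᶠ s in comap e (𝓝 x), ‖e s‖ ≤ R := fun {R x} hx =>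
    (tendsto_comap.norm.eventually_lt_const hx).mono fun _ => le_of_lt
  have two : ∀ {R x y}, ‖x‖ < R → ‖y‖ < R → ∀ᶠ p : S × S in comap e (𝓝 x) ×ˢ comap e (𝓝 y),
      ‖f p.2 - f p.1‖ ≤ L R * ‖e p.2 - e p.1‖ := fun hx hy =>
    ((ev hx).prod_mk (ev hy)).mono fun p hp => h _ _ _ hp.1 hp.2
  have te : ∀ R x y, Tendsto (fun p : S × S => L R * ‖e p.2 - e p.1‖)
      (comap e (𝓝 x) ×ˢ comap e (𝓝 y)) (𝓝 (L R * ‖y - x‖)) := fun R x y =>
    ((tendsto_comap.comp tendsto_snd).sub (tendsto_comap.comp tendsto_fst)).norm.const_mul _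
  have ex : ∀ x, ∃ c, Tendsto f (comap e (𝓝 x)) (𝓝 c) := fun x => by
    have := nb x
    refine CompleteSpace.complete (cauchy_map_iff'.2 ?_)
    rw [tendsto_uniformity_iff_dist_tendsto_zero]
    have h1 := te (‖x‖ + 1) x x
    rw [sub_self, norm_zero, mul_zero] at h1
    refine squeeze_zero' (.of_forall fun _ => dist_nonneg) ?_ h1
    exact (two (lt_add_one _) (lt_add_one _)).mono fun p hp => by
      rwa [dist_comm, dist_eq_norm]
  choose N hN using ex
  have lip : ∀ R x y, ‖x‖ < R → ‖y‖ < R → ‖N y - N x‖ ≤ L R * ‖y - x‖ := fun R x y hx hy => by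
    have := nb x
    have := nb y
    exact le_of_tendsto_of_tendsto (((hN y).comp tendsto_snd).sub
      ((hN x).comp tendsto_fst)).norm (te R x y) (two hx hy)
  refine ⟨N, fun s => ?_, continuous_iff_continuousAt.2 fun x => ?_, lip⟩
  · have := nb (e s)
    refine tendsto_nhds_unique (hN _) (tendsto_iff_norm_sub_tendsto_zero.2 ?_)
    have h1 : Tendsto (fun t => L (‖e s‖ + 1) * ‖e t - e s‖) (comap e (𝓝 (e s))) (𝓝 0) := by
      simpa using (tendsto_iff_norm_sub_tendsto_zero.1 tendsto_comap).const_mul (L (‖e s‖ + 1))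
    exact squeeze_zero' (.of_forall fun _ => norm_nonneg _)
      ((ev (lt_add_one _)).mono fun t ht => h _ _ _ (lt_add_one _).le ht) h1
  · refine tendsto_iff_norm_sub_tendsto_zero.2 ?_
    have h1 : Tendsto (fun y => L (‖x‖ + 1) * ‖y - x‖) (𝓝 x) (𝓝 0) := by
      simpa using (tendsto_iff_norm_sub_tendsto_zero.1 tendsto_id).const_mul (L (‖x‖ + 1))
    exact squeeze_zero' (.of_forall fun _ => norm_nonneg _)
      ((continuous_norm.continuousAt.eventually_lt_const (lt_add_one ‖x‖)).mono fun y hy =>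
        lip _ _ _ (lt_add_one _) hy) h1

variable [NormedSpace ℝ H] [NormedSpace ℝ Z]

theorem hasFDerivAt_of_integral {N : H → Z} {A : H → H →L[ℝ] Z} (hA : Continuous A)
    (h : ∀ σ τ, N (σ + τ) - N σ = ∫ t in (0 : ℝ)..1, A (σ + t • τ) τ) (σ : H) :
    HasFDerivAt N (A σ) σ := by
  refine hasFDerivAt_iff_isLittleO_nhds_zero.2 (Asymptotics.isLittleO_iff.2 fun c hc => ?_)
  obtain ⟨r, hr, h1⟩ := Metric.continuous_iff.1 hA σ c hc
  filter_upwards [Metric.ball_mem_nhds (0 : H) hr] with τ hτ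
  have hi : IntervalIntegrable (fun t : ℝ => A (σ + t • τ) τ) volume 0 1 :=
    Continuous.intervalIntegrable (by fun_prop) _ _
  have h2 : N (σ + τ) - N σ - A σ τ = ∫ t in (0 : ℝ)..1, (A (σ + t • τ) τ - A σ τ) := by
    rw [h, intervalIntegral.integral_sub hi intervalIntegrable_const]; simp
  rw [h2]
  refine (intervalIntegral.norm_integral_le_of_norm_le_const (C := c * ‖τ‖) fun t ht => ?_).trans
    (by simp)
  rw [uIoc_of_le zero_le_one] at ht
  rw [← sub_apply]
  refine ContinuousLinearMap.le_of_opNorm_le _ ?_ _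
  rw [← dist_eq_norm]
  refine (h1 _ ?_).le
  rw [dist_self_add_left, norm_smul, Real.norm_of_nonneg ht.1.le]
  exact (mul_le_of_le_one_left (norm_nonneg _) ht.2).trans_lt (mem_ball_zero_iff.1 hτ)

end abs

theorem Bn.clm {J : Type} {X Z Z' : J → Type} [∀ i, NormedAddCommGroup (X i)]
    [∀ i, NormedSpace ℝ (X i)] [∀ i, NormedAddCommGroup (Z i)] [∀ i, NormedSpace ℝ (Z i)]
    [∀ i, NormedAddCommGroup (Z' i)] [∀ i, NormedSpace ℝ (Z' i)] {R : Rg X} {f : ∀ i, X i → Z i}
    (n : ℕ) {L : ∀ i, Z i →L[ℝ] Z' i} (hL : Bv L) (s : R.Sm f) (h : Bn R.B n f) :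
    Bn R.B n fun i x => L i (f i x) :=
  Bn.bil n (β := fun i => ContinuousLinearMap.id ℝ (Z i →L[ℝ] Z' i)) (f := fun i _ => L i) bv_id
    (fun _ => contDiffOn_const) s (Bn.const n hL) h

variable {E : Type} [NormedAddCommGroup E] [NormedSpace ℝ E] [FiniteDimensional ℝ E]
  [MeasurableSpace E] [BorelSpace E]
  {HM : Type} [TopologicalSpace HM] {I : ModelWithCorners ℝ E HM}
  {M : Type} [TopologicalSpace M] [ChartedSpace HM M] [IsManifold I ∞ M]
  [MeasurableSpace M] [T2Space M] [BorelSpace M] [SecondCountableTopology M] {ι : Type} [Fintype ι]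
  {J : Type} {X Y : J → Type} [∀ i, NormedAddCommGroup (X i)] [∀ i, NormedSpace ℝ (X i)]
  {D : Dm I M ι X Y} {k : ℕ} {u : J → M → ℝ}

theorem ub_comp {F : J → Pre I M ι} {h : ℝ → ℝ} (hh : ContDiff ℝ ∞ h) (hu : UB F u) :
    UB F fun i x => h (u i x) := by
  obtain ⟨C, hu⟩ := hu
  choose K hK using fun k => CB_comp (I := I) (M := M) (ι := ι) C k hh
  exact ⟨K, fun i => ⟨sm_comp hh (hu i).1, fun k => hK k _ _ (hu i)⟩⟩

namespace Dm

theorem exists_nem (hk : 7 ≤ k) (hu : UB D.P u) {h : ℝ → ℝ} (hh : ContDiff ℝ ∞ h) :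
    ∃ N : ∀ i, D.H ℝ (k + 1) i → D.H ℝ (k + 1) i, (∀ i, Continuous (N i)) ∧
      (∀ i σ z, D.vl (N i σ) z = h (u i z + D.vl σ z) - h (u i z)) ∧
      ∀ R, ∃ K, ∀ i σ, ‖σ‖ < R → ‖N i σ‖ ≤ K := by
  obtain ⟨C, hC⟩ := hu
  choose L hL0 hL using fun R => nem_lip (I := I) (M := M) (ι := ι) (D.C 0) C hk R (k + 1) le_rfl hh
  have h4 : 4 ≤ k + 1 := by omega
  have hm : ∀ i (σ : Sec I (triv M ℝ)),
      (fun x => h (u i x + σ.1 x) - h (u i x)) ∈ Sec I (triv M ℝ) := fun i σ =>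
    mem_triv ((sm_comp hh ((hC i).1.add σ.2.1)).sub (sm_comp hh (hC i).1))
      (σ.2.2.1.mono fun x hx h0 => hx (by simp [h0]))
  have key := fun i => exists_lip_ext ((D.P i).dense_toH (k + 1) (triv M ℝ))
    (f := fun σ => (D.P i).toH (k + 1) _ ⟨_, hm i σ⟩) (L := L) fun R σ τ hσ hτ => by
      rw [← map_sub, ← map_sub, Pre.norm_toH, Pre.norm_toH]
      rw [Pre.norm_toH] at hσ hτ
      have := hL R (D.P i) (u i) σ.1 τ.1 (D.sup i) (hC i) σ.2.1 σ.2.2.1 τ.2.1 τ.2.2.1 hσ hτ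
      convert this using 2
      · funext x
        simp
      · rfl
  choose N h1 h2 h3 using key
  have hv : ∀ i σ z, D.vl (N i σ) z = h (u i z + D.vl σ z) - h (u i z) := fun i σ z => by
    have c1 := continuous_val_apply (F := D.P i) (k := k + 1) (p := triv M ℝ) z
    refine H_eq (f := fun σ => D.vl (N i σ) z) (g := fun σ => h (u i z + D.vl σ z) - h (u i z))
      (c1.comp (h2 i)) ((hh.continuous.comp (continuous_const.add c1)).sub continuous_const)
      (fun σ => ?_) σ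
    rw [h1, vl, vl, val_toH (D.sup i) h4, val_toH (D.sup i) h4]
  refine ⟨N, h2, hv, fun R => ⟨L R * |R|, fun i σ hσ => ?_⟩⟩
  have h0 : N i 0 = 0 := val_injective (D.sup i) h4 (funext fun z => by
    have := hv i 0 z
    simpa [vl, val_zero] using this)
  have := h3 i R 0 σ (by rw [norm_zero]; exact (norm_nonneg σ).trans_lt hσ) hσ
  rw [h0, sub_zero, sub_zero] at this
  exact this.trans (mul_le_mul_of_nonneg_left (hσ.le.trans (le_abs_self R)) (hL0 R))

/-- balls in the Sobolev spaces -/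
def ball (D : Dm I M ι X Y) (j : ℕ) (R : ℝ) : Rg (D.H ℝ j) :=
  ⟨fun _ => univ, fun _ => {σ | ‖σ‖ < R}, fun _ => isOpen_univ, fun _ => subset_univ _⟩

/-- **Nemytskii operators** are smooth with uniform bounds on balls. -/
theorem exists_nem_uc (hk : 7 ≤ k) (hu : UB D.P u) {h : ℝ → ℝ} (hh : ContDiff ℝ ∞ h) :
    ∃ N : ∀ i, D.H ℝ (k + 1) i → D.H ℝ (k + 1) i, (∀ R, UC (D.ball (k + 1) R) N) ∧
      ∀ i σ z, D.vl (N i σ) z = h (u i z + D.vl σ z) - h (u i z) := by
  choose N h1 h2 h3 using fun h : {h : ℝ → ℝ // ContDiff ℝ ∞ h} => exists_nem hk hu h.2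
  have h4 : 4 ≤ k + 1 := by omega
  have hL : Lev (k + 1) (k + 1) (k + 1) := Lev.self (by omega)
  let d : {h : ℝ → ℝ // ContDiff ℝ ∞ h} → {h : ℝ → ℝ // ContDiff ℝ ∞ h} :=
    fun h => ⟨deriv h.1, cd_deriv h.2⟩
  let β := ContinuousLinearMap.mul ℝ ℝ
  have m := fun h : {h : ℝ → ℝ // ContDiff ℝ ∞ h} => (ub_comp (d h).2 hu).clm β
  let A := fun h i (σ : D.H ℝ (k + 1) i) =>
    (D.P i).mulH (k + 1) (triv M ℝ) (triv M ℝ) (fun x => β ((d h).1 (u i x))) +
      (D.P i).bilH (k + 1) (k + 1) (triv M ℝ) (triv M ℝ) (triv M ℝ) (k + 1) (fun _ => β)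
        (N (d h) i σ)
  have hA : ∀ h i σ τ z, D.vl (A h i σ τ) z = deriv h.1 (u i z + D.vl σ z) * D.vl τ z := by
    intro h i σ τ z
    have := h2 (d h) i σ z
    simp only [A, vl, add_apply, val_add, Pi.add_apply] at this ⊢
    rw [val_mulH (D.sup i) h4 ((m h).cb i) (Maps.triv _),
      val_bilH (D.sup i) hL h4 (Cb_const β) (Maps₂.triv _), this]
    simp only [β, d, ContinuousLinearMap.mul_apply']
    ring
  have hD : ∀ h i σ, HasFDerivAt (N h i) (A h i σ) σ := fun h i => by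
    have cA : Continuous (A h i) :=
      continuous_const.add ((ContinuousLinearMap.continuous _).comp (h1 (d h) i))
    refine hasFDerivAt_of_integral cA fun σ τ => val_injective (D.sup i) h4 (funext fun z => ?_)
    have hi : IntervalIntegrable (fun t : ℝ => A h i (σ + t • τ) τ) volume 0 1 :=
      Continuous.intervalIntegrable (by fun_prop) _ _
    have e1 := ((D.P i).ev (k + 1) (triv M ℝ) z).intervalIntegral_comp_comm hi
    have e2 : ∫ t in (0 : ℝ)..1, deriv h.1 (u i z + (D.vl σ z + t * D.vl τ z)) * D.vl τ z =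
        h.1 (u i z + (D.vl σ z + 1 * D.vl τ z)) - h.1 (u i z + (D.vl σ z + 0 * D.vl τ z)) :=
      intervalIntegral.integral_eq_sub_of_hasDerivAt
        (f := fun t => h.1 (u i z + (D.vl σ z + t * D.vl τ z))) (fun t _ => by
          have := (h.2.differentiable (by simp) _).hasDerivAt.comp t
            ((((hasDerivAt_id t).mul_const (D.vl τ z)).const_add (D.vl σ z)).const_add (u i z))
          rw [one_mul] at this
          exact this)
        (Continuous.intervalIntegrable (((cd_deriv h.2).continuous.comp (by fun_prop)).mul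
          continuous_const) _ _)
    change D.vl _ z = (D.P i).ev (k + 1) (triv M ℝ) z _
    rw [← e1, vl, val_sub, Pi.sub_apply, ← vl, ← vl, h2, h2]
    have e3 : ∀ t : ℝ, (D.P i).ev (k + 1) (triv M ℝ) z (A h i (σ + t • τ) τ) =
        deriv h.1 (u i z + (D.vl σ z + t * D.vl τ z)) * D.vl τ z := fun t => by
      refine (hA h i _ τ z).trans ?_
      simp only [vl, val_add, val_smul, Pi.add_apply, Pi.smul_apply, smul_eq_mul]
    simp only [e3, e2, vl, val_add, Pi.add_apply]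
    simp
  have hS : ∀ (n : ℕ) h i, ContDiff ℝ n (N h i) := fun n => by
    induction n with
    | zero => exact fun h i => contDiff_zero.2 (h1 h i)
    | succ n ih =>
      exact fun h i => contDiff_succ_iff_hasFDerivAt.2 ⟨A h i, contDiff_const.add
        ((ContinuousLinearMap.contDiff _).comp (ih (d h) i)), hD h i⟩
  have hs : ∀ R h, (D.ball (k + 1) R).Sm (N h) := fun R h i =>
    (contDiff_infty.2 fun n => hS n h i).contDiffOn
  have hB : ∀ R n h, Bn (D.ball (k + 1) R).B n (N h) := fun R n => by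
    induction n with
    | zero => exact fun h => h3 h R
    | succ n ih =>
      exact fun h => ⟨h3 h R, (Bn.add n (fun _ => contDiffOn_const)
        (fun i => (ContinuousLinearMap.contDiff _).comp_contDiffOn (hs R (d h) i))
        (Bn.const n (bv_mulH (m h) (k + 1))) (Bn.clm n (bv_bilH hL β) (hs R (d h))
          (ih (d h)))).congr n fun i σ _ => (hD h i σ).fderiv⟩
  exact ⟨N ⟨h, hh⟩, fun R => ⟨hs R _, fun n => hB R n _⟩, h2 ⟨h, hh⟩⟩

theorem A0.comp {ε : Prop} {j : ℕ} (hj : 8 ≤ j) {h : ℝ → ℝ} (hh : ContDiff ℝ ∞ h)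
    {w : ∀ i, Y i → M → ℝ} (hw : D.A0 ε j w) : D.A0 False j fun i y x => h (w i y x) := by
  obtain ⟨k, rfl⟩ : ∃ k, j = k + 1 := ⟨j - 1, by omega⟩
  obtain ⟨b, δ, h1, -, h3, h4⟩ := hw.ex
  obtain ⟨N, n1, n2⟩ := exists_nem_uc (by omega : 7 ≤ k) h1 hh
  obtain ⟨K, hK⟩ := h3.bd0
  refine ⟨⟨fun i y => Cb_comp_fun hh (hw.sz.cb i y), ub_comp hh hw.sz.ub⟩, _, _, ub_comp hh h1,
    False.elim, (n1 (K + 1)).cmp h3 (fun _ _ _ => mem_univ _)
      fun i x hx => (hK i x hx).trans_lt (lt_add_one K), fun i y x => ?_⟩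
  rw [n2, h4, add_sub_cancel]

end Dm

end Crest.Agent.X212.Mon62
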