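import Crest.Agent.X212.Mon62.GAff
import Crest.Agent.X212.Mon62.Nem
import Crest.Agent.X212.Ell97.Nab
import Crest.Agent.X212.Wz78.Hs

/-! # Row 212, WORDH: the words and terms of `An/Gauge` extend smoothly to the Banach model -/

set_option autoImplicit false
set_option linter.unusedSectionVars false
set_option maxSynthPendingDepth 3
noncomputable section
open scoped Manifold ContDiff Topology InnerProductSpace
open MeasureTheory Set Function Filter

namespace Crest.Agent.X212.Mon62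
open An Sob92 Prm93 Wz78
open Ell97 (UB)
open Wrd81 (wd)

section lin
variable {κ : Type} [Fintype κ] [DecidableEq κ]

/-- `rk1` as a bilinear map -/
def rkL : CL (Eu κ) (CL (Eu κ) (HS κ)) :=
  (ContinuousLinearMap.compL ℝ (Eu κ) (En κ) (HS κ) hsL).comp
    (((ContinuousLinearMap.compL ℝ (Eu κ) (CL (Eu κ) ℝ) (En κ)).flip (innerSL ℝ)).comp
      (ContinuousLinearMap.smulRightL ℝ (Eu κ) (Eu κ)).flip)

theorem rkL_apply (u v : Eu κ) : rkL u v = hsL (rk1 u v) := rfl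

/-- the product of endomorphisms -/
def mlL : CL (HS κ) (CL (HS κ) (HS κ)) :=
  (ContinuousLinearMap.compL ℝ (HS κ) (En κ) (HS κ) hsL).comp
    ((ContinuousLinearMap.mul ℝ (En κ)).bilinearComp opL opL)

theorem mlL_apply (S T : En κ) : mlL (hsL S) (hsL T) = hsL (S * T) := by simp [mlL]

/-- the pairing behind `hm` -/
def hmL (Jc : En κ) : CL (HS κ) (CL (HS κ) ℂ) :=
  (ContinuousLinearMap.compL ℝ (HS κ) ℝ ℂ Complex.ofRealCLM).comp (innerSL ℝ) -
    (ContinuousLinearMap.compL ℝ (HS κ) ℝ ℂ (Complex.I • Complex.ofRealCLM)).comp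
      (((ContinuousLinearMap.compL ℝ (HS κ) (HS κ) ℝ).flip (mlL (hsL Jc))).comp (innerSL ℝ))

theorem hmL_apply (Jc T : En κ) (u v : Eu κ) : hmL Jc (hsL T) (rkL v u) = hm Jc (T u) v := by
  have h1 : Jc * rk1 v u = rk1 (Jc v) u := by ext1 w; simp
  have h2 : hmL Jc (hsL T) (rkL v u) = (⟪hsL T, rkL v u⟫_ℝ : ℂ) -
    Complex.I * (⟪hsL T, mlL (hsL Jc) (rkL v u)⟫_ℝ : ℂ) := rfl
  rw [h2, rkL_apply, mlL_apply, h1, inner_rk1, inner_rk1, opL_hsL]
  apply Complex.ext <;> simp [hm]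

end lin

/-- a smooth function equal to `(1 + t)^(-1/2)` for `t ≥ 0` -/
def isq (t : ℝ) : ℝ := (√(1 + t * Real.smoothTransition (t + 1)))⁻¹

theorem isq_eq {t : ℝ} (h : 0 ≤ t) : isq t = (√(1 + t))⁻¹ := by
  rw [isq, Real.smoothTransition.one_of_one_le (by linarith), mul_one]

theorem contDiff_isq : ContDiff ℝ ∞ isq := by
  have h : ∀ t : ℝ, 0 < 1 + t * Real.smoothTransition (t + 1) := fun t => by
    have h0 := Real.smoothTransition.nonneg (t + 1)
    have h1 := Real.smoothTransition.le_one (t + 1)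
    rcases le_or_gt t (-1) with h2 | h2
    · rw [Real.smoothTransition.zero_of_nonpos (by linarith)]; simp
    · rcases le_total 0 t with h3 | h3
      · positivity
      · nlinarith
  exact ((contDiff_const.add (contDiff_id.mul (Real.smoothTransition.contDiff.comp
    (contDiff_id.add contDiff_const)))).sqrt fun t => (h t).ne').inv
    fun t => (Real.sqrt_pos.2 (h t)).ne'

variable {E : Type} [NormedAddCommGroup E] [NormedSpace ℝ E] [FiniteDimensional ℝ E]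
  [MeasurableSpace E] [BorelSpace E]
  {HM : Type} [TopologicalSpace HM] {I : ModelWithCorners ℝ E HM}
  {M : Type} [TopologicalSpace M] [ChartedSpace HM M] [IsManifold I ∞ M]
  [MeasurableSpace M] [T2Space M] [BorelSpace M] [SecondCountableTopology M] {ι : Type} [Fintype ι]
  {lam : Type} [Fintype lam]
  {J : Type} {X Y : J → Type} [∀ i, NormedAddCommGroup (X i)] [∀ i, NormedSpace ℝ (X i)]
  {N N' N'' : Type} [NormedAddCommGroup N] [NormedSpace ℝ N] [NormedAddCommGroup N']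
  [NormedSpace ℝ N'] [NormedAddCommGroup N''] [NormedSpace ℝ N'']
  {D : Dm I M ι X Y}

namespace Dm
variable {V W : Type} [NormedAddCommGroup V] [InnerProductSpace ℝ V] [NormedAddCommGroup W]
  [InnerProductSpace ℝ W]

namespace Sc
variable {c c' : ∀ i, Y i → N} {d : ∀ i, Y i → N'}

theorem congr (h : D.Sc c) (e : ∀ i y, c' i y = c i y) : D.Sc c' :=
  let ⟨γ, h1, h2⟩ := h; ⟨γ, h1, fun i y => (e i y).trans (h2 i y)⟩

theorem const (a : N) : D.Sc fun _ _ => a := ⟨_, UC.const (Bv.const a), fun _ _ => rfl⟩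

theorem add (h : D.Sc c) (h' : D.Sc c') : D.Sc fun i y => c i y + c' i y :=
  let ⟨_, h1, h2⟩ := h; let ⟨_, k1, k2⟩ := h'; ⟨_, h1.add k1, fun i y => by simp only [h2, k2]⟩

theorem bil (β : N →L[ℝ] N' →L[ℝ] N'') (h : D.Sc c) (h' : D.Sc d) :
    D.Sc fun i y => β (c i y) (d i y) :=
  let ⟨_, h1, h2⟩ := h; let ⟨_, k1, k2⟩ := h'
  ⟨_, UC.bil (Bv.const β) h1 k1, fun i y => by simp only [h2, k2]⟩

theorem clm (L : N →L[ℝ] N') (h : D.Sc c) : D.Sc fun i y => L (c i y) :=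
  let ⟨_, h1, h2⟩ := h; ⟨_, h1.clm (Bv.const L), fun i y => by simp only [h2]⟩

theorem comp [ProperSpace N] {φ : N → N'} (hφ : ContDiff ℝ ∞ φ) (h : D.Sc c) :
    D.Sc fun i y => φ (c i y) := by
  obtain ⟨γ, h1, h2⟩ := h
  obtain ⟨K, hK⟩ := h1.bd0
  exact ⟨_, h1.cmp_fixed isOpen_univ (isCompact_closedBall 0 K) (subset_univ _) hφ.contDiffOn
    (fun _ _ _ => mem_univ _) fun i x hx => mem_closedBall_zero_iff.2 (hK i x hx),
    fun i y => by simp only [h2]⟩

theorem lsum {α : Type*} {u : α → ∀ i, Y i → N} :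
    ∀ L : List α, (∀ a ∈ L, D.Sc (u a)) → D.Sc fun i y => (L.map fun a => u a i y).sum
  | [], _ => const 0
  | a :: L, h => (h a List.mem_cons_self).add (lsum L fun b hb => h b (List.mem_cons_of_mem a hb))

end Sc

variable {ε : Prop} {j : ℕ}

theorem A0.lsum {α : Type*} {u : α → ∀ i, Y i → M → V} :
    ∀ L : List α, (∀ a ∈ L, D.A0 ε j (u a)) → D.A0 ε j fun i y x => (L.map fun a => u a i y x).sum
  | [], _ => A0.zero
  | a :: L, h => (h a List.mem_cons_self).add (lsum L fun b hb => h b (List.mem_cons_of_mem a hb))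

theorem A0.toLp [CompleteSpace V] {α : Type} [Fintype α] (hj : 4 ≤ j) {u : α → ∀ i, Y i → M → V}
    (h : ∀ a, D.A0 ε j (u a)) :
    D.A0 ε j fun i y x => (WithLp.toLp 2 fun a => u a i y x : Fm α V) :=
  (A0.fsum Finset.univ fun a _ => (h a).clm hj (Ell97.ij V a)).congr fun _ _ _ =>
    PiLp.ext fun c => (Ell97.sum_ij _ c).symm

theorem Mul.congr {A A' : ∀ i, Y i → M → V →L[ℝ] W} (h : D.Mul j A)
    (e : ∀ i y x, A' i y x = A i y x) : D.Mul j A' := by
  obtain rfl : A' = A := funext fun i => funext fun y => funext (e i y)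
  exact h

variable (D)

/-! ### uniformly bounded coefficients -/

def CbU (f : M → N) : Prop := UB D.P fun _ => f

def CdU (g : M → ℝ) : Prop := ∀ a, UB D.P fun i => (D.P i).D a g

def LtU : Lt M → Prop
  | .mul f => D.CbU f
  | .cl g => D.CdU g
  | _ => True

def SwU (w : SW M) : Prop := ∀ t ∈ w, D.LtU t

def LaU : La M → Prop
  | .mul f => D.CbU f
  | .G => True

def SdU : Sd M → Prop
  | .q u v => D.SwU u ∧ D.SwU v
  | .cv f g h => D.CbU f ∧ D.CdU g ∧ D.CdU h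

def AwU (ξ : AW M) : Prop := D.SdU ξ.s ∧ ∀ t ∈ ξ.l, D.LaU t

def SgU (g : Sg M lam) : Prop := Continuous g.s ∧ HasCompactSupport g.s ∧
  (∃ K, ∀ i, ∫ x, ‖g.s x‖ ∂(D.P i).μ ≤ K) ∧ D.SwU g.u ∧ D.SwU g.v

def CoU {r : ℕ} : Co M lam r → Prop
  | .z _ => True
  | .s g L => D.SgU g ∧ ∀ g' ∈ L, D.SgU g'

def TmU {r n : ℕ} : Tm M lam r n → Prop
  | .lin u => D.SwU u
  | .anti d s u => D.CoU d ∧ D.CbU s ∧ D.SwU u
  | .ad g h ξ => D.CdU g ∧ D.CdU h ∧ D.AwU ξ
  | .adj d s g h u v l => D.CoU d ∧ D.CbU s ∧ D.CdU g ∧ D.CdU h ∧ D.SwU u ∧ D.SwU v ∧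
      ∀ t ∈ l, D.LaU t
  | .adn f g h φ L => D.CbU f ∧ D.CdU g ∧ D.CdU h ∧ ContDiff ℝ ∞ φ ∧ ∀ ξ ∈ L, D.AwU ξ
  | .cut _ _ g => D.SgU g
  | .cz _ _ _ => True

end Dm

variable (J M ι lam) in
/-- a family of modules of the same size -/
structure MF where
  N : ℕ
  Jc : En (Fin N)
  p : J → M → En (Fin N)
  ρ : J → ι → M → En (Fin N)
  j : J → M → CL (Eu lam) (En (Fin N))

abbrev MF.m (μ : MF M ι lam J) (i : J) : Md M ι lam := ⟨μ.N, μ.Jc, μ.p i, μ.ρ i, μ.j i⟩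
abbrev MF.V (μ : MF M ι lam J) : Type := Eu (Fin μ.N)
abbrev MF.A (μ : MF M ι lam J) : Type := HS (Fin μ.N)
abbrev MF.pg (μ : MF M ι lam J) (i : J) : M → CL μ.A μ.A := (μ.m i).pg
abbrev MF.adW (μ : MF M ι lam J) (i : J) (W : ι → M → En (Fin μ.N)) : ι → M → CL μ.A μ.A :=
  (μ.m i).adW W
abbrev MF.pm (μ : MF M ι lam J) (B : J → Base M ι lam) (i : J) : M → CL μ.V μ.V := (μ.m i).pm (B i)
abbrev MF.p2 (μ : MF M ι lam J) (B : J → Base M ι lam) (i : J) :
    M → CL (Fm (ι × ι) μ.A) (Fm (ι × ι) μ.A) := (μ.m i).p2 (B i)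

/-- a family of configurations and geometric frames -/
structure CF (D : Dm I M ι X Y) (μ : MF M ι lam J) (r : ℕ) where
  G : ∀ i, X i → Fr I M ι
  W : ∀ i, Y i → ι → M → En (Fin μ.N)
  Φ : ∀ i, Y i → M → μ.V
  z : ∀ i, Y i → EuclideanSpace ℂ (Fin r)

namespace CF
open Dm
variable {μ : MF M ι lam J} {r n : ℕ} (κ : CF D μ r)

abbrev c (i : J) (y : Y i) : Cfg M ι lam r := ⟨μ.m i, κ.W i y, κ.Φ i y, κ.z i y⟩
abbrev F (i : J) (y : Y i) : Fr I M ι := κ.G i (D.pt i y)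

structure OK (ε : Prop) (j : ℕ) : Prop where
  hj : 8 ≤ j
  F : D.FF κ.G
  bV : D.RB μ.V κ.G
  bA : D.RB μ.A κ.G
  eV : D.RE μ.V κ.G
  eA : D.RE μ.A κ.G
  W : ∀ a, D.A0 False j fun i y x => hsL (κ.W i y a x)
  sk : ∀ i y a x, Skw (κ.W i y a x)
  Φ : D.A0 ε j κ.Φ
  z : D.Sc κ.z
  ρ : ∀ a, UB D.P fun i => μ.ρ i a
  j : UB D.P μ.j
  pg : UB D.P μ.pg

def sw (u : SW M) (i : J) (y : Y i) : M → μ.V := (κ.c i y).sw (κ.F i y) u
def aw (ξ : AW M) (i : J) (y : Y i) : M → μ.A := (κ.c i y).aw (κ.F i y) ξ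
def aws (L : List (AW M)) (i : J) (y : Y i) : M → μ.A := (κ.c i y).aws (κ.F i y) L
def js (s : M → Eu lam) (u : SW M) (i : J) (y : Y i) (x : M) : μ.V := μ.j i x (s x) (κ.sw u i y x)

/-- decay condition for a term (automatic on a fixed closed manifold) -/
def Pu (j : ℕ) : Tm M lam r n → Prop
  | .lin u => D.A0 True j (κ.sw u)
  | .anti _ s u => D.A0 True j (κ.js s u)
  | .ad _ _ ξ => D.A0 True j (κ.aw ξ)
  | .adj _ s _ _ u _ _ => D.A0 True j (κ.js s u)
  | .adn f _ _ _ L => D.A0 True j fun i y x => f x • κ.aws L i y x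
  | _ => True

namespace OK
variable {κ} {ε ε' : Prop} {j l : ℕ} [I.Boundaryless] (h : κ.OK ε j)
include h

theorem h4 : 4 ≤ j := h.hj.trans' (by omega)
theorem lev : Lev j j j := Lev.self (h.hj.trans' (by omega))

theorem mulV (a : ι) : D.Mul j fun i y => κ.W i y a :=
  ((h.W a).toMul opL (h.hj.trans' (by omega))).congr fun _ _ _ => (opL_hsL _).symm

theorem mulA (a : ι) : D.Mul j fun i y => μ.adW i (κ.W i y) a :=
  ((h.W a).toMul (adcL ∘L opL) (h.hj.trans' (by omega))).congr fun _ _ _ => by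
    rw [ContinuousLinearMap.comp_apply, opL_hsL]; rfl

theorem resV {u : ∀ i, Y i → M → μ.V} (hl : 4 ≤ l) (hlj : l + 1 ≤ j) (hu : D.A0 ε' l u) :
    D.A0 ε' (l + 2) fun i y => (κ.F i y).res (κ.W i y) (u i y) :=
  hu.res h.F h.bV h.eV hl (fun c => (h.mulV c).lower hlj) h.sk

theorem resA {u : ∀ i, Y i → M → μ.A} (hl : 4 ≤ l) (hlj : l + 1 ≤ j) (hu : D.A0 ε' l u) :
    D.A0 ε' (l + 2) fun i y => (κ.F i y).res (μ.adW i (κ.W i y)) (u i y) :=
  hu.res h.F h.bA h.eA hl (fun c => (h.mulA c).lower hlj) fun i y c x => adc_skw (h.sk i y c x)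

theorem dg {g : M → ℝ} (hg : D.CdU g) (hl : 4 ≤ l) (a : ι) :
    D.A0 False l fun i y => (κ.F i y).D a g := by
  obtain ⟨S, h1, h2⟩ := h.F.mix
  exact (A0.fsum Finset.univ fun b _ => (h1 a b).smul hl (A0.fixed (hg b))).congr fun i y x =>
    congrFun ((h2 i _ (D.mem i y)).D a _) x

theorem lt {t : Lt M} (ht : D.LtU t) {u : ∀ i, Y i → M → μ.V} (hu : D.A0 ε' j u) :
    D.A0 ε' j (V := μ.V) fun i y => (κ.c i y).lt (κ.F i y) t (u i y) := by
  have := h.hj
  cases t with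
  | mul f => exact (Lc.fixed ht).smul h.h4 hu
  | cl g => exact A0.fsum Finset.univ fun a _ =>
      (A0.smul h.lev h.h4 (h.dg ht h.h4 a) (hu.app h.h4 (h.ρ a))).imp Or.inr
  | im => exact hu.clm h.h4 μ.Jc
  | G =>
    obtain ⟨l, rfl⟩ : ∃ l, j = l + 2 := ⟨j - 2, by omega⟩
    exact h.resV (by omega) (by omega) (hu.lower (by omega) (by omega))

theorem wdV {s : ∀ i, Y i → M → μ.V} (hs : D.A0 ε' j s) : ∀ {w : SW M}, D.SwU w →
    D.A0 ε' j (V := μ.V) fun i y => wd ((κ.c i y).lt (κ.F i y)) (s i y) w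
  | [], _ => hs
  | t :: _, hw => h.lt (hw t List.mem_cons_self)
      (wdV hs fun b hb => hw b (List.mem_cons_of_mem t hb))

theorem sw {w : SW M} (hw : D.SwU w) : D.A0 ε j (κ.sw w) := h.wdV h.Φ hw

theorem la {t : La M} (ht : D.LaU t) {u : ∀ i, Y i → M → μ.A} (hu : D.A0 ε' j u) :
    D.A0 ε' j (V := μ.A) fun i y => (κ.c i y).la (κ.F i y) t (u i y) := by
  have := h.hj
  cases t with
  | mul f => exact (Lc.fixed ht).smul h.h4 hu
  | G =>
    obtain ⟨l, rfl⟩ : ∃ l, j = l + 2 := ⟨j - 2, by omega⟩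
    exact h.resA (by omega) (by omega) (hu.lower (by omega) (by omega))

/-- adjoint words on an arbitrary seed -/
theorem wdA {s : ∀ i, Y i → M → μ.A} (hs : D.A0 ε' j s) : ∀ {w : List (La M)},
    (∀ t ∈ w, D.LaU t) → D.A0 ε' j (V := μ.A) fun i y => wd ((κ.c i y).la (κ.F i y)) (s i y) w
  | [], _ => hs
  | t :: _, hw => h.la (hw t List.mem_cons_self)
      (wdA hs fun b hb => hw b (List.mem_cons_of_mem t hb))

theorem q {ε'' : Prop} {u v : ∀ i, Y i → M → μ.V} (hu : D.A0 ε' j u) (hv : D.A0 ε'' j v) :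
    D.A0 (ε' ∨ ε'') j (V := μ.A) fun i y x => (μ.m i).q x (u i y x) (v i y x) :=
  (hu.bil rkL h.lev h.h4 hv).app h.h4 h.pg

theorem curv (hl : 4 ≤ l) (hlj : l + 1 ≤ j) (a b : ι) :
    D.A0 False l fun i y x => hsL (curv I (κ.F i y).e (κ.F i y).c (κ.W i y) a b x) := by
  have h1 := fun a => (h.W a).lower (by omega) hlj
  have h2 := fun a => (h.W a).lower hl (by omega)
  have h3 := fun a b => ((h.W a).bil mlL (Lev.left (h.hj.trans' (by omega)) (by omega)) hl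
    (h2 b)).aff
  have h5 : ∀ i y a b x, (κ.F i y).D a (fun x => hsL (κ.W i y b x)) x =
      hsL (dv I ((κ.F i y).e a) (κ.W i y b) x) := fun i y a b x =>
    dv_clm hsL (((h.mulV b).sz.sm i y).mdifferentiableAt (by simp))
  refine (((((h1 b).dG h.F hl a).sub hl ((h1 a).dG h.F hl b)).add ((h3 a b).sub hl (h3 b a))).sub hl
    (A0.fsum Finset.univ fun k _ => (h.F.c a b k).smul hl (h2 k))).congr fun i y x => ?_
  simp only [Wz78.curv, h5, mlL_apply, map_sub, map_add, map_sum, map_smul]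

theorem Fg (hl : 4 ≤ l) (hlj : l + 1 ≤ j) (s : ι × ι) :
    D.A0 False l (V := μ.A) fun i y x => (μ.m i).Fg (κ.F i y) (κ.W i y) x s :=
  (h.curv hl hlj s.1 s.2).app hl h.pg

theorem dd {g g' : M → ℝ} (hg : D.CdU g) (hg' : D.CdU g') (hl : 4 ≤ l) (s : ι × ι) :
    D.A0 False l fun i y x => (κ.F i y).D s.1 g x * (κ.F i y).D s.2 g' x :=
  (A0.smul (Lev.left (by omega) (by omega)) hl (h.dg (l := l + 7) hg (by omega) s.1)
    (h.dg hg' hl s.2)).aff

theorem cv {f g g' : M → ℝ} (hf : D.A0 ε' j fun _ _ => f) (hg : D.CdU g) (hg' : D.CdU g') :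
    D.A0 ε' j (V := μ.A) fun i y => (κ.c i y).sd (κ.F i y) (.cv f g g') := by
  have := h.hj
  have h7 : 7 ≤ j := by omega
  obtain ⟨l, rfl⟩ : ∃ l, j = l + 2 := ⟨j - 2, by omega⟩
  have hl : 4 ≤ l := by omega
  refine h.resA hl (by omega) ((h.resA hl (by omega) (A0.fsum Finset.univ fun s _ => ?_)).lower
    hl (by omega))
  exact ((A0.smul (Lev.left h7 (by omega)) hl hf (A0.smul (Lev.left h7 (by omega)) hl
    (h.dd hg hg' h.h4 s) (h.Fg hl (by omega) s))).imp Or.inl).congr fun i y x => by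
      rw [mul_assoc, mul_smul]

theorem sd {s : Sd M} (hs : D.SdU s) :
    D.A0 False j (V := μ.A) fun i y => (κ.c i y).sd (κ.F i y) s := by
  cases s with
  | q u v => exact (h.q (h.sw hs.1) (h.sw hs.2)).aff
  | cv f g g' => exact h.cv (A0.fixed hs.1) hs.2.1 hs.2.2

theorem aw {ξ : AW M} (hξ : D.AwU ξ) : D.A0 False j (κ.aw ξ) := h.wdA (h.sd hξ.1) hξ.2

theorem aws {L : List (AW M)} (hL : ∀ ξ ∈ L, D.AwU ξ) : D.A0 False j (κ.aws L) :=
  A0.lsum L fun ξ hξ => h.aw (hL ξ hξ)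

theorem js {s : M → Eu lam} (hs : D.A0 ε' j fun _ _ => s) {u : SW M} (hu : D.SwU u) :
    D.A0 (ε' ∨ ε) j (κ.js s u) :=
  ((hs.app h.h4 ((UB.const hsL).comp h.j)).bil opL h.lev h.h4 (h.sw hu)).congr fun i y x => by
    rw [ContinuousLinearMap.comp_apply, opL_hsL]; rfl

theorem sg {g : Sg M lam} (hg : D.SgU g) : D.Sc fun i y => (κ.c i y).sg (κ.F i y) g := by
  obtain ⟨g1, g2, ⟨K, hK⟩, g4, g5⟩ := hg
  obtain ⟨ρ, r1, r2⟩ := h.F.dens
  obtain ⟨C, hC⟩ := (UB.const hsL).comp h.j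
  refine (((h.sw g5).bil rkL h.lev h.h4 (h.sw g4)).integral_us (hmL μ.Jc) h.h4 r1
    (σ := fun i x => hsL.comp (μ.j i x) (g.s x))
    (fun i => (hC i).1.continuous.clm_apply g1) (fun i => g2.mono fun x hx h0 => hx (by simp [h0]))
    ⟨|C 0| * K, fun i => ?_⟩).congr fun i y => ?_
  · refine (integral_mono_of_nonneg (.of_forall fun _ => norm_nonneg _)
      ((g1.norm.integrable_of_hasCompactSupport g2.norm).const_mul |C 0|) (.of_forall fun x =>
        ContinuousLinearMap.le_of_opNorm_le _ (CB_bound (CB_abs ((hC i).2 0)) x) _)).trans ?_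
    rw [integral_const_mul]
    exact mul_le_mul_of_nonneg_left (hK i) (abs_nonneg _)
  · refine (r2 i y _).trans (integral_congr_ae (.of_forall fun x => ?_))
    simp only [ContinuousLinearMap.comp_apply, hmL_apply]
    rfl

theorem co {d : Co M lam r} (hd : D.CoU d) : D.Sc fun i y => (κ.c i y).co (κ.F i y) d := by
  cases d with
  | z k => exact h.z.clm (PiLp.proj (𝕜 := ℝ) 2 (fun _ => ℂ) k)
  | s g L =>
    have sq : ∀ {g : Sg M lam}, D.SgU g → D.Sc fun i y => ‖(κ.c i y).sg (κ.F i y) g‖ ^ 2 :=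
      fun hg => (h.sg hg).comp (contDiff_norm_sq ℝ)
    refine ((((sq hd.1).add (Sc.lsum L fun g' hg' => sq (hd.2 g' hg'))).comp contDiff_isq).bil
      (ContinuousLinearMap.lsmul ℝ ℝ) (h.sg hd.1)).congr fun i y => ?_
    rw [isq_eq (add_nonneg (sq_nonneg _) (List.sum_nonneg fun a ha => by
      obtain ⟨_, -, rfl⟩ := List.mem_map.1 ha; exact sq_nonneg _))]
    simp only [Cfg.co, ContinuousLinearMap.lsmul_apply, Complex.real_smul, Complex.ofReal_inv,
      add_assoc]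
    exact div_eq_inv_mul _ _

theorem cs {d : ∀ i, Y i → ℂ} (hd : D.Sc d) {u : ∀ i, Y i → M → μ.V} (hu : D.A0 True j u) :
    D.A0 ε' j fun i y x => cs μ.Jc (d i y) (u i y x) :=
  (hu.smulc (hd.clm Complex.reCLM)).add ((hu.clm h.h4 μ.Jc).smulc (hd.clm Complex.imCLM))

variable {B : J → Base M ι lam} {T : Tm M lam r n}

/-- **Dirac row** -/
theorem tD (hB : UB D.P (μ.pm B)) (hT : D.TmU T)
    (hp : κ.Pu j T) : D.A0 True j (V := μ.V) fun i y => (κ.c i y).tD (B i) (κ.F i y) T := by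
  cases T with
  | lin u => exact A0.app h.h4 hB hp
  | anti d s u => exact (h.cs (h.co hT.1) hp).app h.h4 hB
  | _ => exact A0.zero

/-- **curvature row** -/
theorem tC (hB : UB D.P (μ.p2 B)) (hT : D.TmU T) (hp : κ.Pu j T) :
    D.A0 True j (V := Fm (ι × ι) μ.A) fun i y => (κ.c i y).tC (B i) (κ.F i y) T := by
  cases T with
  | ad g g' ξ =>
    exact (A0.toLp h.h4 fun s =>
      (A0.smul h.lev h.h4 (h.dd hT.1 hT.2.1 h.h4 s) hp).imp Or.inr).app h.h4 hB
  | adj d s g g' u v l =>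
    obtain ⟨t1, -, t3, t4, -, t6, t7⟩ := hT
    exact (A0.toLp h.h4 fun s => (A0.smul h.lev h.h4 (h.dd t3 t4 h.h4 s)
      (h.wdA (h.q (h.cs (ε' := True) (h.co t1) hp) (h.sw t6)) t7)).imp
        fun e => Or.inr (Or.inl e)).app h.h4 hB
  | adn f g g' φ L =>
    obtain ⟨-, t2, t3, t4, t5⟩ := hT
    have h1 := (((h.aws t5).bil (innerSL ℝ) h.lev h.h4 (h.aws t5)).congr
      (w' := fun i y x => ‖κ.aws L i y x‖ ^ 2) fun i y x =>
        (real_inner_self_eq_norm_sq _).symm).comp h.hj t4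
    refine ((A0.toLp h.h4 fun s => (A0.smul h.lev h.h4 (A0.smul h.lev h.h4 (h.dd t2 t3 h.h4 s) h1)
      hp).imp Or.inr).app h.h4 hB).congr fun i y x => ?_
    simp only [Cfg.tC, smul_smul, smul_eq_mul]
    congr 2
    funext s
    congr 1
    simp only [CF.aws]
    ring
  | _ => exact A0.zero

/-- **scalar rows** -/
theorem tS (hT : D.TmU T) : D.Sc fun i y => (κ.c i y).tS (κ.F i y) T := by
  cases T with
  | cut k w g =>
    exact ((h.sg hT).clm (ContinuousLinearMap.mul ℝ ℂ w)).clm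
      (ContinuousLinearMap.single ℝ (fun _ => ℂ) k)
  | cz k w k' =>
    exact ((h.co (d := .z k') trivial).clm (ContinuousLinearMap.mul ℝ ℂ w)).clm
      (ContinuousLinearMap.single ℝ (fun _ => ℂ) k)
  | _ => exact Sc.const 0

end OK

end CF

end Crest.Agent.X212.Mon62
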