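import Crest.Agent.X212.Mon62.NkS
import Crest.Agent.X212.Cys97.Main
import Crest.Agent.X212.Cht98.Jb
import Crest.Agent.X212.St29.Om
import Crest.Agent.X212.Eqv71.Job

/-! # Row 212, NK-SM: the perturbations of a job lie in the local calculus -/

set_option autoImplicit false
set_option linter.unusedSectionVars false
set_option maxSynthPendingDepth 3
noncomputable section
open scoped Manifold ContDiff Topology InnerProductSpace
open MeasureTheory Set Function Filter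

namespace Crest.Agent.X212.Mon62
open An Sob92 Prm93 Wz78 Mod61 Dm Nd18
open Ell97 (UB)
open Wrd81 (TmIn tmX)

section gen
variable {E : Type} [NormedAddCommGroup E] [NormedSpace ℝ E] [FiniteDimensional ℝ E]
  [MeasurableSpace E] [BorelSpace E]
  {HM : Type} [TopologicalSpace HM] {I : ModelWithCorners ℝ E HM} [I.Boundaryless]
  {M : Type} [TopologicalSpace M] [ChartedSpace HM M] [IsManifold I ∞ M]
  [MeasurableSpace M] [T2Space M] [BorelSpace M] [SecondCountableTopology M]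
  {lam : Type} [Fintype lam] {T : Type} [NormedAddCommGroup T] [NormedSpace ℝ T]

section px
variable {ι : Type} [Fintype ι] {r n m : ℕ}

theorem px_add (τ σ : Pt M ι lam r n) : px m (τ.add σ) = px m τ + px m σ :=
  PtX.eqv.injective (funext fun _ => Prod.ext rfl (Prod.ext rfl (Prod.ext rfl (add_zero _).symm)))

theorem px_smul (a : ℝ) (τ : Pt M ι lam r n) : px m (τ.smul a) = a • px m τ :=
  PtX.eqv.injective (funext fun _ => Prod.ext rfl (Prod.ext rfl (Prod.ext rfl (smul_zero _).symm)))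

theorem px_sum {K : Type} (s : Finset K) {τ : Pt M ι lam r n} {f : K → PtX M ι lam r n m}
    (hD : ∀ c x, τ.D c x = ∑ i ∈ s, (f i).D c x) (hC : ∀ c x, τ.C c x = ∑ i ∈ s, (f i).C c x)
    (hS : ∀ c j, τ.S c j = ∑ i ∈ s, (f i).S c j) (hR : ∀ c i, (f i).R c = 0) :
    px m τ = ∑ i ∈ s, f i := by
  refine PtX.eqv.injective (funext fun c => ?_)
  refine Eq.trans ?_ (congrFun (map_sum PtX.eqv.addEquiv _ _) c).symm
  rw [Finset.sum_apply]
  refine Prod.ext (funext fun x => ?_) (Prod.ext (funext fun x => ?_) (Prod.ext (funext fun i => ?_) ?_))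
  · rw [Prod.fst_sum, Finset.sum_apply]; exact hD c x
  · rw [Prod.snd_sum, Prod.fst_sum, Finset.sum_apply]; exact hC c x
  · rw [Prod.snd_sum, Prod.snd_sum, Prod.fst_sum, Finset.sum_apply]; exact hS c i
  · rw [Prod.snd_sum, Prod.snd_sum, Prod.snd_sum]
    exact (Finset.sum_eq_zero fun i _ => hR c i).symm

open Classical in
theorem px_dsum {K : Type} [Fintype K] (p : K → Prop) (τ : ∀ i, p i → Pt M ι lam r n) :
    px m (Pt.dsum p τ) = ∑ i, if h : p i then px m (τ i h) else 0 :=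
  px_sum _ (fun _ _ => Finset.sum_congr rfl fun i _ => by split_ifs <;> rfl)
    (fun _ _ => Finset.sum_congr rfl fun i _ => by split_ifs <;> rfl)
    (fun _ _ => Finset.sum_congr rfl fun i _ => by split_ifs <;> rfl)
    fun _ i => by split_ifs <;> rfl

theorem px_fsum {W : Type} (τ : W → Pt M ι lam r n) (q : W →₀ ℝ) :
    px m (fsum τ q) = q.sum fun w a => a • px m (τ w) :=
  px_sum _ (fun _ _ => rfl) (fun _ _ => rfl) (fun _ _ => rfl) fun _ _ => smul_zero _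

variable {𝔉 : Fam I M ι lam T} {o : Ref 𝔉} {h : 𝔉.OK} {ε : Prop} {τ σ : T → PtX M ι lam r n m}

theorem La.eqOn (H : La h ε (vl (o := o) σ)) (e : ∀ t ∈ 𝔉.Q, τ t = σ t) :
    La h ε (vl (o := o) τ) := H.congr fun y => by rw [vl, e _ y.ht]; rfl

theorem Pj.eqOn (H : Pj o σ) (e : ∀ t ∈ 𝔉.Q, τ t = σ t) : Pj o τ :=
  ⟨fun y => e _ y.ht ▸ H.D y, fun y => e _ y.ht ▸ H.C y⟩

theorem pj_tm (h : 𝔉.OK) (w : Tm M lam r n) : Pj o (tmX 𝔉 m w) :=
  ⟨fun y => pm_tD h y _ _, fun y => p2_tC h y _ _⟩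

/-- **Terms with test data**, any manifold -/
theorem Hy.la_tm [o.B0] (H : Hy o) {Ω : Set M} {w : Tm M lam r n} (hw : TmIn I Ω w) :
    La H.ok ε (vl (o := o) (tmX 𝔉 m w)) := fun _ _ => .of_forall fun Q' hQ k hk h7 y₀ => by
  have c := (H.res hQ).cfOK h7 (hk := hk) y₀
  have u := tmU (D := dm (ok_res H.ok hQ) hk y₀) fun _ => hw.ok _
  have pu := fun a => c.pu_of_cp u (cp_of_cs c.h4 (hw.ok 𝔉.F0) a)
  have key : (dm (ok_res H.ok hQ) hk y₀).A0 True (k + 1) (V := o.m.V)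
      (fun _ y => y.cfg.tD 𝔉.B (𝔉.G y.t).F w) ∧ (dm (ok_res H.ok hQ) hk y₀).A0 True (k + 1)
        (V := Fm (ι × ι) o.m.A) fun _ y => y.cfg.tC 𝔉.B (𝔉.G y.t).F w := by
    have b := fun a => And.intro (c.tD (B := fun _ => 𝔉.B) (ub_pm _) u (pu a))
      (c.tC (B := fun _ => 𝔉.B) (ub_p2 _) u (pu a))
    cases w with
    | lin v => exact let ⟨a, f, l, e⟩ := hw; b ⟨f, l, e, (a (.mul f) (e ▸ List.mem_cons_self)).hcs⟩
    | anti d s v => exact b hw.2.1.hcs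
    | ad g g' ξ =>
      obtain ⟨S, s1, s2⟩ := c.F.mix
      have d : ∀ a, (dm (ok_res H.ok hQ) hk y₀).A0 True (k + 1 + 7)
          fun i y => ((cf (ok_res H.ok hQ) hk y₀).F i y).D a g := fun a =>
        (A0.fsum Finset.univ fun b _ => (s1 a b).smul (by omega) (A0.of_cs (by omega)
          (fun _ => 𝔉.F0.sm_D hw.1.sm b) fun _ => 𝔉.F0.hcs_D hw.1.hcs b)).congr fun i y x =>
            congrFun ((s2 i _ y.mem_U).D a _) x
      exact ⟨A0.zero, (A0.toLp c.h4 fun s : ι × ι => (A0.smul c.lev c.h4 ((A0.smul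
        (Lev.left (by omega) (by omega)) c.h4 (d s.1) (c.dg u.2.1 c.h4 s.2)).imp (ε' := True) Or.inl)
          (c.aw u.2.2)).imp Or.inl).app c.h4 (ub_p2 _)⟩
    | adj d s g g' v v' l => exact b hw.2.1.hcs
    | adn f g g' φ L => exact b hw.1.hcs
    | cut => exact b trivial
    | cz => exact b trivial
  exact ⟨key.1.imp fun _ => trivial, key.2.imp fun _ => trivial,
    ((c.tS u).clm (ContinuousLinearMap.inl ℝ _ (Fin m → ℝ))).congr fun _ _ => rfl⟩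

end px

variable {E3 : Type} [NormedAddCommGroup E3] [NormedSpace ℝ E3] [FiniteDimensional ℝ E3]
  [MeasurableSpace E3] [BorelSpace E3]
  {H3 : Type} [TopologicalSpace H3] {I3 : ModelWithCorners ℝ E3 H3} [I3.Boundaryless]
  {Y : Type} [TopologicalSpace Y] [ChartedSpace H3 Y] [IsManifold I3 ∞ Y] [T2Space Y]
  [MeasurableSpace Y] [BorelSpace Y] [SecondCountableTopology Y] [CompactSpace Y]
  {κ : Type} [Fintype κ] {DY : YD I3 Y κ lam} {B B' : Base M (Option κ) lam}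
  {G G' : Geo I M (Option κ) lam} (hB : B = B') (hG : G = G') (K : Nk DY B' G') (N : ND Y lam)
  {r n : ℕ}

/-- the same neck over an equal background -/
def kc : Nk DY B G :=
  { K with
    iso := hG ▸ K.iso, P := hB ▸ K.P, o := hB ▸ K.o, l := hB ▸ K.l, il := hB ▸ K.il, a := hG ▸ K.a }

theorem kc_q1 : N.q1 (r := r) (n := n) (kc hB hG K) = N.q1 K := by subst hB hG; rfl

theorem kc_q2 (w : YT Y) : N.q2 (r := r) (n := n) (kc hB hG K) w = N.q2 K w := by subst hB hG; rfl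

end gen

/-! ### arc length -/

open M in
theorem cd_len : ContDiffOn ℝ ∞ (fun p : ℝ × ℝ => len p.1 false p.2) {p | p.1 < 1} := by
  have h1 : St29.SF {p : ℝ × ℝ | p.1 < 1} fun p (z : Icc (0 : ℝ) 1) => (p.1, (p.2 + 1) * z + -1) :=
    (St29.SF.par contDiffOn_fst).prod (((St29.SF.par (contDiffOn_snd.add contDiffOn_const)).mul
      (.fix continuous_subtype_val)).add (.const _))
  have h2 := St29.SF.intI0 (F := fun (p : ℝ × ℝ) z => (sig p.1 ((p.2 + 1) * z + -1))⁻¹)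
    (h1.compOn (φ := fun q => (sig q.1 q.2)⁻¹) isOpen_off
      (fun q hq => ((contDiffAt_sig hq).inv (sig_pos hq).ne').contDiffWithinAt) fun p hp _ => .inl hp)
  refine ((contDiffOn_snd.add contDiffOn_const (g := fun _ => (1 : ℝ))).smul h2).congr fun p _ => ?_
  rw [Pi.smul_apply', integral_Icc_eq_integral_Ioc, ← intervalIntegral.integral_of_le zero_le_one,
    intervalIntegral.smul_integral_comp_mul_add (fun x => (sig p.1 x)⁻¹)]
  simp [len, pm]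

/-! ### jobs -/

open M Cht98

variable {Wi : Type} {X : Mf 4} {A κ lam : Type} [Fintype A] [Fintype κ] [Fintype lam]
  [DecidableEq lam] {M : Mark X A κ} {W : World M} {Ll : ML M lam} {Λ : Lns W Ll}
  {A' h : Type} [Fintype A'] [DecidableEq A'] [Fintype h] {r n m : ℕ} {J : Job Wi Λ A' h r n}
  {c : M.Cl} {σ : Cel A'} {T : Type} [NormedAddCommGroup T] [NormedSpace ℝ T]
  {𝔉 : Mod61.Fam (W.Z c).I (W.Z c).M (Option κ) (lam ⊕ lam) T} {s : T → A' → ℝ}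

variable (J σ 𝔉 s) in
/-- the family `𝔉` consists of the backgrounds of the job at the parameters `s t` -/
structure JL : Prop where
  ok : J.OK
  mem : σ ∈ J.𝒦
  B : 𝔉.B = J.B c
  G : ∀ t ∈ 𝔉.Q, 𝔉.G t = J.G c (s t)
  ov : ∀ t ∈ 𝔉.Q, J.Ov σ c (s t)
  sm : ContDiffOn ℝ ∞ s 𝔉.Q

variable (m J c s) in
/-- the gradient terms -/
abbrev x0 : T → PtX (W.Z c).M (Option κ) (lam ⊕ lam) r n m := fun t => px m (J.τ0 c (s t))

variable (m J c s) in
/-- the term with index `w` -/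
abbrev xw (w : Wi) : T → PtX (W.Z c).M (Option κ) (lam ⊕ lam) r n m := fun t => px m (J.τw c (s t) w)

theorem px_τ (q : Wi →₀ ℝ) :
    (fun t => px m (J.τ c q (s t))) = x0 m J c s + q.sum fun w a => a • xw m J c s w :=
  funext fun t => by rw [Job.τ, px_add, px_fsum, Pi.add_apply, Finsupp.sum, Finsupp.sum,
    Finset.sum_apply]; rfl

namespace JL
variable (L : JL J σ 𝔉 s) {t : T} {a : A}

/-- the necks of the family -/
def K (i : A × Option Bool) (t : T) (k : t ∈ 𝔉.Q ∧ J.Ac c (s t) i) :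
    Nk (J.xs i.1).D 𝔉.B (𝔉.G t) := kc L.B (L.G t k.1) (J.K c i.1 i.2 _ k.2)

theorem x0_eq (ht : t ∈ 𝔉.Q) : x0 m J c s t =
    (∑ i, S1 n m (L.K i) (J.xs i.1).N fun t => J.ν i.1 (s t)) t := by
  rw [x0, Job.τ0, px_dsum, Finset.sum_apply]
  refine Finset.sum_congr rfl fun i _ => ?_
  by_cases e : J.Ac c (s t) i
  · rw [dif_pos e, S1, dq, dif_pos ⟨ht, e⟩, K, kc_q1]
  · rw [dif_neg e, S1, dq, dif_neg fun k => e k.2]

theorem xw_eq (w : Wi) (ht : t ∈ 𝔉.Q) : xw m J c s w t =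
    ((fun t => J.co w (s t) • tmX 𝔉 m ((J.tp c).tm (J.tw w)) t) +
      ∑ i, S2 n m (L.K i) (J.xs i.1).N (fun t => J.ν i.1 (s t)) ((J.xs i.1).ty w) : T → _) t := by
  rw [xw, Job.τw, px_add, px_smul, px_dsum, Pi.add_apply, Finset.sum_apply, tmX, L.B, L.G t ht]
  refine congrArg₂ (· + ·) rfl (Finset.sum_congr rfl fun i _ => ?_)
  by_cases e : J.Ac c (s t) i
  · rw [dif_pos e, S2, dq, dif_pos ⟨ht, e⟩]
    simp only [K, kc_q2]
  · rw [dif_neg e, S2, dq, dif_neg fun k => e k.2]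

variable {o : Ref 𝔉} (hF : 𝔉.OK)
include L hF

theorem pj0 : Pj o (x0 m J c s) := (Pj.sum _ fun _ _ => pj_S1 _ _ hF).eqOn fun _ => L.x0_eq

theorem pjw (w : Wi) : Pj o (xw m J c s w) :=
  (((pj_tm hF _).par _).add (Pj.sum _ fun _ _ => pj_S2 _ _ _ hF)).eqOn fun _ => L.xw_eq w

omit hF in
theorem sν (a : A) : ContDiffOn ℝ ∞ (fun t => J.ν a (s t)) 𝔉.Q := (L.ok.ν a).comp_contDiffOn L.sm

/-- **finite necks move smoothly** -/
theorem mv (a : A) (ht : t ∈ 𝔉.Q) :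
    (∀ᶠ u in 𝓝 t, u ∈ 𝔉.Q → u ∈ 𝔉.Q ∧ J.Ac c (s u) (a, none) → J.ν a (s u) = 0) ∨
      ∃ O ∈ 𝓝 t, Mv (L.K (a, none)) O := by
  have sτ : ∀ u ∈ 𝔉.Q, ContDiffAt ℝ ∞ (fun u => (J.Θ (s u)).2 a) u := fun u hu =>
    contDiffAt_pi.1 ((L.ok.sm.comp_contDiffOn L.sm).contDiffAt (hF.opn.mem_nhds hu)).snd a
  by_cases e : (J.Θ (s t)).2 a < 3 / 4
  · exact .inl (((sτ t ht).continuousAt.eventually (Iio_mem_nhds e)).mono fun u hu _ _ =>
      by_contra fun k => (L.ok.ν0 a _ k).2.not_gt hu)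
  by_cases e' : ¬M.pin a ∧ a ∈ J.m.1 ∧ a ∈ M.sys.fr c.1
  swap
  · exact .inl (.of_forall fun u _ k => (e' ⟨k.2.1, k.2.2.2.2.1, k.2.2.2.2.2.1⟩).elim)
  have ac : ∀ u ∈ 𝔉.Q, 1 / 2 ≤ (J.Θ (s u)).2 a → An.Act J.m c a none (J.Θ (s u)) := fun u hu k =>
    ⟨e'.1, L.ok.memBr L.mem (L.ov u hu), L.ok.memO L.mem (L.ov u hu), e'.2.1, e'.2.2, k⟩
  have lt : ∀ u ∈ 𝔉.Q, (J.Θ (s u)).2 a < 1 := fun u hu => L.ok.memO L.mem (L.ov u hu) a e'.2.2
  have cl : ∀ {p : ℝ × ℝ}, p.1 < 1 → ContDiffAt ℝ ∞ (fun p : ℝ × ℝ => len p.1 false p.2) p :=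
    fun k => cd_len.contDiffAt ((isOpen_lt continuous_fst continuous_const).mem_nhds k)
  have c1 : ∀ u ∈ 𝔉.Q, ∀ x, ContDiffAt ℝ ∞ (fun u => len ((J.Θ (s u)).2 a) false x) u :=
    fun u hu x => (cl (p := (_, x)) (lt u hu)).comp u (f := fun u => ((J.Θ (s u)).2 a, x))
      ((sτ u hu).prodMk contDiffAt_const)
  have c2 : ∀ x, ContinuousAt (len ((J.Θ (s t)).2 a) false) x := fun x =>
    ((cl (p := (_, x)) (lt t ht)).comp x (contDiffAt_const.prodMk contDiffAt_id)).continuousAt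
  obtain ⟨x₁, x1, x2⟩ := (((c2 (-1)).eventually (Iio_mem_nhds (show _ < (1 / 4 : ℝ) from
    (len_pm _ false).trans_lt (by norm_num)))).filter_mono (nhdsWithin_le_nhds (s := Ioi (-1)))
      |>.and (Ioo_mem_nhdsGT (show (-1 : ℝ) < 1 by norm_num))).exists
  obtain ⟨x₂, x3, x4⟩ := (((c2 1).eventually (Ioi_mem_nhds (show nl ((J.Θ (s t)).2 a) - 1 / 4 < _ from
    sub_lt_self _ (by norm_num)))).filter_mono (nhdsWithin_le_nhds (s := Iio 1))
      |>.and (Ioo_mem_nhdsLT (show (-1 : ℝ) < 1 by norm_num))).exists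
  have a0 := ac t ht (by linarith)
  have key : ∀ u, u ∈ 𝔉.Q → ∀ k : An.Act J.m c a none (J.Θ (s u)), ∀ z, |hZ W.toCaps c a z| < 1 →
      ∀ y, W.nj c a (y, hZ W.toCaps c a z) = z → z ∈ (J.K c a none _ k).ψ.target ∧
        (J.K c a none _ k).ψ.symm z =
          ((J.g a).symm y, len ((J.Θ (s u)).2 a) false (hZ W.toCaps c a z)) := fun u hu k z hz y e => by
    have b := L.ok.nk c a none _ k
    have m1 : hZ W.toCaps c a z ∈ Cht98.Hs ((J.Θ (s u)).2 a) false := ⟨abs_lt.1 hz, .inl (lt u hu)⟩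
    have b1 := isNk_len k b m1 ((J.g a).symm y)
    rw [(J.g a).apply_symm_apply, e] at b1
    have b2 := (J.K c a none _ k).mem_src (z := ((J.g a).symm y, _)) |>.2
      (isNk_J k b ▸ (bijOn_len (act_le k) _).1 m1)
    exact ⟨b1 ▸ (J.K c a none _ k).ψ.map_source b2,
      (congrArg _ b1.symm).trans ((J.K c a none _ k).ψ.left_inv b2)⟩
  have ex := fun z (hz : |hZ W.toCaps c a z| < 1) =>
    (exists_of_hZ W.toCaps (act_ok a0).mem (hz.trans (by norm_num))).imp fun _ k => k.2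
  let K0 := J.K c a none _ a0
  have sub : univ ×ˢ Icc (len ((J.Θ (s t)).2 a) false x₁) (len ((J.Θ (s t)).2 a) false x₂) ⊆
      K0.ψ.source := fun z hz => K0.mem_src.2 (isNk_J a0 (L.ok.nk c a none _ a0) ▸
    have b := fun x hx => (len_mem_iff (t := (J.Θ (s t)).2 a) (b := false) (s := x) (.inl (lt t ht))).2 hx
    ⟨fun p k => ((b _ x2).1 p k).trans_le hz.2.1, fun p k => hz.2.2.trans_lt ((b _ x4).2 p k)⟩)
  refine .inr ⟨{u | u ∈ 𝔉.Q ∧ 1 / 2 < (J.Θ (s u)).2 a ∧ len ((J.Θ (s u)).2 a) false x₁ < 1 / 4 ∧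
    nl ((J.Θ (s u)).2 a) - 1 / 4 < len ((J.Θ (s u)).2 a) false x₂}, ?_,
    {z | |hZ W.toCaps c a z| < 1}, K0.ψ '' _, fun z => (K0.ψ.symm z).1,
    fun u z => len ((J.Θ (s u)).2 a) false (hZ W.toCaps c a z), fun _ => 0,
    fun u => nl ((J.Θ (s u)).2 a), isOpen_lt (sm_hZ _ (act_ok a0).mem).continuous.abs continuous_const,
    (isCompact_univ.prod isCompact_Icc).image_of_continuousOn (K0.ψ.continuousOn.mono sub),
    fun _ ⟨z, b1, b2⟩ => isNk_sub a0 (L.ok.nk c a none _ a0) (b2 ▸ K0.ψ.map_source (sub b1)),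
    contMDiff_fst.comp_contMDiffOn (K0.iso.sm'.mono fun z hz =>
      let ⟨y, b⟩ := ex z hz; (key t ht a0 z hz y b).1),
    fun u hu z _ => (cl (p := (_, hZ W.toCaps c a z)) (lt u hu.1)).contMDiffAt.comp (u, z)
      ((JAt.of_par (sτ u hu.1)).prodMk_space (JAt.of_fixed (sm_hZ _ (act_ok a0).mem z))),
    fun u hu => ⟨contDiffAt_const, c1 u hu.1 1, hu.1, ac u hu.1 hu.2.1.le⟩, fun u hu k =>
      ⟨(L.ok.nk c a none _ k.2).lo, (L.ok.nk c a none _ k.2).hi, fun z hz => ?_, fun z hz => ?_⟩⟩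
  · filter_upwards [hF.opn.mem_nhds ht, (sτ t ht).continuousAt.eventually
      (Ioi_mem_nhds (show 1 / 2 < (J.Θ (s t)).2 a by linarith)),
      (c1 t ht x₁).continuousAt.eventually (Iio_mem_nhds x1),
      ((c1 t ht 1).continuousAt.sub continuousAt_const).eventually_lt (c1 t ht x₂).continuousAt x3]
      with u b1 b2 b3 b4 using ⟨b1, b2, b3, b4⟩
  · have b := L.ok.nk c a none _ k.2
    have b1 : z ∈ (J.K c a none _ k.2).ψ.target := (L.K (a, none) u k).dp_sub (by norm_num) hz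
    have b2 := isNk_sub k.2 b b1
    have b3 := hz.1 0 b.lo
    have b4 := hz.2 _ b.hi
    rw [show (L.K (a, none) u k).tm z = _ from isNk_tm k.2 b b1] at b3 b4
    have mo := fun v (hv : v ∈ 𝔉.Q) x y => (strictMonoOn_len ((J.Θ (s v)).2 a) false).le_iff_le
      (a := x) (b := y) (.inl (lt v hv)) (.inl (lt v hv))
    obtain ⟨y, b5⟩ := ex z b2
    obtain ⟨b6, b7⟩ := key t ht a0 z b2 y b5
    refine ⟨_, ⟨trivial, ?_⟩, K0.ψ.right_inv b6⟩
    rw [b7]
    exact ⟨(mo t ht _ _).2 ((mo u hu.1 _ _).1 (hu.2.2.1.le.trans (zero_add (1 / 4 : ℝ) ▸ b3))),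
      (mo t ht _ _).2 ((mo u hu.1 _ _).1 (b4.trans hu.2.2.2.le))⟩
  · obtain ⟨y, b⟩ := ex z hz
    refine ⟨(key u hu.1 k.2 z hz y b).1, (key u hu.1 k.2 z hz y b).2.trans ?_⟩
    simp only [K0, (key t ht a0 z hz y b).2]

omit hF

theorem la_tw [o.B0] (H : Hy o) (w : Wi) {ε : Prop} : La H.ok ε (vl (o := o) fun t =>
    J.co w (s t) • tmX 𝔉 m ((J.tp c).tm (J.tw w)) t) := by
  by_cases e : ∃ t ∈ 𝔉.Q, J.co w (s t) ≠ 0
  · obtain ⟨t, ht, e⟩ := e
    exact (H.la_tm (L.ok.tw_in L.mem (L.ov t ht) e).choose_spec).par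
      ((L.ok.co w).comp_contDiffOn L.sm)
  · exact La.eqOn (σ := 0) La.zero fun t ht =>
      smul_eq_zero_of_left (by_contra fun k => e ⟨t, ht, k⟩) _

theorem ν_one (ha : a ∈ cylW c) (ht : t ∈ 𝔉.Q) : J.ν a (s t) = 1 :=
  let ⟨_, b1, b2⟩ := L.ok.inf σ L.mem _ (L.ov t ht).1 a ((L.ov t ht).2.ge ha.1)
  let ⟨_, b3, b4⟩ := L.ok.lin
  (b4 _ a b1 _ (b3.le.trans b2.ge)).2 ha.2

variable [o.B0] (H : Hy o) {F1 : Fr (W.Z c).I (W.Z c).M (Option κ)} {ψ ψ' : (W.Z c).M → ℝ}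
  {ε : Prop}
include H

/-- **the gradient terms**; with ends only `ε = False` -/
theorem la0 (w : Wf 𝔉 F1 ψ)
    (hE : ∀ a ∈ cylW c, ∀ b, ¬ε ∧ Fx (L.K (a, some b)) 𝔉.Q ψ' (J.xs a).N.δ) :
    La H.ok ε (vl (o := o) (x0 m J c s)) := by
  refine La.eqOn (La.vsum _ fun i _ => ?_) fun _ => L.x0_eq
  obtain ⟨a, _ | b⟩ := i
  · exact H.laS1 (Cys97.sm _ _ _ _) w (L.ok.xs a).2 (L.sν a) fun _ => L.mv H.ok a
  by_cases e : a ∈ cylW c
  · exact (H.laS1' (Cys97.sm _ _ _ _) w (L.ok.xs a).2 (fun _ => L.ν_one e) (hE a e b).2).imp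
      (hE a e b).1
  · exact H.laS1 (Cys97.sm _ _ _ _) w (L.ok.xs a).2 (L.sν a) fun _ _ =>
      .inl (.of_forall fun _ _ k => (e ⟨k.2.2.2.2, k.2.1⟩).elim)

/-- **the terms with an index** -/
theorem law (hE : ∀ a ∈ cylW c, ∀ b, Fx (L.K (a, some b)) 𝔉.Q ψ' (J.xs a).N.δ ∧
    ∀ t ∈ 𝔉.Q, ∃ y : Pnt o r, y.t = t ∧ Stat y) (w : Wi) :
    La H.ok ε (vl (o := o) (xw m J c s w)) := by
  refine La.eqOn ((L.la_tw H w).vadd (La.vsum _ fun i _ => H.laS2 (ψ := ψ') (L.ok.xs i.1).2.sy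
    (L.sν i.1) _ fun t ht => ?_)) fun _ => L.xw_eq w
  obtain ⟨a, _ | b⟩ := i
  · exact (L.mv H.ok a ht).imp_right .inl
  by_cases e : a ∈ cylW c
  · exact .inr (.inr ⟨⟨_, H.ok.opn.mem_nhds ht, (hE a e b).1⟩, (hE a e b).2⟩)
  · exact .inl (.of_forall fun _ _ k => (e ⟨k.2.2.2.2, k.2.1⟩).elim)

omit H
variable (hF : 𝔉.OK) (hc : ∀ a ∈ c.1, M.pin a)
include hF hc

/-- **closed manifolds: the gradient terms gain a derivative** -/
theorem sm0 : o.Sm (x0 m J c s) :=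
  have := Cyl58.caps_compact W.toCaps hc
  (L.la0 (hy_compact hF o) (wf_compact hF) (ψ' := 0) fun a k => (k.2 (hc a k.1)).elim).sm (L.pj0 hF)

/-- **closed manifolds: the terms with an index gain a derivative** -/
theorem smw (w : Wi) : o.Sm (xw m J c s w) :=
  have := Cyl58.caps_compact W.toCaps hc
  (L.law (hy_compact hF o) (ψ' := 0) (fun a k => (k.2 (hc a k.1)).elim) w).sm (L.pjw hF w)

end JL

end Crest.Agent.X212.Mon62
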