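import Crest.Agent.X212.Mon62.Bern
import Crest.Agent.X212.Mon62.Inst
import Crest.Agent.X212.Cmp73.Cv

/-! # Row 212: the resolvent on `Cb` functions (any tame manifold), uniform bounds -/

set_option autoImplicit false
set_option linter.unusedSectionVars false
set_option maxSynthPendingDepth 3
noncomputable section
open scoped Manifold ContDiff Topology InnerProductSpace
open MeasureTheory Set Function Filter

namespace Crest.Agent.X212.Mon62
open An Sob92 Prm93 Wz78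
open Ell97 (UB)

variable {E : Type} [NormedAddCommGroup E] [NormedSpace ℝ E] [FiniteDimensional ℝ E]
  [MeasurableSpace E] [BorelSpace E]
  {HM : Type} [TopologicalSpace HM] {I : ModelWithCorners ℝ E HM} [I.Boundaryless]
  {M : Type} [TopologicalSpace M] [ChartedSpace HM M] [IsManifold I ∞ M]
  [MeasurableSpace M] [T2Space M] [BorelSpace M] [SecondCountableTopology M] {ι : Type} [Fintype ι]
  {N : Type} [NormedAddCommGroup N] [NormedSpace ℝ N]
  {V : Type} [NormedAddCommGroup V] [InnerProductSpace ℝ V]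

section fam
variable {J : Type*} {F : J → Fr I M ι} {A : J → ι → M → V →L[ℝ] V} {s u : J → M → V}

theorem ub_mix {P P' : J → Pre I M ι} {S : J → ι → ι → M → ℝ} (h : ∀ j, Mix (P j) (P' j) (S j))
    (hS : ∀ a b, UB P fun j => S j a b) {f : J → M → N} (hf : UB P f) : UB P' f := by
  obtain ⟨C, hC⟩ := UB.unif (f := fun (s : ι × ι) j => S j s.1 s.2) fun s => hS s.1 s.2
  obtain ⟨D, hD⟩ := hf
  exact ⟨_, fun j => ⟨(hD j).1, fun k => (h j).CB (fun a b => (hC j (a, b)).1) k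
    (fun a b => (hC j (a, b)).2 k) (hD j).1 ((hD j).2 k)⟩⟩

theorem od_res (hd : ∀ a, UB (fun j => (F j).toPre) fun j => (F j).dv a)
    (hA : ∀ a, UB (fun j => (F j).toPre) fun j => A j a) (hs : UB (fun j => (F j).toPre) s)
    (h : ∀ j, (F j).IsRes (A j) (s j) (u j)) : Od (fun j => (F j).toPre) u 1 (LF F u) := by
  have su := fun j => (h j).1
  have h0 : Od (fun j => (F j).toPre) u 0 u := Od.wd []
  have h1 := fun a => h0.app (hA a)
  refine (((h0.mono zero_le_one).sub (Od.cst hs)).sub (Od.sum Finset.univ fun a =>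
    (((h1 a).D su a).add (((h0.D su a).add ((h1 a).mono zero_le_one)).app (hA a))).add
      (((h1 a).mono zero_le_one).smul (hd a)))).congr fun j x => ?_
  rw [← (h j).2.2 x, sub_add_cancel_left, lap, neg_neg, LF, Mp86.Lop, ← Finset.sum_sub_distrib]
  refine Finset.sum_congr rfl fun a _ => ?_
  have e : dv I ((F j).e a) (nab I (F j).e (A j) a (u j)) x =
      (F j).D a ((F j).D a (u j)) x + (F j).D a (fun y => A j a y (u j y)) x :=
    congrFun ((F j).D_add ((F j).sm_D (su j) a) (((hA a).sm j).clm_apply (su j)) a) x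
  rw [nab, e]
  simp only [nab, smul_add, Pre.D_def]
  abel

/-- a priori bounds of all orders -/
theorem ub_isRes (hc : ∀ a b l, UB (fun j => (F j).toPre) fun j => (F j).c a b l)
    (hd : ∀ a, UB (fun j => (F j).toPre) fun j => (F j).dv a)
    (hB : ∀ j, Mp86.Bumps I (F j).e (F j).dv)
    (hA : ∀ a, UB (fun j => (F j).toPre) fun j => A j a) (hk : ∀ j a x, Skew (A j a x))
    (hs : UB (fun j => (F j).toPre) s) (h : ∀ j, (F j).IsRes (A j) (s j) (u j))
    (hu : ∀ j, (F j).Cb (u j)) : UB (fun j => (F j).toPre) u :=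
  let ⟨C, hC⟩ := hs
  bern hc hd hB hu (R := C 0) (fun j => Mp86.isRes_norm_le (hB j) ⟨fun a => (hA a).sm j, hk j⟩ (h j)
    (CB_bound ((hC j).2 0))) (od_res hd hA ⟨C, hC⟩ h)

end fam

theorem mb_of_ub {α : Type} {P : Pre I M ι} {l : Filter α} (k : ℕ) (x : M) :
    ∀ {f : α → M → N}, UB (fun _ => P) f → Cmp73.MB I l x k f := by
  have h0 : ∀ {f : α → M → N}, UB (fun _ => P) f → Cmp73.MB I l x 0 f := fun ⟨C, hC⟩ =>
    Cmp73.MB.zero_of (.of_forall fun q => (hC q.1).1 q.2)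
      ⟨C 0, .of_forall fun q => CB_bound ((hC q.1).2 0) q.2⟩
  induction k with
  | zero => exact h0
  | succ k ih => exact fun h => Cmp73.MB.gainP P (h0 h) fun a => ih (h.D a)

variable [FiniteDimensional ℝ V]

section one
variable {F : Fr I M ι} {C : ℕ → ℝ} {A : ι → M → V →L[ℝ] V} {s : M → V}

theorem exists_res_cs (hF : F.Tame C) (hA : ∀ c, F.Cb (A c)) (hs : ∀ c x, Skew (A c x))
    (h : Sm I s) (hc : HasCompactSupport s) : ∃ u, F.IsRes A s u ∧ F.Cb u := by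
  classical
  have := FiniteDimensional.complete ℝ V
  have hS := Sup.of_tame hF
  have hb := Ell97.lap_bij hF hA hs
  have hr := Ell97.rep_lapH hF hA hs
  let σ : Sec I (triv M V) := ⟨s, mem_triv h hc⟩
  choose x hx using fun k => (hb k).2 (F.toH k _ σ)
  have h1 : F.Cb (F.val 6 _ (x 4)) := Cb_val hS (by omega) fun j hj => by
    obtain ⟨k, rfl⟩ : ∃ k, j = k + 2 := ⟨j - 2, by omega⟩
    refine ⟨x k, (hb 4).1 ?_⟩
    rw [← Rep_incl (hr k) (hr 4) (by omega) (by omega), hx, hx, incl_toH (by omega)]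
  have hm : Mix F.toPre F.toPre fun a b _ => if a = b then 1 else 0 := fun a x => by simp
  have e := (hr 4).unique (rep_QQ (act_self hF) (T := (fun c => F.mulH 4 _ _ (A c),
    fun c => F.mulH 5 _ _ (A c))) ⟨fun c => rep_mulH (hA c) (Maps.triv _),
      fun c => rep_mulH (hA c) (Maps.triv _)⟩)
  refine ⟨_, ⟨Cb.sm h1, ⟨_, CB_bound (h1.choose_spec.2 0)⟩, fun y => ?_⟩, h1⟩
  rw [← val_QQ hS hm (fun _ _ => Cb_const _) (fun c => ⟨C, hF.dv c⟩) le_rfl hA, ← e, hx,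
    val_toH hS le_rfl]

/-- limits of solutions -/
theorem isRes_lim {α : Type} {l : Filter α} [l.NeBot] (hA : ∀ c, Sm I (A c)) (hs : Sm I s)
    {u t : α → M → V} {g : M → V} {D : ℕ → ℝ} (hD : ∀ n, F.CBs (u n) D)
    (hg : Cmp73.Cv I l univ u g) (h : ∀ n, F.IsRes A (t n) (u n))
    (ht : ∀ x, ∀ᶠ n in l, t n x = s x) : F.IsRes A s g ∧ F.CBs g D := by
  have g1 : F.CBs g D := ⟨fun x => hg.smoothAt isOpen_univ trivial, fun k w hw x =>
    (Cmp73.Cv.Dw isOpen_univ F.toPre w hg).mem_closed (x := x) trivial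
      (C := {v | ‖v‖ ≤ D k}) (isClosed_le continuous_norm continuous_const)
      (.of_forall fun n => (hD n).2 k w hw x)⟩
  have nb : ∀ (a : ι) {f : α → M → V} {g : M → V}, Cmp73.Cv I l univ f g →
      Cmp73.Cv I l univ (fun n => nab I F.e A a (f n)) (nab I F.e A a g) := fun a _ _ h =>
    (h.D isOpen_univ F.toPre a).add ((Cmp73.Cv.fixed' (hA a)).app h)
  have h1 : Cmp73.Cv I l univ (fun n x => u n x + lap I F.e F.dv A (u n) x)
      fun x => g x + lap I F.e F.dv A g x :=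
    hg.add (Cmp73.Cv.sum fun a => (nb a (nb a hg)).add
      ((Cmp73.Cv.fixed' (F.dv_sm a)).smul (nb a hg))).neg
  exact ⟨⟨g1.1, ⟨_, CB_bound (g1.2 0)⟩, fun x => h1.eq_of (Cmp73.Cv.fixed' hs) trivial
    ((ht x).mono fun n hn => ((h n).2.2 x).trans hn)⟩, g1⟩

/-- **RE**: `Cb` data have a `Cb` solution on any tame manifold. -/
theorem exists_res_cb (hF : F.Tame C) (hA : ∀ c, F.Cb (A c)) (hk : ∀ c x, Skew (A c x))
    (hs : F.Cb s) : ∃ u, F.IsRes A s u ∧ F.Cb u := by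
  have := lcs (I := I) (M := M)
  have := scs (I := I) (M := M)
  let K := CompactExhaustion.choice M
  choose χ c1 c2 _ c4 using fun n => hF.exh (K n) (K.isCompact n)
  choose u u1 u2 using fun n => exists_res_cs hF hA hk (s := fun x => χ n x • s x)
    ((c1 n).1.smul (Cb.sm hs)) ((c2 n).smul_right (f' := s))
  have fx : ∀ {N : Type} [NormedAddCommGroup N] [NormedSpace ℝ N] {f : M → N}, F.Cb f →
      UB (fun _ : ℕ => F.toPre) fun _ => f := fun ⟨D, hD⟩ => ⟨D, fun _ => hD⟩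
  have hu : UB (fun _ : ℕ => F.toPre) u := ub_isRes (F := fun _ : ℕ => F) (A := fun _ => A)
    (s := fun n x => χ n x • s x) (fun a b l => fx ⟨C, hF.c a b l⟩)
    (fun a => fx ⟨C, hF.dv a⟩) (fun _ => Mp86.bumps_of_tame F hF) (fun a => fx (hA a))
    (fun _ => hk) (UB.smul ⟨C, c1⟩ (fx hs)) u1 u2
  obtain ⟨g, hg⟩ := Cmp73.MBOn.exists_cv (𝒰 := Ultrafilter.of (atTop : Filter ℕ)) (Ω := univ)
    fun k x _ => mb_of_ub k x hu
  obtain ⟨D, hD⟩ := hu
  have := isRes_lim (fun c => Cb.sm (hA c)) (Cb.sm hs) hD hg u1 fun x => by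
    obtain ⟨n, hn⟩ := K.exists_mem x
    refine Ultrafilter.of_le _ ?_
    filter_upwards [eventually_ge_atTop n] with m hm
    rw [c4 m x (K.subset hm hn), one_smul]
  exact ⟨g, this.1, D, this.2⟩

theorem re_tame (hF : F.Tame C) (hA : ∀ c, F.Cb (A c)) (hk : ∀ c x, Skew (A c x)) (hs : F.Cb s) :
    F.IsRes A s (F.res A s) ∧ F.Cb (F.res A s) := by
  obtain ⟨u, h1, h2⟩ := exists_res_cb hF hA hk hs
  rw [Mp86.res_eq (Mp86.bumps_of_tame F hF) ⟨fun a => Cb.sm (hA a), hk⟩ h1]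
  exact ⟨h1, h2⟩

theorem re1_mix {F₀ : Pre I M ι} {S S' : ι → ι → M → ℝ} (hF : F.Tame C) (h : Mix F₀ F.toPre S)
    (hS : ∀ a b, F₀.Cb (S a b)) (h' : Mix F.toPre F₀ S') (hS' : ∀ a b, F₀.Cb (S' a b)) :
    RE1 V F₀ F := fun _ _ hA hk hs =>
  let ⟨u, h1, h2⟩ := exists_res_cb hF (fun c => h.Cb hS (hA c)) hk (h.Cb hS hs)
  ⟨u, h1, h'.Cb (fun a b => h.Cb hS (hS' a b)) h2⟩

end one

/-- **RE, uniform**: bounds of all orders of the resolvent in families. -/
theorem ub_res {J : Type*} {F : J → Fr I M ι} {A : J → ι → M → V →L[ℝ] V} {s : J → M → V}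
    {C : ℕ → ℝ} (hF : ∀ j, (F j).Tame C) (hA : ∀ a, UB (fun j => (F j).toPre) fun j => A j a)
    (hk : ∀ j a x, Skew (A j a x)) (hs : UB (fun j => (F j).toPre) s) :
    UB (fun j => (F j).toPre) fun j => (F j).res (A j) (s j) :=
  have h := fun j => re_tame (hF j) (fun a => let ⟨D, h⟩ := hA a; ⟨D, h j⟩) (hk j)
    (let ⟨D, h⟩ := hs; ⟨D, h j⟩)
  ub_isRes (fun a b l => ⟨C, fun j => (hF j).c a b l⟩) (fun a => ⟨C, fun j => (hF j).dv a⟩)
    (fun j => Mp86.bumps_of_tame _ (hF j)) hA hk hs (fun j => (h j).1) fun j => (h j).2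

variable (I M V) in
theorem res_cbs (C : ℕ → ℝ) : ∃ K : ℕ → ℝ, ∀ (F : Fr I M ι) (A : ι → M → V →L[ℝ] V) (s : M → V),
    F.Tame C → (∀ a, F.CBs (A a) C) → (∀ a x, Skew (A a x)) → F.CBs s C →
      F.CBs (F.res A s) K :=
  let ⟨K, hK⟩ := ub_res (J := {q : Fr I M ι × (ι → M → V →L[ℝ] V) × (M → V) // q.1.Tame C ∧
      (∀ a, q.1.CBs (q.2.1 a) C) ∧ (∀ a x, Skew (q.2.1 a x)) ∧ q.1.CBs q.2.2 C})
    (F := fun q => q.1.1) (A := fun q => q.1.2.1) (s := fun q => q.1.2.2) (fun q => q.2.1)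
    (fun a => ⟨C, fun q => q.2.2.1 a⟩) (fun q => q.2.2.2.1) ⟨C, fun q => q.2.2.2.2⟩
  ⟨K, fun F A s h1 h2 h3 h4 => hK ⟨(F, A, s), h1, h2, h3, h4⟩⟩

namespace Dm
variable {J : Type} {X Y : J → Type} [∀ i, NormedAddCommGroup (X i)] [∀ i, NormedSpace ℝ (X i)]
  {D : Dm I M ι X Y} {G : ∀ i, X i → Fr I M ι}

/-- `RE` for tame geometric frames that are boundedly equivalent to the Sobolev frames -/
theorem re_of_tame (hF : D.FF G) (hT : ∀ i y, ∃ C, (G i (D.pt i y)).Tame C)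
    {S' : ι → ι → ∀ i, Y i → M → ℝ} (hS' : ∀ a b, D.Sz (S' a b))
    (h' : ∀ i y, Mix (G i (D.pt i y)).toPre (D.P i) fun a b => S' a b i y) : D.RE V G := by
  obtain ⟨S, hS, h⟩ := hF.mix
  have z := fun a b => ((hS a b).a0 4 le_rfl).sz
  have ex := fun i y => re1_mix (V := V) (hT i y).choose_spec (h i _ (D.mem i y))
    (fun a b => (z a b).cb i y) (h' i y) fun a b => (hS' a b).cb i y
  refine ⟨ex, fun A s hA hk hs => ?_⟩
  have up : ∀ {N : Type} [NormedAddCommGroup N] [NormedSpace ℝ N] {f : J → M → N}, UB D.P f →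
      UB (fun i => (G i (D.pt i (D.y₀ i))).toPre) f :=
    ub_mix (fun i => h i _ (D.mem i _)) fun a b => (z a b).ub
  have r := fun i => re_tame (hT i (D.y₀ i)).choose_spec (fun a => (up (hA a)).cb i) (hk i)
    ((up hs).cb i)
  exact ub_mix (fun i => h' i _) (fun a b => up (hS' a b).ub) (ub_isRes
    (fun a b l => up ((hF.c a b l).a0 4 le_rfl).sz.ub) (fun a => up ((hF.dv a).a0 4 le_rfl).sz.ub)
    (fun i => hF.bump i _) (fun a => up (hA a)) hk (up hs) (fun i => (r i).1) fun i => (r i).2)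

/-- the same vector fields (weighted Sobolev frames) -/
theorem re_of_e (hF : D.FF G) (hT : ∀ i y, ∃ C, (G i (D.pt i y)).Tame C)
    (he : ∀ i y, (G i (D.pt i y)).e = (D.F i).e) : D.RE V G := by
  classical
  exact re_of_tame hF hT (S' := fun a b _ _ _ => if a = b then 1 else 0)
    (fun a b => Sz.fixed (UB.const _)) fun i y a x => by simp [he]

end Dm

section fmt
open Mod61
variable {lam : Type} [Fintype lam] {T : Type} [NormedAddCommGroup T] [NormedSpace ℝ T]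
  {𝔉 : Fam I M ι lam T}

theorem mix_inv (h : 𝔉.OK) {t : T} (ht : t ∈ 𝔉.Q) :
    Mix (𝔉.G t).F.toPre 𝔉.F0.toPre fun a b x => 𝔉.Si t x a b := fun a x => by
  simp only [h.mix t ht _ x, Finset.smul_sum, smul_smul]
  rw [Finset.sum_comm]
  simp only [← Finset.sum_smul, h.SiS t ht, ← h.P0, 𝔉.F0.P_e]

theorem re1_fam (h : 𝔉.OK) {t : T} (ht : t ∈ 𝔉.Q) : RE1 V 𝔉.F0.toPre (𝔉.G t).F :=
  re1_mix (h.tameG t ht).choose_spec (h.mix t ht) (fun a b => (h.sS a b).cb t ht) (mix_inv h ht)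
    fun a b => (h.sSi a b).cb t ht

/-- on ends only locality and the a priori bound on the scale of `F0` are hypotheses -/
theorem hy_of (h : 𝔉.OK) (o : Ref 𝔉) {χ : M → ℝ} (c1 : Sm I χ) (c2 : HasCompactSupport χ)
    (l1 : ∀ a b, Off 𝔉.Q χ fun t x => 𝔉.S t x a b) (l2 : ∀ a b k, Off 𝔉.Q χ fun t x => 𝔉.cf t x a b k)
    (l3 : ∀ a, Off 𝔉.Q χ fun t x => 𝔉.la t x a)
    (l4 : ∀ a b k, Off 𝔉.Q χ fun t => (𝔉.G t).F.c a b k) (l5 : ∀ a, Off 𝔉.Q χ fun t => (𝔉.G t).F.dv a)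
    (hw : ∀ t ∈ 𝔉.Q, ∃ F' d C, Nk89.Dr (𝔉.G t).F F' d ∧ F'.Tame C ∧ Cmp 𝔉.F0.toPre F'.toPre) :
    Hy o := by
  have hB : ∀ {V : Type} [NormedAddCommGroup V] [InnerProductSpace ℝ V] [FiniteDimensional ℝ V],
      ∀ t ∈ 𝔉.Q, RB1 V 𝔉.F0.toPre (𝔉.G t).F := fun t ht =>
    let ⟨_, _, _, h1, h2, h3⟩ := hw t ht
    (rb1_dr h1 h2).chg h3 (act_fam h ht) (h1.act h2)
  exact ⟨h, ⟨χ, c1, c2, l1, l2, l3, l4, l5⟩, hB, hB, fun _ => re1_fam h, fun _ => re1_fam h⟩

end fmt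

end Crest.Agent.X212.Mon62
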