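import Crest.Agent.X212.Mon62.NkJ

/-! # Row 212, P-SM: the calculus for moving base connections and decaying spinors -/

set_option autoImplicit false
set_option linter.unusedSectionVars false
set_option maxSynthPendingDepth 3
noncomputable section
open scoped Manifold ContDiff Topology InnerProductSpace
open MeasureTheory Set Function Filter

namespace Crest.Agent.X212.Mon62
open An Sob92 Prm93 Wz78 Mod61 Dm
open Ell97 (UB)
open Wrd81 (wd Tf Tv SwIn LlIn SdIn AwIn SgIn CoIn TmIn tmX)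

variable {E : Type} [NormedAddCommGroup E] [NormedSpace ℝ E] [FiniteDimensional ℝ E]
  [MeasurableSpace E] [BorelSpace E]
  {HM : Type} [TopologicalSpace HM] {I : ModelWithCorners ℝ E HM} [I.Boundaryless]
  {M : Type} [TopologicalSpace M] [ChartedSpace HM M] [IsManifold I ∞ M]
  [MeasurableSpace M] [T2Space M] [BorelSpace M] [SecondCountableTopology M] {ι : Type} [Fintype ι]
  {lam : Type} [Fintype lam]

section gen
variable {J : Type} {X Y : J → Type} [∀ i, NormedAddCommGroup (X i)] [∀ i, NormedSpace ℝ (X i)]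
  {D : Dm I M ι X Y} {j l : ℕ}
  {U V W : Type} [NormedAddCommGroup U] [InnerProductSpace ℝ U] [CompleteSpace U]
  [NormedAddCommGroup V] [InnerProductSpace ℝ V] [CompleteSpace V]
  [NormedAddCommGroup W] [InnerProductSpace ℝ W] [CompleteSpace W]

namespace Dm

variable (D) in
/-- a smooth family of `Cb` functions plus a pure family -/
def A1 (j : ℕ) (w : ∀ i, Y i → M → U) : Prop := ∃ f : ∀ i, X i → M → U, D.US f ∧
  D.A0 True j fun i y x => w i y x - f i (D.pt i y) x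

variable (D) in
/-- operator valued families acting on the levels `≤ j` -/
structure Mp (j : ℕ) (A : ∀ i, Y i → M → V →L[ℝ] W) : Prop where
  sz : D.Sz A
  op : ∀ l, 4 ≤ l → l ≤ j → ∃ T : ∀ i, X i → D.H V l i →L[ℝ] D.H W l i, UC D.toRg T ∧
    ∀ i y, T i (D.pt i y) = (D.P i).mulH l _ _ (A i y)

variable {a : ∀ i, Y i → M → U} {w s : ∀ i, Y i → M → V} {G : ∀ i, X i → Fr I M ι}

theorem A1.sz (h : D.A1 j a) : D.Sz a :=
  let ⟨_, h1, h2⟩ := h; (h2.sz.add h1.sz).congr fun _ _ _ => (sub_add_cancel _ _).symm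

theorem A1.toMp (β : U →L[ℝ] V →L[ℝ] W) (hj : 7 ≤ j) (h : D.A1 j a) :
    D.Mp j fun i y x => β (a i y x) := by
  refine ⟨h.sz.clm β, fun l hl hlj => ?_⟩
  obtain ⟨f, h1, h2⟩ := h
  obtain ⟨T, t1, t2⟩ := h2.mult β hj hl hlj
  refine ⟨_, t1.add ((h1.clm β).mulH l), fun i y => ?_⟩
  rw [t2, ← mulH_add (Cb_clm β (h2.sz.cb i y)) (Maps.triv _) ((h1.clm β).cb i _ (D.mem i y))
    (Maps.triv _)]
  congr 1
  funext x
  rw [Pi.add_apply, ← map_add, sub_add_cancel]

theorem Mp.congr {A A' : ∀ i, Y i → M → V →L[ℝ] W} (h : D.Mp j A)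
    (e : ∀ i y x, A' i y x = A i y x) : D.Mp j A' := by
  obtain rfl : A' = A := funext fun i => funext fun y => funext (e i y)
  exact h

theorem Mp.lower {A : ∀ i, Y i → M → V →L[ℝ] W} (h : D.Mp j A) (hl : l ≤ j) : D.Mp l A :=
  ⟨h.sz, fun k h4 hk => h.op k h4 (hk.trans hl)⟩

theorem Mp.app {A : ∀ i, Y i → M → V →L[ℝ] W} (h : D.Mp j A) (hl : 4 ≤ l) (hlj : l ≤ j)
    (hw : D.A0 True l w) : D.A0 True l fun i y x => A i y x (w i y x) := by
  obtain ⟨T, t1, t2⟩ := h.op l hl hlj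
  obtain ⟨δ, d1, d2⟩ := hw.pure
  exact A0.of_pure (h.sz.bil (ContinuousLinearMap.id ℝ _) hw.sz) (t1.app d1) fun i y x => by
    rw [t2, vl, val_mulH (D.sup i) hl (h.sz.cb i y) (Maps.triv _), d2]

theorem Mp.inv (hF : D.FF G) (hB : D.RB V G) (hl : 4 ≤ l)
    {A : ∀ i, Y i → ι → M → V →L[ℝ] V} (hA : ∀ c, D.Mp (l + 1) fun i y => A i y c)
    (hs : ∀ i y c x, Skew (A i y c x)) :
    ∃ R : ∀ i, X i → D.H V l i →L[ℝ] D.H V (l + 2) i, UC D.toRg R ∧ ∀ i y f x,
      D.vl (R i (D.pt i y) f) x + Wz78.lap I (G i (D.pt i y)).e (G i (D.pt i y)).dv (A i y)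
        (D.vl (R i (D.pt i y) f)) x = D.vl f x := by
  choose T₁ a1 a2 using fun c => (hA c).op l hl l.le_succ
  choose T₂ b1 b2 using fun c => (hA c).op (l + 1) (by omega) le_rfl
  let T : ∀ i, X i → Mu (D.P i) V l := fun i x => (fun c => T₁ c i x, fun c => T₂ c i x)
  have hT : ∀ i y, T i (D.pt i y) = (fun c => (D.P i).mulH l _ _ (A i y c),
      fun c => (D.P i).mulH (l + 1) _ _ (A i y c)) := fun i y => by simp only [T, a2, b2]
  have hc : ∀ i, ∀ x ∈ D.U i, T i x ∈ closure (Adm V (D.P i) l) := fun i x hx => by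
    have c1 : ContinuousAt (T i) x := (continuousAt_pi.2 fun c => ((a1 c).sm.diff hx).continuousAt).prodMk
      (continuousAt_pi.2 fun c => ((b1 c).sm.diff hx).continuousAt)
    refine c1.continuousWithinAt.mem_closure (D.dns i hx) ?_
    rintro _ ⟨y, rfl⟩
    rw [hT]
    exact ⟨A i y, fun c => (hA c).sz.sm i y, hs i y,
      fun c => rep_mulH ((hA c).sz.cb i y) (Maps.triv _),
      fun c => rep_mulH ((hA c).sz.cb i y) (Maps.triv _)⟩
  have hi : ∀ i, ∀ x ∈ D.U i, (QQ (D.P i) (G i x) l (T i x)).IsInvertible := fun i x hx =>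
    isInvertible_of_bij ((hB l hl).1 i x hx _ (hc i x hx))
  have hb : ∃ R, ∀ i, ∀ x ∈ D.B i, ‖T i x‖ ≤ R := by
    choose K₁ n1 k1 using fun c => (a1 c).bd0.nn
    choose K₂ n2 k2 using fun c => (b1 c).bd0.nn
    have p1 := Finset.sum_nonneg fun c (_ : c ∈ Finset.univ) => n1 c
    have p2 := Finset.sum_nonneg fun c (_ : c ∈ Finset.univ) => n2 c
    refine ⟨∑ c, K₁ c + ∑ c, K₂ c, fun i x hx => max_le ?_ ?_⟩
    · exact (pi_norm_le_iff_of_nonneg (by positivity)).2 fun c => (k1 c i x hx).trans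
        ((Finset.single_le_sum (fun c _ => n1 c) (Finset.mem_univ c)).trans (by linarith))
    · exact (pi_norm_le_iff_of_nonneg (by positivity)).2 fun c => (k2 c i x hx).trans
        ((Finset.single_le_sum (fun c _ => n2 c) (Finset.mem_univ c)).trans (by linarith))
  obtain ⟨R, hR⟩ := hb
  obtain ⟨K, hK⟩ := (hB l hl).2 R
  obtain ⟨S, s1, s2⟩ := hF.mix
  refine ⟨_, (uc_QQ hF (T := T) a1 b1).inverse hi ⟨|K|, fun i x hx =>
    norm_inverse_le (hi i x (D.sub i hx)) (abs_nonneg K) fun u =>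
      (hK i x hx _ (hc i x (D.sub i hx)) (hR i x hx) u).trans
        (mul_le_mul_of_nonneg_right (le_abs_self K) (norm_nonneg _))⟩, fun i y f x => ?_⟩
  have hx := D.mem i y
  rw [vl, ← val_QQ (D.sup i) (s2 i _ hx) (fun a b => (s1 a b).us.cb i _ hx)
    (fun c => (hF.dv c).us.cb i _ hx) hl (fun c => (hA c).sz.cb i y), ← hT,
    apply_inverse (hi i _ hx)]

/-- the resolvent of a moving connection on pure families -/
theorem Mp.res (hF : D.FF G) (hB : D.RB V G) (hE : D.RE V G) (hl : 4 ≤ l)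
    {A : ∀ i, Y i → ι → M → V →L[ℝ] V} (hA : ∀ c, D.Mp (l + 1) fun i y => A i y c)
    (hs : ∀ i y c x, Skew (A i y c x)) (h : D.A0 True l s) :
    D.A0 True (l + 2) fun i y => (G i (D.pt i y)).res (A i y) (s i y) := by
  obtain ⟨z1, z2⟩ := sz_res hF hE (fun c => (hA c).sz) hs h.sz
  obtain ⟨R, r1, r2⟩ := Mp.inv hF hB hl hA hs
  obtain ⟨δ, d1, d2⟩ := h.pure
  refine A0.of_pure z1 (r1.app d1) fun i y x => ?_
  obtain ⟨e1, ⟨C, e2⟩, e3⟩ := z2 i y
  have mc := Mp86.Mc.mc (⟨fun c => (hA c).sz.sm i y, hs i y⟩ : Mp86.Mc I (A i y))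
  refine Mp86.eq_of_bdd (hF.bump i y) finite_empty (fun h => absurd h not_nonempty_empty)
    (C := C + √|D.C 0| * ‖R i (D.pt i y) (δ i (D.pt i y))‖) (Mp86.vf (G i (D.pt i y)).toPre)
    (fun _ h => h.elim) (fun _ h => h.elim) (fun x _ => mc x) (fun x _ => Mp86.cm2 e1 x)
    (fun x _ => contMDiff_val (n := 2) (D.sup i) (by omega) _ x) (fun x _ => ?_)
    (fun x _ => ?_) x (notMem_empty x)
  · exact (norm_sub_le _ _).trans (add_le_add (e2 x) (norm_val_le (D.sup i) (by omega) _ x))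
  · rw [Mp86.LA_eq_lap, Mp86.LA_eq_lap, sub_neg_eq_add, sub_neg_eq_add, r2, e3 x, d2]

end Dm

namespace CF
variable {μ : MF M ι lam J} {r n : ℕ} (κ : CF D μ r)

/-- the family with the trivial connection -/
abbrev tr : CF D μ r := ⟨κ.G, 0, κ.Φ, κ.z⟩

/-- moving base connections, decaying spinors -/
structure OKp (j : ℕ) : Prop where
  o : κ.tr.OK True j
  W : ∀ a, D.A1 j fun i y x => hsL (κ.W i y a x)
  sk : ∀ i y a x, Skw (κ.W i y a x)

namespace OKp
variable {κ} (h : κ.OKp j) {Ω : Set M}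
include h

theorem h7 : 7 ≤ j := h.o.hj.trans' (by omega)

theorem resV {u : ∀ i, Y i → M → μ.V} (hl : 4 ≤ l) (hlj : l + 1 ≤ j) (hu : D.A0 True l u) :
    D.A0 True (l + 2) fun i y => (κ.F i y).res (κ.W i y) (u i y) :=
  Mp.res h.o.F h.o.bV h.o.eV hl (fun c => (((h.W c).toMp opL h.h7).congr fun _ _ _ =>
    (opL_hsL _).symm).lower hlj) h.sk hu

theorem resA {u : ∀ i, Y i → M → μ.A} (hl : 4 ≤ l) (hlj : l + 1 ≤ j) (hu : D.A0 True l u) :
    D.A0 True (l + 2) fun i y => (κ.F i y).res (μ.adW i (κ.W i y)) (u i y) :=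
  Mp.res h.o.F h.o.bA h.o.eA hl (fun c => (((h.W c).toMp (adcL ∘L opL) h.h7).congr fun _ _ _ => by
    rw [ContinuousLinearMap.comp_apply, opL_hsL]; rfl).lower hlj)
    (fun i y c x => adc_skw (h.sk i y c x)) hu

theorem wdV {s : ∀ i, Y i → M → μ.V} (hs : D.A0 True j s) : ∀ {w : SW M}, D.SwU w →
    D.A0 True j (V := μ.V) fun i y => wd ((κ.c i y).lt (κ.F i y)) (s i y) w
  | [], _ => hs
  | t :: _, hw => by
    have hu := wdV hs fun b hb => hw b (List.mem_cons_of_mem t hb)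
    have ht := hw t List.mem_cons_self
    have := h.h7
    cases t with
    | mul f => exact h.o.lt ht hu
    | cl g => exact h.o.lt ht hu
    | im => exact h.o.lt ht hu
    | G =>
      obtain ⟨l, rfl⟩ : ∃ l, j = l + 2 := ⟨j - 2, by omega⟩
      exact h.resV (by omega) (by omega) (hu.lower (by omega) (by omega))

theorem wdA {s : ∀ i, Y i → M → μ.A} (hs : D.A0 True j s) : ∀ {w : List (An.La M)},
    (∀ t ∈ w, D.LaU t) → D.A0 True j (V := μ.A) fun i y => wd ((κ.c i y).la (κ.F i y)) (s i y) w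
  | [], _ => hs
  | t :: _, hw => by
    have hu := wdA hs fun b hb => hw b (List.mem_cons_of_mem t hb)
    have ht := hw t List.mem_cons_self
    have := h.h7
    cases t with
    | mul f => exact h.o.la ht hu
    | G =>
      obtain ⟨l, rfl⟩ : ∃ l, j = l + 2 := ⟨j - 2, by omega⟩
      exact h.resA (by omega) (by omega) (hu.lower (by omega) (by omega))

/-- the curvature, cut off -/
theorem Fg {φ : ∀ i, Y i → M → ℝ} (hφ : D.A0 True j φ) (hl : 4 ≤ l) (hlj : l + 1 ≤ j) (s : ι × ι) :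
    D.A0 True l (V := μ.A) fun i y x => φ i y x • (μ.m i).Fg (κ.F i y) (κ.W i y) x s := by
  have m := fun a => (h.W a).toMp (ContinuousLinearMap.lsmul ℝ ℝ).flip h.h7
  have p := fun a => (m a).app h.o.h4 le_rfl hφ
  have p' := fun a => (p a).lower hl (by omega)
  have h1 := fun a b => (((p b).lower (by omega) hlj).dG h.o.F hl a).sub hl
    ((m b).app hl (by omega) ((hφ.lower (by omega) hlj).dG h.o.F hl a))
  have h3 := fun a b => ((h.W b).toMp mlL.flip h.h7).app hl (by omega) (p' a)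
  have sW := fun i y b => ((h.W b).sz.clm opL).sm i y
  simp only [opL_hsL] at sW
  have h5 : ∀ i y a b x, (κ.F i y).D a (fun x => φ i y x • hsL (κ.W i y b x)) x =
      (κ.F i y).D a (φ i y) x • hsL (κ.W i y b x) +
        φ i y x • hsL (dv I ((κ.F i y).e a) (κ.W i y b) x) := fun i y a b x =>
    (dv_smul ((hφ.sz.sm i y).mdifferentiableAt (by simp))
      (((h.W b).sz.sm i y).mdifferentiableAt (by simp))).trans
      (congrArg _ (congrArg _ (dv_clm hsL ((sW i y b).mdifferentiableAt (by simp)))))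
  refine ((((((h1 s.1 s.2).sub hl (h1 s.2 s.1)).add ((h3 s.1 s.2).sub hl (h3 s.2 s.1))).sub hl
    (A0.fsum Finset.univ fun k _ => (h.o.F.c s.1 s.2 k).smul hl (p' k))).app hl h.o.pg).congr
      fun i y x => ?_)
  refine (map_smul _ _ _).symm.trans (congrArg _ ?_)
  simp only [Wz78.curv, ContinuousLinearMap.flip_apply, ContinuousLinearMap.lsmul_apply, h5,
    add_sub_cancel_left, mlL_apply, map_sub, map_add, map_sum, map_smul, smul_sub, smul_add,
    Finset.smul_sum, smul_comm (φ i y x)]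

variable [Finite J] [Nonempty J]

theorem sw {w : SW M} (hw : SwIn I Ω w) : D.A0 True j (κ.sw w) :=
  h.wdV h.o.Φ (swU fun _ => hw.ok _)

theorem tf {f : M → ℝ} (hf : Tf I Ω f) : D.A0 True j fun _ _ => f :=
  A0.of_cs h.o.h4 (fun _ => hf.sm) fun _ => hf.hcs

theorem dd {g g' : M → ℝ} (hg : Tf I Ω g) (hg' : Tf I Ω g') (s : ι × ι) :
    D.A0 False j fun i y x => (κ.F i y).D s.1 g x * (κ.F i y).D s.2 g' x :=
  h.o.dd (cdU fun _ => hg.cd _) (cdU fun _ => hg'.cd _) h.o.h4 s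

theorem aw {ξ : AW M} (hξ : AwIn I Ω ξ) : D.A0 True j (κ.aw ξ) := by
  refine h.wdA ?_ (laU fun _ => hξ.2.ok _)
  obtain ⟨s, L⟩ := ξ
  cases s with
  | q u v => exact (h.o.q (h.sw hξ.1.1) (h.sw hξ.1.2)).imp Or.inl
  | cv f g g' =>
    have := h.h7
    obtain ⟨l, rfl⟩ : ∃ l, j = l + 2 := ⟨j - 2, by omega⟩
    have hl : 4 ≤ l := by omega
    refine h.resA hl (by omega) ((h.resA hl (by omega) (A0.fsum Finset.univ fun s _ => ?_)).lower
      hl (by omega))
    exact (h.Fg ((A0.smul h.o.lev h.o.h4 (h.tf hξ.1.1) (h.dd hξ.1.2.1 hξ.1.2.2 s)).imp Or.inl) hl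
      (by omega) s).congr fun i y x => by rw [mul_assoc, smul_eq_mul]

theorem js {s : M → Eu lam} (hs : Sm I s) (hc : HasCompactSupport s) {u : SW M} (hu : SwIn I Ω u) :
    D.A0 True j (κ.js s u) :=
  ((((A0.of_cs (ε := True) h.o.h4 (fun _ => hs) fun _ => hc).app h.o.h4
    ((UB.const hsL).comp h.o.j)).bil opL h.o.lev h.o.h4 (h.sw hu)).imp Or.inl).congr
      fun i y x => by rw [ContinuousLinearMap.comp_apply, opL_hsL]; rfl

theorem sg {g : Sg M lam} (hg : SgIn I Ω g) : D.Sc fun i y => (κ.c i y).sg (κ.F i y) g := by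
  obtain ⟨g1, g2, ⟨K, hK⟩, -⟩ := sgU (D := D) fun _ => hg.ok _
  obtain ⟨ρ, r1, r2⟩ := h.o.F.dens
  obtain ⟨C, hC⟩ := (UB.const hsL).comp h.o.j
  refine (((h.sw hg.2.2).bil rkL h.o.lev h.o.h4 (h.sw hg.2.1)).integral_us (hmL μ.Jc) h.o.h4 r1
    (σ := fun i x => hsL.comp (μ.j i x) (g.s x))
    (fun i => (hC i).1.continuous.clm_apply g1) (fun i => g2.mono fun x hx h0 => hx (by simp [h0]))
    ⟨|C 0| * K, fun i => ?_⟩).congr fun i y => ?_
  · refine (integral_mono_of_nonneg (.of_forall fun _ => norm_nonneg _)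
      ((g1.norm.integrable_of_hasCompactSupport g2.norm).const_mul |C 0|) (.of_forall fun x =>
        ContinuousLinearMap.le_of_opNorm_le _ (CB_bound (CB_abs ((hC i).2 0)) x) _)).trans ?_
    rw [integral_const_mul]
    exact mul_le_mul_of_nonneg_left (hK i) (abs_nonneg _)
  · refine (r2 i y _).trans (integral_congr_ae (.of_forall fun x => ?_))
    simp only [ContinuousLinearMap.comp_apply, hmL_apply]
    rfl

theorem co {d : Co M lam r} (hd : CoIn I Ω d) : D.Sc fun i y => (κ.c i y).co (κ.F i y) d := by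
  cases d with
  | z k => exact h.o.co (d := .z k) trivial
  | s g L =>
    have sq : ∀ {g : Sg M lam}, SgIn I Ω g → D.Sc fun i y => ‖(κ.c i y).sg (κ.F i y) g‖ ^ 2 :=
      fun hg => (h.sg hg).comp (contDiff_norm_sq ℝ)
    refine ((((sq hd.1).add (Sc.lsum L fun g' hg' => sq (hd.2 g' hg'))).comp contDiff_isq).bil
      (ContinuousLinearMap.lsmul ℝ ℝ) (h.sg hd.1)).congr fun i y => ?_
    rw [isq_eq (add_nonneg (sq_nonneg _) (List.sum_nonneg fun a ha => by
      obtain ⟨_, -, rfl⟩ := List.mem_map.1 ha; exact sq_nonneg _))]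
    simp only [Cfg.co, ContinuousLinearMap.lsmul_apply, Complex.real_smul, Complex.ofReal_inv,
      add_assoc]
    exact div_eq_inv_mul _ _

theorem qj {d : Co M lam r} {s : M → Eu lam} {u v : SW M} {L : List (An.La M)} (hd : CoIn I Ω d)
    (hs : Tv I Ω s) (hu : SwIn I Ω u) (hv : SwIn I Ω v) (hL : LlIn I Ω L) :
    D.A0 True j (V := μ.A) fun i y =>
      wd ((κ.c i y).la (κ.F i y)) ((κ.c i y).qj (κ.F i y) d s u v) L :=
  h.wdA ((h.o.q (h.o.cs (ε' := True) (h.co hd) (h.js hs.sm hs.hcs hu)) (h.sw hv)).imp Or.inl)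
    (laU fun _ => hL.ok _)

variable {B : J → Base M ι lam} {T : Tm M lam r n} (hT : TmIn I Ω T)
include hT

theorem tD (hB : UB D.P (μ.pm B)) :
    D.A0 True j (V := μ.V) fun i y => (κ.c i y).tD (B i) (κ.F i y) T := by
  cases T with
  | lin u => exact (h.sw hT.1).app h.o.h4 hB
  | anti d s u =>
    exact (h.o.cs (h.co hT.1) (h.js hT.2.1.sm hT.2.1.hcs hT.2.2)).app h.o.h4 hB
  | _ => exact A0.zero

theorem tC (hB : UB D.P (μ.p2 B)) :
    D.A0 True j (V := Fm (ι × ι) μ.A) fun i y => (κ.c i y).tC (B i) (κ.F i y) T := by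
  cases T with
  | ad g g' ξ =>
    exact (A0.toLp h.o.h4 fun s => (A0.smul h.o.lev h.o.h4 (h.dd hT.1 hT.2.1 s)
      (h.aw hT.2.2)).imp Or.inr).app h.o.h4 hB
  | adj d s g g' u v l =>
    obtain ⟨t1, t2, t3, t4, t5, t6, t7⟩ := hT
    exact (A0.toLp h.o.h4 fun s => (A0.smul h.o.lev h.o.h4 (h.dd t3 t4 s)
      (h.qj t1 t2 t5 t6 t7)).imp Or.inr).app h.o.h4 hB
  | adn f g g' φ L =>
    obtain ⟨t1, t2, t3, t4, -, t5⟩ := hT
    have h0 : D.A0 True j (κ.aws L) := A0.lsum L fun ξ hξ => h.aw (t5 ξ hξ)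
    have h1 := ((h0.bil (innerSL ℝ) h.o.lev h.o.h4 h0).congr
      (w' := fun i y x => ‖κ.aws L i y x‖ ^ 2) fun i y x =>
        (real_inner_self_eq_norm_sq _).symm).comp h.o.hj t4
    refine ((A0.toLp h.o.h4 fun s => (A0.smul h.o.lev h.o.h4 (A0.smul h.o.lev h.o.h4 (h.dd t2 t3 s) h1)
      (A0.smul h.o.lev h.o.h4 (h.tf t1) h0)).imp fun e => .inr (.inl e)).app h.o.h4 hB).congr
        fun i y x => ?_
    simp only [Cfg.tC, smul_smul, smul_eq_mul]
    congr 2
    funext s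
    congr 1
    simp only [CF.aws]
    ring
  | _ => exact A0.zero

theorem tS : D.Sc fun i y => (κ.c i y).tS (κ.F i y) T := by
  cases T with
  | cut k w g =>
    exact ((h.sg hT).clm (ContinuousLinearMap.mul ℝ ℂ w)).clm
      (ContinuousLinearMap.single ℝ (fun _ => ℂ) k)
  | cz k w k' => exact h.o.tS (T := .cz k w k') trivial
  | _ => exact Sc.const 0

end OKp

end CF

end gen

variable {T : Type} [NormedAddCommGroup T] [NormedSpace ℝ T] {𝔉 : Fam I M ι lam T} {o : Ref 𝔉}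
  {r n m k : ℕ} {Ω : Set M}

theorem Hy.cfP (H : Hy o) (h0 : o.Φ0 = 0) (hk7 : 7 ≤ k) {hk : 3 ≤ k} (y₀ : Pnt o r) :
    (cf H.ok hk y₀).OKp (k + 1) := by
  have hF := H.ff (hk := hk) y₀
  obtain ⟨χ, c1, c2, l1, -⟩ := H.loc
  have h4 : 4 ≤ k + 1 := by omega
  have ub : ∀ {N : Type} [NormedAddCommGroup N] [NormedSpace ℝ N] {f : M → N}, 𝔉.F0.Cb f →
      UB (dm H.ok hk y₀).P fun _ => f := fun hf => ub_of_finite fun _ => hf
  have w : ∀ a, SB 𝔉.F0.toPre 𝔉.Q fun t => 𝔉.W0 o.m (o.A t) t a := fun a =>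
    ((SB.sum fun b => (H.ok.sS a b).smul ((o.sbA b).mono (subset_univ _))).add
      (SB.sum fun b => SB.sum fun c => (H.ok.scf a b c).smul
        ((SB.fixed (o.cρ b)).mul (SB.fixed (o.cρ c))))).add
      ((H.ok.sla a).smul ((SB.fixed (Cb_const o.m.J)).mul (SB.fixed o.cp)))
  refine ⟨⟨by omega, hF, rb_of_finite (fun _ => finite_singleton _) fun _ v hv => H.bV _ hv,
    rb_of_finite (fun _ => finite_singleton _) fun _ v hv => H.bA _ hv,
    re_of_finite hF fun _ y => H.eV _ y.ht, re_of_finite hF fun _ y => H.eA _ y.ht,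
    fun a => A0.zero.congr fun _ _ _ => map_zero _, fun _ _ _ _ _ _ => by simp,
    a0_φ.congr fun _ y x => by simp [cf, h0],
    ⟨fun _ v => v.2.2.1, uc_dm (f := fun v => v.2.2.1) (by fun_prop), fun _ _ => rfl⟩,
    fun a => ub (o.cρ a), ub o.cj, ub ((dat_ref H.ok o).pg H.ok.B (Std94.pmx o.ok))⟩,
    fun a => ⟨_, us_dm ((w a).clm hsL), (A0.fsum Finset.univ fun b _ =>
      (lc_dm (H.ok.sS a b) c1 c2 (l1 a b)).smul h4
        (a0_α.clm h4 (PiLp.proj 2 (fun _ : ι => o.m.A) b))).congr fun _ y x => ?_⟩,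
    fun _ y => skw_W H.ok y⟩
  simp only [cf, Ref.W, Md.addC, map_add, Wz78.hsL_opL, Wz78.idx_apply]
  exact add_sub_cancel_left _ _

/-- **Terms with test data**, moving base connections -/
theorem Hy.la_tmp (H : Hy o) (h0 : o.Φ0 = 0) {ε : Prop} {w : Tm M lam r n} (hw : TmIn I Ω w) :
    La H.ok ε (vl (o := o) (tmX 𝔉 m w)) := fun _ _ => .of_forall fun _ hQ _ hk h7 y₀ =>
  have c := (H.res hQ).cfP h0 h7 (hk := hk) y₀
  ⟨(c.tD (B := fun _ => 𝔉.B) hw (ub_pm _)).imp fun _ => trivial,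
    (c.tC (B := fun _ => 𝔉.B) hw (ub_p2 _)).imp fun _ => trivial,
    ((c.tS hw).clm (ContinuousLinearMap.inl ℝ _ (Fin m → ℝ))).congr fun _ _ => rfl⟩

theorem Hy.sm_tmp (H : Hy o) (h0 : o.Φ0 = 0) {w : Tm M lam r n} (hw : TmIn I Ω w) {c : T → ℝ}
    (hc : ContDiffOn ℝ ∞ c 𝔉.Q) : o.Sm fun t => c t • tmX 𝔉 m w t :=
  La.sm (h := H.ok) ((H.la_tmp h0 hw).par hc) ((pj_tm H.ok w).par c)

open Map77 in
/-- the unperturbed equations, if the base configurations solve them off a compact set -/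
theorem aff_cs {Fs : T → Fr I M ι} (h : Adj 𝔉 Fs) {K : Set M} (hK : IsCompact K)
    (hz : ∀ y : Pnt o r, ∀ x ∉ K, eD n m (bs y) x = 0 ∧ eC n m (bs y) x = 0) :
    Aff o Fs r n m (𝔉.eq0 r n m) := by
  obtain ⟨χ, c1, c2⟩ := Wrd81.exists_tf_one (I := I) hK isOpen_univ (subset_univ _)
  classical
  have S := sup0 h.toOK
  have e0 : ∀ t ∈ 𝔉.Q, ∀ x ∉ K, (bd o).pE x ((bd o).N (Fs t) (u0 o t) x) = 0 := fun t ht x hx => by
    let y : Pnt o r := ⟨0, 0, 0, t, zero_mem _, zero_mem _, ht⟩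
    have a := (h.f2_N (bs y) x).trans (hz y x hx).1
    have b := (h.s2_N (bs y) x).trans (hz y x hx).2
    rw [uy_bs] at a b
    exact ext2 (((f2_ps _ _).trans a).trans (map_zero _).symm)
      (((s2_ps _ _).trans b).trans (map_zero _).symm)
  let s : T → Sec I (bd o).pE := fun t => if ht : t ∈ 𝔉.Q then
    ⟨fun x => (bd o).pE x ((bd o).N (Fs t) (u0 o t) x), (h.sb_N.cb t ht).choose_spec.1,
      .intro hK (e0 t ht), fun x => (ok_bd o h.toOK).prjE.idem x _⟩ else 0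
  have es : ∀ t ∈ 𝔉.Q, (s t).1 = fun x => (bd o).pE x ((bd o).N (Fs t) (u0 o t) x) :=
    fun t ht => by simp only [s, dif_pos ht]
  refine fun j hj => ⟨fun v => jY o n m (j + 1) (𝔉.F0.toH _ _ (s v.2.2.2)),
    (jY o n m _).contDiff.comp_contDiffOn ((SB.toH (h.sb_N.congr es)
      (Cb_ps (Map77.cb_Pm o h.toOK) (Map77.cb_P2 o h.toOK)) (ok_bd o h.toOK).prjE.idem c1.sm c1.hcs
      fun t ht x => ?_).comp (tC o r j).contDiff.contDiffOn fun _ hv => hv), fun y => ?_⟩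
  · by_cases hx : x ∈ K
    · rw [c2 x hx, one_smul]
    · rw [es t ht]
      beta_reduce
      rw [e0 t ht x hx, smul_zero]
  have e : ∀ x, 𝔉.F0.val _ _ ((bd o).NH 𝔉.F0.toPre (Fs y.t) j (u0 o y.t) (hC o r j (y.pt j)) +
      𝔉.F0.toH j _ (s y.t)) x = (bd o).pE x ((bd o).N (Fs y.t) (uy y) x) := fun x => by
    rw [val_add, Pi.add_apply, h.val_NH (by omega), val_toH S (by omega), es _ y.ht, sub_add_cancel]
  rw [incl_jY h.toOK j.le_succ, incl_toH j.le_succ, f0, ← map_add]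
  refine ⟨funext fun x => ?_, funext fun x => ?_, rfl, rfl⟩
  · refine (val_mulH S (by omega) (Cb_const _) maps_f2 _ x).trans ?_
    exact (congrArg _ (e x)).trans ((f2_ps _ _).trans (h.f2_N y x))
  · refine (val_mulH S (by omega) (Cb_const _) maps_s2 _ x).trans ?_
    exact (congrArg _ (e x)).trans ((s2_ps _ _).trans (h.s2_N y x))

end Crest.Agent.X212.Mon62
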