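import Crest.Agent.X212.Mon62.RE

/-! # Row 212: existence of the resolvent for all smooth connections and bounded data -/

set_option autoImplicit false
set_option linter.unusedSectionVars false
noncomputable section
open scoped Manifold ContDiff Topology InnerProductSpace
open MeasureTheory Set Function Filter

namespace Crest.Agent.X212.Mon62
open An Sob92 Prm93 Wz78
open Ell97 (UB)

variable {E : Type} [NormedAddCommGroup E] [NormedSpace ℝ E] [FiniteDimensional ℝ E]
  [MeasurableSpace E] [BorelSpace E]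
  {HM : Type} [TopologicalSpace HM] {I : ModelWithCorners ℝ E HM} [I.Boundaryless]
  {M : Type} [TopologicalSpace M] [ChartedSpace HM M] [IsManifold I ∞ M]
  [MeasurableSpace M] [T2Space M] [BorelSpace M] [SecondCountableTopology M] {ι : Type} [Fintype ι]
  {N : Type} [NormedAddCommGroup N] [NormedSpace ℝ N]
  {V : Type} [NormedAddCommGroup V] [InnerProductSpace ℝ V]

theorem dv_sc (P : Pre I M ι) (ρ : M → ℝ) (a : ι) (u : M → N) :
    dv I (fun x => ρ x • P.e a x) u = fun x => ρ x • P.D a u x := funext fun x => by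
  simp only [Pre.D_def, dv, map_smul]
  rfl

/-- the rescaled frame `ρ e` with the same measure -/
def cfr (F : Fr I M ι) (ρ : M → ℝ) (hρ : Sm I ρ) (h0 : ∀ x, ρ x ≠ 0) : Fr I M ι where
  e a x := ρ x • F.e a x
  μ := F.μ
  sm a := hρ.smul_section (F.sm a)
  span x := by
    rw [eq_top_iff, ← F.span x, Submodule.span_le]
    rintro _ ⟨a, rfl⟩
    have := Submodule.smul_mem (Submodule.span ℝ (range fun a => ρ x • F.e a x)) (ρ x)⁻¹
      (Submodule.subset_span ⟨a, rfl⟩)
    rwa [inv_smul_smul₀ (h0 x)] at this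
  fin := F.fin
  dens := F.dens
  P := F.P
  c a b l x := ρ x * F.c a b l x + F.D a ρ x * F.P b l x - F.D b ρ x * F.P a l x
  dv a x := ρ x * F.dv a x + F.D a ρ x
  P_sm := F.P_sm
  c_sm a b l := ((hρ.mul (F.c_sm a b l)).add ((F.sm_D hρ a).mul (F.P_sm b l))).sub
    ((F.sm_D hρ b).mul (F.P_sm a l))
  dv_sm a := (hρ.mul (F.dv_sm a)).add (F.sm_D hρ a)
  P_symm := F.P_symm
  P_e a x := by simp only [smul_comm _ (ρ x), ← Finset.smul_sum, F.P_e]
  P_ker x ξ h := F.P_ker x ξ (by
    simp only [smul_comm _ (ρ x), ← Finset.smul_sum] at h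
    exact (smul_eq_zero.1 h).resolve_left (h0 x))
  c_P a b l x := by
    have h : ∀ b, ∑ m, F.P l m x * F.P b m x = F.P b l x := fun b => by
      rw [F.P_symm b l x, ← (frPr F x).idem l b]
      exact Finset.sum_congr rfl fun m _ => by rw [F.P_symm b m x]
    simp only [mul_sub, mul_add, Finset.sum_sub_distrib, Finset.sum_add_distrib,
      fun m r s => mul_left_comm (F.P l m x) r s, ← Finset.mul_sum, F.c_P, h]
  br a b f x hf := by
    have h1 := fun a => Ell97.sum_P_D F a f x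
    have h2 := F.br a b f x hf
    have h3 : ∀ a b, F.D a (fun y => ρ y • F.D b f y) x =
        F.D a ρ x • F.D b f x + ρ x • F.D a (F.D b f) x := fun a b =>
      Mp86.dv_smul (hρ.mdifferentiableAt (by simp)) (Mp86.md_dv hf (Mp86.vf _ x b))
    simp only [Pre.D_def, dv_sc]
    simp only [← Pre.D_def]
    rw [h3, h3, ← h1 a, ← h1 b]
    simp only [smul_eq_mul, add_mul, sub_mul, Finset.sum_sub_distrib, Finset.sum_add_distrib,
      mul_assoc, fun l => mul_left_comm (F.c a b l x) (ρ x), fun c l => mul_left_comm (F.P c l x) (ρ x),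
      ← Finset.mul_sum, ← h2]
    ring
  ibp a f hf hc := by
    have h1 := F.ibp a (fun x => ρ x * f x) (hρ.mul hf) hc.mul_left
    have h2 : F.D a (fun x => ρ x * f x) = fun x => F.D a ρ x * f x + ρ x * F.D a f x :=
      funext fun x => Mp86.dv_mul (hρ.mdifferentiableAt (by simp)) (hf.mdifferentiableAt (by simp))
    have i1 : Integrable (fun x => F.D a ρ x * f x) F.μ :=
      ((F.sm_D hρ a).continuous.mul hf.continuous).integrable_of_hasCompactSupport hc.mul_left
    have i2 : Integrable (fun x => ρ x * F.D a f x) F.μ :=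
      (hρ.continuous.mul (F.sm_D hf a).continuous).integrable_of_hasCompactSupport
        (F.hcs_D hc a).mul_left
    have i3 : Integrable (fun x => F.dv a x * (ρ x * f x)) F.μ :=
      ((F.dv_sm a).continuous.mul (hρ.continuous.mul hf.continuous)).integrable_of_hasCompactSupport
        hc.mul_left.mul_left
    rw [h2, integral_add i1 i2] at h1
    have h3 : (fun x => (ρ x * F.dv a x + F.D a ρ x) * f x) =
      fun x => F.dv a x * (ρ x * f x) + F.D a ρ x * f x := funext fun x => by ring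
    change ∫ x, dv I (fun x => ρ x • F.e a x) f x ∂F.μ = _
    rw [dv_sc, h3, integral_add i3 i1]
    simp only [smul_eq_mul]
    linarith

section cfr
variable {F : Fr I M ι} {ρ : M → ℝ} {hρ : Sm I ρ} {h0 : ∀ x, ρ x ≠ 0} {C : ℕ → ℝ}

theorem cfr_D (a : ι) (u : M → N) : (cfr F ρ hρ h0).D a u = fun x => ρ x • F.D a u x :=
  dv_sc F.toPre ρ a u

open Classical in
theorem cfr_mix : Mix F.toPre (cfr F ρ hρ h0).toPre fun a b x => (if a = b then 1 else 0) * ρ x :=
  fun a x => by simp [cfr]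

theorem cfr_nab (A : ι → M → V →L[ℝ] V) (a : ι) (u : M → V) :
    nab I (cfr F ρ hρ h0).e (fun a x => ρ x • A a x) a u = fun x => ρ x • nab I F.e A a u x :=
  funext fun x => by
    rw [nab, nab, smul_add]
    exact congrArg (· + _) (congrFun (cfr_D a u) x)

theorem cfr_lap {A : ι → M → V →L[ℝ] V} (hA : ∀ a, Sm I (A a)) {u : M → V} (hu : Sm I u) (x : M) :
    lap I (cfr F ρ hρ h0).e (cfr F ρ hρ h0).dv (fun a x => ρ x • A a x) u x =
      ρ x • ρ x • lap I F.e F.dv A u x - ∑ a, (2 * F.D a ρ x) •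
        nab I (cfr F ρ hρ h0).e (fun a x => ρ x • A a x) a u x := by
  simp only [lap, cfr_nab, smul_neg, Finset.smul_sum, ← neg_add', ← Finset.sum_add_distrib]
  refine congrArg _ (Finset.sum_congr rfl fun a _ => ?_)
  have h : dv I (F.e a) (fun y => ρ y • nab I F.e A a u y) x =
      F.D a ρ x • nab I F.e A a u x + ρ x • dv I (F.e a) (nab I F.e A a u) x :=
    Mp86.dv_smul (hρ.mdifferentiableAt (by simp)) ((sm_nab hA a hu).mdifferentiableAt (by simp))
  rw [nab, h, map_smul, show nab I F.e A a (nab I F.e A a u) x =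
    dv I (F.e a) (nab I F.e A a u) x + A a x (nab I F.e A a u x) from rfl]
  change _ + (ρ x * F.dv a x + F.D a ρ x) • _ = _
  module

theorem bumps_mix {F' : Fr I M ι} {S : ι → ι → M → ℝ} (hF : F.Tame C) (h : Mix F.toPre F'.toPre S)
    (hS : ∀ a b, F.Cb (S a b)) (hd : ∀ a, F'.Cb (F'.dv a)) : Mp86.Bumps I F'.e F'.dv := by
  choose χ c1 c2 c3 c4 using fun x : M => hF.exh {x} isCompact_singleton
  have h1 : UB (fun _ => F'.toPre) χ := ub_mix (fun _ => h)
    (fun a b => let ⟨D, h⟩ := hS a b; ⟨D, fun _ => h⟩) ⟨C, c1⟩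
  obtain ⟨D, hD⟩ := UB.sum fun a => ((h1.D a).D a).add
    (UB.smul (let ⟨D, h⟩ := hd a; ⟨D, fun _ => h⟩) (h1.D a))
  exact ⟨D 0, fun x => ⟨χ x, Mp86.cm2 (c1 x).1, c2 x, fun y => (c3 x y).2, c4 x x rfl,
    fun y => (abs_le.1 (CB_bound ((hD x).2 0) y)).1⟩⟩

end cfr

theorem exists_eps {F : Pre I M ι} {f : ℕ → M → N} (h : ∀ n, F.Cb (f n)) : ∃ ε : ℕ → ℝ,
    (∀ n, 0 < ε n ∧ ε n ≤ 1) ∧ UB (fun _ => F) fun n x => ε n • f n x := by
  choose C hC using h
  let B := fun n => 1 + ∑ k ∈ Finset.range (n + 1), |C n k|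
  have hB : ∀ n, 1 ≤ B n := fun n =>
    le_add_of_nonneg_right (Finset.sum_nonneg fun _ _ => abs_nonneg _)
  have h0 : ∀ n, 0 < (B n)⁻¹ := fun n => inv_pos.2 (zero_lt_one.trans_le (hB n))
  have h1 : ∀ n, (B n)⁻¹ ≤ 1 := fun n => inv_le_one_of_one_le₀ (hB n)
  refine ⟨fun n => (B n)⁻¹, fun n => ⟨h0 n, h1 n⟩, fun k => 1 + ∑ n ∈ Finset.range k, |C n k|,
    fun n => ⟨(contMDiff_const (I' := 𝓘(ℝ, ℝ))).smul (hC n).1, fun k => CB_mono (CB_clm
      ((B n)⁻¹ • ContinuousLinearMap.id ℝ N) (hC n).1 (CB_abs ((hC n).2 k))) ?_⟩⟩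
  have h2 : ‖(B n)⁻¹ • ContinuousLinearMap.id ℝ N‖ ≤ (B n)⁻¹ := by
    rw [norm_smul, Real.norm_of_nonneg (h0 n).le]
    exact mul_le_of_le_one_right (h0 n).le ContinuousLinearMap.norm_id_le
  refine (mul_le_mul_of_nonneg_right h2 (abs_nonneg _)).trans ?_
  rcases lt_or_ge n k with h | h
  · exact (mul_le_of_le_one_left (abs_nonneg _) (h1 n)).trans ((Finset.single_le_sum
      (f := fun n => |C n k|) (fun _ _ => abs_nonneg _) (Finset.mem_range.2 h)).trans
      (le_add_of_nonneg_left zero_le_one))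
  · refine le_trans ?_ (le_add_of_nonneg_right (Finset.sum_nonneg fun _ _ => abs_nonneg _))
    rw [inv_mul_le_iff₀ (zero_lt_one.trans_le (hB n)), mul_one]
    exact (Finset.single_le_sum (f := fun k => |C n k|) (fun _ _ => abs_nonneg _)
      (Finset.mem_range.2 (by omega))).trans (le_add_of_nonneg_left zero_le_one)

theorem od_lap {J : Type*} {F : J → Fr I M ι} {A : J → ι → M → V →L[ℝ] V} {u : J → M → V}
    (hd : ∀ a, UB (fun j => (F j).toPre) fun j => (F j).dv a)
    (hA : ∀ a, UB (fun j => (F j).toPre) fun j => A j a) (su : ∀ j, Sm I (u j))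
    (h : Od (fun j => (F j).toPre) u 1 fun j => lap I (F j).e (F j).dv (A j) (u j)) :
    Od (fun j => (F j).toPre) u 1 (LF F u) := by
  have h0 : Od (fun j => (F j).toPre) u 0 u := Od.wd []
  have h1 := fun a => h0.app (hA a)
  refine (h.neg.sub (Od.sum Finset.univ fun a =>
    (((h1 a).D su a).add (((h0.D su a).add ((h1 a).mono zero_le_one)).app (hA a))).add
      (((h1 a).mono zero_le_one).smul (hd a)))).congr fun j x => ?_
  rw [lap, neg_neg, LF, Mp86.Lop, ← Finset.sum_sub_distrib]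
  refine Finset.sum_congr rfl fun a _ => ?_
  have e : dv I ((F j).e a) (nab I (F j).e (A j) a (u j)) x =
      (F j).D a ((F j).D a (u j)) x + (F j).D a (fun y => A j a y (u j y)) x :=
    congrFun ((F j).D_add ((F j).sm_D (su j) a) (((hA a).sm j).clm_apply (su j)) a) x
  rw [nab, e]
  simp only [nab, smul_add, Pre.D_def]
  abel

variable {F : Fr I M ι} {C : ℕ → ℝ}

/-- **Interior estimates of all orders** from a sup bound. -/
theorem mb_res (hF : F.Tame C) {A : ℕ → ι → M → V →L[ℝ] V} {s u : ℕ → M → V}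
    (hA : ∀ n a, F.Cb (A n a)) (hs : ∀ n, F.Cb (s n)) (h : ∀ n, F.IsRes (A n) (s n) (u n))
    (hu : ∀ n, F.Cb (u n)) {R : ℝ} (hR : ∀ n x, ‖u n x‖ ≤ R)
    (lA : ∀ ψ : M → ℝ, F.Cb ψ → HasCompactSupport ψ → ∀ a,
      UB (fun _ => F.toPre) fun n x => ψ x • A n a x)
    (ls : ∀ ψ : M → ℝ, F.Cb ψ → HasCompactSupport ψ → UB (fun _ => F.toPre) fun n x => ψ x • s n x)
    (l : Filter ℕ) (k : ℕ) (x : M) : Cmp73.MB I l x k u := by
  classical
  have := lcs (I := I) (M := M)
  obtain ⟨K, hK, hx⟩ := exists_compact_mem_nhds x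
  obtain ⟨ψ, p1, p2, p3, p4⟩ := hF.exh K hK
  let p : ι → (ι → V →L[ℝ] V) × V →L[ℝ] V →L[ℝ] V := fun a =>
    ContinuousLinearMap.proj a ∘L ContinuousLinearMap.fst ℝ _ _
  obtain ⟨ε, e1, e2⟩ := exists_eps (F := F.toPre) (f := fun n x =>
      ∑ a, (ContinuousLinearMap.inl ℝ _ V ∘L ContinuousLinearMap.single ℝ (fun _ => V →L[ℝ] V) a)
        (A n a x) + ContinuousLinearMap.inr ℝ _ V (s n x))
    fun n => Cb_add (Cb_sum _ fun a _ => Cb_clm _ (hA n a)) (Cb_clm _ (hs n))
  have fx : ∀ {N : Type} [NormedAddCommGroup N] [NormedSpace ℝ N] {f : M → N}, F.Cb f →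
      UB (fun _ : ℕ => F.toPre) fun _ => f := fun ⟨D, hD⟩ => ⟨D, fun _ => hD⟩
  let ρ : ℕ → M → ℝ := fun n x => ψ x + ε n
  have r1 : UB (fun _ => F.toPre) ρ := (fx ⟨C, p1⟩).add (Dm.ub_const
    ⟨1, fun n => by rw [Real.norm_of_nonneg (e1 n).1.le]; exact (e1 n).2⟩)
  have r0 : ∀ n x, ρ n x ≠ 0 := fun n x => (add_pos_of_nonneg_of_pos (p3 x).1 (e1 n).1).ne'
  let G : ℕ → Fr I M ι := fun n => cfr F (ρ n) (r1.sm n) (r0 n)
  have hS := fun a b : ι => (UB.const (F := fun _ : ℕ => F.toPre)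
    (if a = b then (1 : ℝ) else 0)).smul r1
  have up : ∀ {N : Type} [NormedAddCommGroup N] [NormedSpace ℝ N] {f : ℕ → M → N},
      UB (fun _ => F.toPre) f → UB (fun n => (G n).toPre) f := ub_mix (fun _ => cfr_mix) hS
  have a1 : ∀ a, UB (fun _ => F.toPre) fun n x => ρ n x • A n a x := fun a => by
    convert (lA ψ ⟨C, p1⟩ p2 a).add (e2.clm (p a)) using 3 with n x
    simp [ρ, p, add_smul, Prod.fst_sum, Finset.sum_apply, Pi.single_apply]
  have s1 : UB (fun _ => F.toPre) fun n x => ρ n x • s n x := by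
    convert (ls ψ ⟨C, p1⟩ p2).add (e2.clm (ContinuousLinearMap.snd ℝ _ _)) using 3 with n x
    simp [ρ, add_smul, Prod.snd_sum]
  have hd : ∀ a, UB (fun n => (G n).toPre) fun n => (G n).dv a := fun a =>
    up ((r1.smul (fx ⟨C, hF.dv a⟩)).add (r1.D a))
  have su := fun n => (h n).1
  have h0 : Od (fun n => (G n).toPre) u 0 u := Od.wd []
  have hU : UB (fun n => (G n).toPre) u := bern (F := G) (fun a b l => up (((r1.smul
      (fx ⟨C, hF.c a b l⟩)).add ((r1.D a).smul (fx ⟨C, hF.P b l⟩))).sub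
      ((r1.D b).smul (fx ⟨C, hF.P a l⟩)))) hd
    (fun n => bumps_mix hF cfr_mix (fun a b => (hS a b).cb n) fun a => (hd a).cb n)
    (fun n => cfr_mix.Cb (fun a b => (hS a b).cb n) (hu n)) hR
    (od_lap (A := fun n a x => ρ n x • A n a x) hd (fun a => up (a1 a)) su
      (((((Od.cst (up s1)).sub ((h0.mono zero_le_one).smul (up r1))).smul (up r1)).sub
        (Od.sum Finset.univ fun a => ((h0.D su a).add ((h0.app (up (a1 a))).mono
          zero_le_one)).smul (up ((UB.const (2 : ℝ)).smul (r1.D a))))).congr fun n y => by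
        rw [cfr_lap (fun a => Cb.sm (hA n a)) (su n), ← smul_sub, ← (h n).2.2 y,
          add_sub_cancel_left]
        rfl))
  have key : ∀ {f : ℕ → M → V}, UB (fun n => (G n).toPre) f → Cmp73.MB I l x k f := by
    have z : ∀ {f : ℕ → M → V}, UB (fun n => (G n).toPre) f → Cmp73.MB I l x 0 f := fun ⟨C, hC⟩ =>
      Cmp73.MB.zero_of (.of_forall fun q => (hC q.1).1 q.2)
        ⟨C 0, .of_forall fun q => CB_bound ((hC q.1).2 0) q.2⟩
    induction k with
    | zero => exact z
    | succ k ih =>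
      refine fun {f} hf => Cmp73.MB.gainP F.toPre (z hf) fun a =>
        ((Cmp73.MB.consts (c := fun n => (1 + ε n)⁻¹) ⟨1, .of_forall fun n => ?_⟩).smul
          (ih (hf.D a))).congr ?_
      · rw [Real.norm_of_nonneg (inv_nonneg.2 (by linarith [(e1 n).1]))]
        exact inv_le_one_of_one_le₀ (by linarith [(e1 n).1])
      · filter_upwards [prod_mem_prod univ_mem hx] with q hq
        rw [cfr_D]
        simp only [ρ, p4 _ hq.2]
        rw [inv_smul_smul₀ (by linarith [(e1 q.1).1])]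
  exact key hU

/-- **REx**: any smooth metric connection, any smooth bounded right hand side. -/
theorem exists_res_sm [FiniteDimensional ℝ V] (hF : F.Tame C) {A : ι → M → V →L[ℝ] V}
    (hA : ∀ a, Sm I (A a)) (hk : ∀ a x, Skew (A a x)) {s : M → V} (hs : Sm I s)
    (hb : ∃ c, ∀ x, ‖s x‖ ≤ c) : ∃ u, F.IsRes A s u := by
  obtain ⟨c, hc⟩ := hb
  have := lcs (I := I) (M := M)
  have := scs (I := I) (M := M)
  let K := CompactExhaustion.choice M
  choose χ c1 c2 c3 c4 using fun n => hF.exh (K n) (K.isCompact n)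
  have cb : ∀ {N : Type} [NormedAddCommGroup N] [NormedSpace ℝ N] {f : M → N} {ψ : M → ℝ},
      Sm I f → Sm I ψ → HasCompactSupport ψ → F.Cb fun x => ψ x • f x := fun h1 h2 h3 =>
    Cb_of_hcs (h2.smul h1) h3.smul_right
  have lc : ∀ {N : Type} [NormedAddCommGroup N] [NormedSpace ℝ N] {f : M → N}, Sm I f →
      ∀ ψ : M → ℝ, F.Cb ψ → HasCompactSupport ψ →
        UB (fun _ => F.toPre) fun n x => ψ x • χ n x • f x := fun h1 ψ h2 h3 => by
    obtain ⟨D, hD⟩ := cb h1 (Cb.sm h2) h3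
    simpa only [smul_comm (ψ _)] using UB.smul ⟨C, c1⟩ (⟨D, fun _ => hD⟩ : UB _ fun _ : ℕ => _)
  have sk : ∀ n a x, Skew (χ n x • A a x) := fun n a x v w => by
    simp only [smul_apply, real_inner_smul_left, real_inner_smul_right,
      hk a x v w, mul_neg]
  have aC := fun n a => cb (hA a) (c1 n).1 (c2 n)
  have sC := fun n => cb hs (c1 n).1 (c2 n)
  choose u u1 u2 using fun n => exists_res_cb hF (aC n) (sk n) (sC n)
  have ub : ∀ n x, ‖u n x‖ ≤ c := fun n => Mp86.isRes_norm_le (Mp86.bumps_of_tame F hF)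
    ⟨fun a => Cb.sm (aC n a), sk n⟩ (u1 n) fun x => by
      rw [norm_smul, Real.norm_of_nonneg (c3 n x).1]
      exact (mul_le_of_le_one_left (norm_nonneg _) (c3 n x).2).trans (hc x)
  obtain ⟨g, hg⟩ := Cmp73.MBOn.exists_cv (𝒰 := Ultrafilter.of (atTop : Filter ℕ)) (Ω := univ)
    fun k x _ => mb_res hF aC sC u1 u2 ub (fun ψ h1 h2 a => lc (hA a) ψ h1 h2) (lc hs) _ k x
  generalize hl : (Ultrafilter.of (atTop : Filter ℕ) : Filter ℕ) = l at hg
  have l1 : l ≤ atTop := hl ▸ Ultrafilter.of_le _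
  have : l.NeBot := hl ▸ inferInstance
  have cv : ∀ {N : Type} [NormedAddCommGroup N] [NormedSpace ℝ N] {f : M → N}, Sm I f →
      Cmp73.Cv I l univ (fun n x => χ n x • f x) f := fun hf =>
    (Cmp73.Cv.fixed' hf).congr (fun x _ => by
      obtain ⟨n, hn⟩ := K.exists_mem x
      filter_upwards [prod_mem_prod (l1 (eventually_ge_atTop (n + 1)))
        (mem_interior_iff_mem_nhds.1 (K.subset_interior_succ n hn))] with q hq
      rw [c4 _ _ (K.subset hq.1 hq.2), one_smul]) fun _ _ => rfl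
  have nb : ∀ (a : ι) {f : ℕ → M → V} {g : M → V}, Cmp73.Cv I l univ f g →
      Cmp73.Cv I l univ (fun n => nab I F.e (fun a x => χ n x • A a x) a (f n))
        (nab I F.e A a g) := fun a _ _ h => (h.D isOpen_univ F.toPre a).add ((cv (hA a)).app h)
  have h1 : Cmp73.Cv I l univ
      (fun n x => u n x + lap I F.e F.dv (fun a x => χ n x • A a x) (u n) x)
      fun x => g x + lap I F.e F.dv A g x :=
    hg.add (Cmp73.Cv.sum fun a => (nb a (nb a hg)).add
      ((Cmp73.Cv.fixed' (F.dv_sm a)).smul (nb a hg))).neg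
  exact ⟨g, fun x => hg.smoothAt isOpen_univ trivial, ⟨c, fun x => hg.mem_closed (x := x) trivial
    (C := {v | ‖v‖ ≤ c}) (isClosed_le continuous_norm continuous_const)
    (.of_forall fun n => ub n x)⟩, fun x => h1.eq_of (cv hs) trivial
      (.of_forall fun n => (u1 n).2.2 x)⟩

end Crest.Agent.X212.Mon62
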