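import Crest.Agent.X212.Mon62.Pq
import Crest.Agent.X212.Nd18.Ind

/-! # Row 212, NK-SM: neck terms on ends -/

set_option autoImplicit false
set_option linter.unusedSectionVars false
set_option maxSynthPendingDepth 3
noncomputable section
open scoped Manifold ContDiff Topology InnerProductSpace
open MeasureTheory Set Function Filter

namespace Crest.Agent.X212.Mon62
open An Sob92 Prm93 Wz78 Mod61 Dm Nd18
open Nk89 (End Ends Fs WtP pt0 famZ refZ endsZ T0 ab)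
open Map77 (Aff Adj)

section gen
variable {E : Type} [NormedAddCommGroup E] [NormedSpace ℝ E] [FiniteDimensional ℝ E]
  [MeasurableSpace E] [BorelSpace E]
  {HM : Type} [TopologicalSpace HM] {I : ModelWithCorners ℝ E HM} [I.Boundaryless]
  {M : Type} [TopologicalSpace M] [ChartedSpace HM M] [IsManifold I ∞ M]
  [MeasurableSpace M] [T2Space M] [BorelSpace M] [SecondCountableTopology M]
  {lam : Type} [Fintype lam] {T : Type} [NormedAddCommGroup T] [NormedSpace ℝ T]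

section dc
variable {ι : Type} [Fintype ι] {𝔉 : Fam I M ι lam T} {o : Ref 𝔉} {r n m : ℕ}
  {e τ : T → PtX M ι lam r n m} {y : Pnt o r}

theorem hs_of {V : Type} [NormedAddCommGroup V] [InnerProductSpace ℝ V] [CompleteSpace V]
    (h : 𝔉.OK) {p : M → V →L[ℝ] V} {u : M → V}
    (H : ∀ k, 7 ≤ k → ∃ a : 𝔉.F0.H (k + 1) p, 𝔉.F0.val _ p a = u) : u ∈ Hs 𝔉.F0.toPre p :=
  fun k hk => let ⟨a, e⟩ := H (k + 7) (by omega)
    ⟨_, (val_incl (Sup.of_tame h.tame.choose_spec) hk (by omega) a).trans e⟩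

/-- perturbations decay -/
theorem Dc.of_sm (h : 𝔉.OK) (hτ : o.Sm τ) (y : Pnt o r) : Dc τ y :=
  ⟨hs_of h fun k hk => let ⟨_, a⟩ := hτ k hk; ⟨_, (a.2 y).D⟩,
    hs_of h fun k hk => let ⟨_, a⟩ := hτ k hk; ⟨_, (a.2 y).C⟩⟩

/-- the equations decay at a solution of perturbed equations -/
theorem Dc.of_zr (h : 𝔉.OK) (hτ : o.Sm τ)
    (hD : ∀ x ∈ 𝔉.Om', ((e + τ) y.t).D y.cfg x = 0) (hC : ∀ x ∈ 𝔉.Om, ((e + τ) y.t).C y.cfg x = 0) :
    Dc e y := by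
  have k : ∀ {V : Type} [AddCommGroup V] {O : Set M} {f g : M → V}, (∀ x ∈ O, f x + g x = 0) →
      O.indicator f = -O.indicator g := fun {_ _ O _ _} a => funext fun x => by
    by_cases hx : x ∈ O
    · simpa only [Pi.neg_apply, indicator_of_mem hx] using eq_neg_of_add_eq_zero_left (a x hx)
    · simp only [Pi.neg_apply, indicator_of_notMem hx, neg_zero]
  exact ⟨k hD ▸ neg_mem (Dc.of_sm h hτ y).1, k hC ▸ neg_mem (Dc.of_sm h hτ y).2⟩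

theorem sm_neg (h : o.Sm τ) : o.Sm (-τ) := mem_SmS.1 (neg_mem (mem_SmS.2 h))

end dc

variable {κ : Type} [Fintype κ] {𝔉 : Fam I M (Option κ) lam T} {δ δ' R : ℝ} {ψ : M → ℝ}

/-- the neck of an end -/
theorem fx_end {P : End 𝔉} (h : P.OK ψ δ R) (w : WtP 𝔉.G0.F.toPre 𝔉.F0.toPre ψ) (h0 : 0 ≤ δ)
    (hδ : δ < δ') {b : ℝ} (hb : ∀ s ∈ P.K.J, b ≤ P.sg * s) {p : T → Prop}
    {K : ∀ t, p t → Nk P.D 𝔉.B (𝔉.G t)} {O : Set T} (act : ∀ t ∈ O, p t)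
    (same : ∀ t ∈ O, ∀ k, Same (K t k) P.K) : Fx K O ψ δ' :=
  let ⟨C, hC⟩ := end_slope h w.sm.continuous h0 hb
  ⟨act, w, P.K, δ, C, h0, hδ, same, hC⟩

end gen

/-! ### the cylinder -/

section cyl
variable {κ lam : Type} [Fintype κ] [Fintype lam] {Y : M.Mf 3} [CompactSpace Y.M]
  {D : YD Y.I Y.M κ lam} {N : ND Y.M lam} {δ δ' : ℝ} {O' : Set (Y.M × ℝ)} {β : YC Y.M κ lam}
  {T : Type} [NormedAddCommGroup T] [NormedSpace ℝ T]

theorem ab_sub (s t : ℝ) : ab s - ab t ≤ 1 + |s - t| := by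
  have k : ∀ s : ℝ, ab s ≤ |s| ∧ |s| - 1 ≤ ab s := fun s => by
    have h1 := fun s => Real.smoothTransition.le_one s
    have h2 := fun s (h : s ≤ 0) => Real.smoothTransition.zero_of_nonpos h
    refine ⟨?_, (le_total |s| 1).elim (fun e => by linarith [Nk89.ab_nonneg s]) fun e => ?_⟩
    · rcases le_total 0 s with e | e
      · rw [ab, h2 _ (neg_nonpos.2 e), abs_of_nonneg e]; nlinarith [h1 s]
      · rw [ab, h2 _ e, abs_of_nonpos e]; nlinarith [h1 (-s)]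
    · rcases le_total 0 s with a | a
      · rw [abs_of_nonneg a] at e ⊢
        linarith [Nk89.ab_eq (.inl rfl) (show 1 ≤ 1 * s by linarith)]
      · rw [abs_of_nonpos a] at e ⊢
        linarith [Nk89.ab_eq (.inr rfl) (show 1 ≤ -1 * s by linarith)]
  linarith [(k s).1, (k t).2, abs_sub_abs_le_abs_sub s t]

variable (T D δ O') in
/-- the cylinder as a constant family of necks -/
abbrev kZ (t : T) (_ : True) : Nk D (famZ T D δ O').B ((famZ T D δ O').G t) := D.nk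

theorem fx_Z (h0 : 0 ≤ δ) (hδ : δ < δ') {O : Set T} :
    Fx (kZ D δ O' T) O (fun x => δ * ab x.2) δ' :=
  ⟨fun _ _ => trivial, Nk89.wt_famZ.toWtP, D.nk, δ, δ, h0, hδ, fun _ _ _ => ⟨rfl, rfl, fun _ _ => rfl⟩,
    fun x _ z _ => by
      have := mul_le_mul_of_nonneg_left (ab_sub x.2 z.2) h0
      change δ * ab x.2 - δ * ab z.2 ≤ δ + δ * |x.2 - z.2|
      linarith⟩

theorem cfg_refZ (h : D.Adm β) (h0 : ∀ x ∉ O', β.Φ x.1 = 0) {t : T} (ht) :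
    (pt0 (refZ T δ h h0) 0 (t := t) ht).cfg = cy β := by
  have e : (refZ T δ h h0).W t 0 = fun a x => β.W a x.1 := funext fun a => funext fun x => by
    have : ∑ b, D.B.P a b x • β.W b x.1 = β.W a x.1 := h.adm.conn.cc.proj a x
    simpa [Ref.W, Ref.A, Md.addC, Mod61.Fam.W0, famZ, Nk89.wtF, Nk89.cst] using this
  show Cfg.mk _ ((refZ T δ h h0).W t 0) ((refZ T δ h h0).Φ0 + 0) 0 = _
  rw [e, add_zero, Subsingleton.elim (0 : EuclideanSpace ℂ (Fin 0)) β.z]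
  rfl

/-- **IX-CZ, the structure of the equations at a critical point** -/
theorem aff_Z (X : XD κ lam) (hX : X.OK) : ∃ δ₀ > 0, ∀ δ ∈ Ioo 0 δ₀, ∀ O' β (h : X.D.Adm β)
    (h0 : ∀ x ∉ O', β.Φ x.1 = 0), IsClopen O' → X.N.Crit X.D β →
    Aff (refZ T0 δ h h0) (Fs (famZ T0 X.D δ O')) 0 0 0 fun _ => eZ X.N X.D := by
  obtain ⟨d, d0, hd⟩ := Nk89.exists_sml
  refine ⟨min d (min (1 / 16) X.N.δ), lt_min d0 (lt_min (by norm_num) hX.nd.δ0),
    fun δ hδ O' β h h0 hO hc => ?_⟩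
  obtain ⟨h1, h2, h3⟩ : δ < d ∧ δ < 1 / 16 ∧ δ < X.N.δ := by simpa only [lt_min_iff] using hδ.2
  have := hX.con
  let Z := endsZ T0 hX.ok hδ.1 hO (hd δ ((abs_of_pos hδ.1).trans_le h1.le))
  have H := hy_ends (refZ T0 δ h h0) Z
  have a := H.aff1 (Map77.adj_rem H.ok) (La.vneg (τ := Q1 (r := 0) 0 0 (kZ X.D δ O' T0) X.N)
    fun t ht => (fx_Z hδ.1.le h3).la1 H univ_mem (Cys97.sm _ _ _ _) (wf_ends Z h2.le) hX.nd ht)
    (pj_Q1 _ H.ok).neg isPreconnected_univ (y₁ := pt0 _ 0 (t := 0) trivial) ?_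
  · convert a using 1
    funext t
    rw [Pi.add_apply, Pi.neg_apply, Q1, dq, dif_pos trivial, ← sub_eq_add_neg]
    rfl
  · refine Dc.of_zr (τ := 0) H.ok (mem_SmS.1 (zero_mem _)) (fun x _ => ?_) fun x _ => ?_
    all_goals
      rw [add_zero, Pi.add_apply, Pi.neg_apply, Q1, dq, dif_pos trivial, ← sub_eq_add_neg]
    · exact (cfg_refZ (T := T0) (δ := δ) (t := 0) h h0 trivial ▸ hc.sol).D x
    · exact (cfg_refZ (T := T0) (δ := δ) (t := 0) h h0 trivial ▸ hc.sol).C x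

end cyl

/-! ### jobs -/

open M Cht98

variable {Wi : Type} {X : Mf 4} {A κ lam : Type} [Fintype A] [Fintype κ] [Fintype lam]
  [DecidableEq lam] {M : Mark X A κ} {W : World M} {Ll : ML M lam} {Λ : Lns W Ll}
  {A' h : Type} [Fintype A'] [DecidableEq A'] [Fintype h] {r n m : ℕ} {J : Job Wi Λ A' h r n}
  {c : M.Cl} {σ : Cel A'} {T : Type} [NormedAddCommGroup T] [NormedSpace ℝ T]

theorem JL.rc {𝔉 : Mod61.Fam (W.Z c).I (W.Z c).M (Option κ) (lam ⊕ lam) T} {s : T → A' → ℝ}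
    (L : JL J σ 𝔉 s) {o : Ref 𝔉} [o.B0] (H : Hy o) {k : ℕ} (hk : 7 ≤ k)
    {κ' : Cut (W.Z c).M (lam ⊕ lam)} (hc : ∀ t ∈ 𝔉.Q, κ'.OK 𝔉.B (𝔉.G t).F) (i : h) (w : Wi) :
    ∃ f, RepC o k (tmC 𝔉 κ' ((J.tp c).tc (J.tc i w)) fun t => J.cc i w (s t)) f := by
  by_cases e : ∃ t ∈ 𝔉.Q, J.cc i w (s t) ≠ 0
  · obtain ⟨t, ht, e⟩ := e
    exact repC_tm H hk hc (L.ok.tc_in L.mem (L.ov t ht) e).choose_spec
      ((L.ok.cc i w).comp_contDiffOn L.sm)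
  · exact repC_zero fun t ht => by_contra fun k => e ⟨t, ht, k⟩

/-- a weight which is allowed for all neck terms -/
theorem exists_wt (hJ : J.OK) : ∃ δ₁ > 0, δ₁ ≤ 1 / 16 ∧ ∀ a, δ₁ < (J.xs a).N.δ := by
  obtain ⟨d, a, b⟩ := ((eventually_all.2 fun a => Ioo_mem_nhdsGT (hJ.xs a).2.δ0).and
    (Ioo_mem_nhdsGT (show (0 : ℝ) < 1 / 16 by norm_num))).exists
  exact ⟨d, b.1, b.2.le, fun i => (a i).2⟩

variable {s₀ : A' → ℝ} {θ : T → A' → ℝ} {Om Om' : Set (W.Z c).M} {δ δ' : ℝ}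
  {hb : J.Θ s₀ ∈ M.Br c.1} {h0 : J.Θ s₀ ∈ M.O c.1}
  (L : JL J σ (wF (jEnd Om Om' θ hb h0) δ) θ) (hθ : ContDiff ℝ ∞ θ) (h1 : IsClopen Om)
  (h2 : IsClopen Om') (h3 : Om' ⊆ Om) (d0 : 0 < δ) (d1 : δ ≤ dl0)
include L hθ h1 h2 h3 d0 d1

/-- the necks on the ends of a job do not move -/
theorem JL.fx {a : A} (ha : a ∈ cylW c) (d : Bool) (hδ : δ < δ') :
    Fx (L.K (a, some d)) (wF (jEnd Om Om' θ hb h0) δ).Q (wψ (jEnd Om Om' θ hb h0) δ) δ' := by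
  let Y := jEnds L.ok hb h0 hθ h1 h2 h3 d0 d1
  have a0 : An.Act J.m c a (some d) (J.Θ s₀) := ⟨ha.2, hb, h0, ha.1⟩
  have b0 := L.ok.nk c a (some d) _ a0
  refine fx_end (Y.okP (⟨a, ha⟩, d)) Y.wt.toWtP d0.le hδ (b := 0) (fun s hs =>
    (((endIn_J L.ok hb h0 hθ h1 h2 h3).st (⟨a, ha⟩, d)).mem_J.1 hs).le)
    (fun t ht => ⟨ht, ha.2, L.ok.memBr L.mem (L.ov t ht), L.ok.memO L.mem (L.ov t ht), ha.1⟩)
    fun t ht k => ?_
  have b := L.ok.nk c a (some d) _ k.2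
  have e : (J.Θ (θ t)).2 a = (J.Θ s₀).2 a := (k.2.2.1.2 ha.1).trans (hb.2 ha.1).symm
  refine ⟨b.lo.trans b0.lo.symm, b.hi.trans b0.hi.symm, fun z hz => ?_⟩
  have hz' : z.2 ∈ (J.K c a (some d) _ k.2).J := (J.K c a (some d) _ k.2).mem_src.1 hz
  refine (isNk_ψ k.2 b hz').trans (Eq.trans (by rw [e]) (isNk_ψ a0 b0 ?_).symm)
  rwa [isNk_J k.2 b, e, ← isNk_J a0 b0] at hz'

variable {o : Ref (wF (jEnd Om Om' θ hb h0) δ)} [o.B0] (hδ : ∀ a ∈ cylW c, δ < (J.xs a).N.δ)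
include hδ

/-- **ends: the terms with an index gain a derivative** -/
theorem JL.smwE {R : ℝ} (l : (jEnds L.ok hb h0 hθ h1 h2 h3 d0 d1).Lit o R) (w : Wi) :
    o.Sm (xw m J c θ w) :=
  have H := hy_ends o (jEnds L.ok hb h0 hθ h1 h2 h3 d0 d1)
  (L.law H (fun a ha d => ⟨L.fx hθ h1 h2 h3 d0 d1 ha d (hδ a ha),
    fun _ ht => ⟨_, rfl, stat_ends _ l ht⟩⟩) w).sm (L.pjw H.ok w)

/-- **ends: the equations**, if they decay at one point -/
theorem JL.affE (d2 : δ ≤ 1 / 16) (hQ : IsPreconnected (wF (jEnd Om Om' θ hb h0) δ).Q)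
    {y : Pnt o r} (hy : Dc ((wF (jEnd Om Om' θ hb h0) δ).eq0 r n m + -x0 m J c θ) y) :
    Aff o (Fs (wF (jEnd Om Om' θ hb h0) δ)) r n m
      ((wF (jEnd Om Om' θ hb h0) δ).eq0 r n m + -x0 m J c θ) :=
  have H := hy_ends o (jEnds L.ok hb h0 hθ h1 h2 h3 d0 d1)
  H.aff1 (Map77.adj_rem H.ok) (L.la0 H (wf_ends (jEnds L.ok hb h0 hθ h1 h2 h3 d0 d1) d2)
    fun a ha d => ⟨id, L.fx hθ h1 h2 h3 d0 d1 ha d (hδ a ha)⟩).vneg (L.pj0 H.ok).neg hQ hy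

end Crest.Agent.X212.Mon62
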