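import Crest.Agent.X212.Mon62.PS
import Crest.Agent.X212.Mon62.NkU

/-! # Row 212, P-SM: charts which contain a solution, neck terms on the ends -/

set_option autoImplicit false
set_option linter.unusedSectionVars false
set_option maxSynthPendingDepth 3
noncomputable section
open scoped Manifold ContDiff Topology InnerProductSpace
open MeasureTheory Set Function Filter

namespace Crest.Agent.X212.Mon62
open An Mod61 Nd18 M Cht98 Rf65 Pte3 Eqv71 Wrd81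
open An.Job (SolOn)

variable {Wi : Type} {X : Mf 4} {A κ lam : Type} [Fintype A] [Fintype κ] [Fintype lam]
  [DecidableEq lam] {M : Mark X A κ} {W : World M} {N : ML M lam} {Λ : Lns W N}
  {A' h : Type} [Fintype A'] [DecidableEq A'] [Fintype h] {r n : ℕ}
  {J : Job Wi Λ A' h r n} {c : M.Cl} {σ : Cel A'} {p : Prt A A' h} {U : Type} [Fintype U] {δ : ℝ}
  {b : Bp J c} {E : EC b p U δ} {q : Wi →₀ ℝ} {y : J.Obc c} {x : Pnt E.o r} {ψ : E.K}

/-- representatives of solutions solve the field equations -/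
theorem zr_of (H : PG J c σ p) (hb : J.Ov σ c b.s) (eo : E.OK) (S : SolOn p σ q y)
    (R : E.RepC y x ψ) : (∀ z ∈ W.un c p.P', (EC.tot b p U δ q x.t).D x.cfg z = 0) ∧
      ∀ z ∈ W.un c p.P, (EC.tot b p U δ q x.t).C x.cfg z = 0 := by
  obtain ⟨u, ζ, e, -⟩ := R.e
  have F := H.fam (U := U) (b := b) eo.d0 eo.d1
  have o := H.ov hb x.ht
  have g := H.pok.kt2 H.ok H.mem S.ov o (θ_eq R.s)
  have t := H.pok.t_rel H.ok H.mem S.ov o (θ_eq R.s) q
  have k : CR0 (J.B c) (J.G c y.s) (J.B c) (J.G c (b.θ p U x.t)) (W.un c p.P) (W.un c p.P) id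
      (fun z a i => (J.B c).P a i z) (J.B c).l y.x x.cfg u ζ :=
    ⟨ad0 S.adm, x.ad0 F, fun z hz => S.off z fun k => hz (un_sub H.pok k),
      fun z hz => x.off F z fun k => hz (F.sub k), ceq_on e fun z hz a =>
        (H.pok.fr_eq H.ok H.mem S.ov o (θ_eq R.s) z hz a).1.symm⟩
  obtain ⟨h1, h2, -⟩ := tot_ev (b := b) (U := U) (δ := δ) (t := x.t) (q := q) x.cfg
  refine ⟨fun z hz => (h1 z).trans ((t.eD g.toLG k (un_sub H.pok hz)).trans ?_),
    fun z hz => (h2 z).trans ((t.eC g.toLG k hz).trans ?_)⟩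
  · rw [S.D z hz]
    exact (congrArg _ (map_zero (u z))).trans ((csL_apply _ _ _).symm.trans (map_zero _))
  · rw [S.C z hz, map_zero]

/-- **P-SM** at a chart in which the equations have a solution -/
theorem smZ (H : PG J c σ p) (hb : J.Ov σ c b.s) (eo : E.OK) (h0 : E.o.b = 0) (d2 : δ ≤ 1 / 16)
    (hδ : ∀ a ∈ cylW c, δ < (J.xs a).N.δ)
    (hD : ∀ z ∈ W.un c p.P', (EC.tot b p U δ q x.t).D x.cfg z = 0)
    (hC : ∀ z ∈ W.un c p.P, (EC.tot b p U δ q x.t).C x.cfg z = 0) : SmC E := by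
  have : E.o.B0 := ⟨h0⟩
  have L := jl_of (U := U) (δ := δ) H hb
  have F := H.fam (U := U) (b := b) eo.d0 eo.d1
  have c2 := Job.isClopen_un (W := W) fun π k => H.pok.pc π (H.pok.sub k)
  have s : ∀ w, E.o.Sm (b.τ p U w) := fun w => sm_neg (L.smwE (sm_θ b) H.cl c2 (un_sub H.pok)
    eo.d0 eo.d1 hδ ⟨eo.R5, eo.lit⟩ w)
  have e : EC.tot b p U δ q = ((b.F p U δ).eq0 r n _ + -x0 _ J c (b.θ p U)) +
      ((fun _ => nrm _) + q.sum fun w a => a • b.τ p U w) := by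
    rw [← add_assoc, ← sub_eq_add_neg]; rfl
  refine ⟨?_, s, fun i w => L.rc (hy_ends E.o (H.ends U b eo.d0 eo.d1)) (by norm_num)
    (fun _ ht => H.cut_ok hb ht i) i w⟩
  have a := (L.affE (sm_θ b) H.cl c2 (un_sub H.pok) eo.d0 eo.d1 hδ d2 (H.convex hb).isPreconnected
    (Dc.of_zr F (mem_SmS.1 (add_mem (mem_SmS.2 (sm_nrm E.o)) (Submodule.sum_mem _ fun w _ =>
      Submodule.smul_mem _ (q w) (mem_SmS.2 (s w))))) (e ▸ hD) (e ▸ hC))).add F (sm_nrm E.o)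
  rwa [← sub_eq_add_neg] at a

/-- **P-SM with neck terms on the ends** -/
theorem smM (hJ : J.OK) : ∃ δ₁ > 0, ∀ δ ≤ δ₁, ∀ σ p (U : Type) [Fintype U] (b : Bp J c)
    (E : EC b p U δ) q (y : J.Obc c) (x : Pnt E.o r) (ψ : E.K), PG J c σ p → J.Ov σ c b.s → E.OK →
    E.o.b = 0 → SolOn p σ q y → E.RepC y x ψ → SmC E :=
  let ⟨δ₁, a1, a2, a3⟩ := exists_wt hJ
  ⟨δ₁, a1, fun _ hδ _ _ _ _ _ _ _ _ _ _ H hb eo h0 S R =>
    smZ H hb eo h0 (hδ.trans a2) (fun a _ => hδ.trans_lt (a3 a)) (zr_of H hb eo S R).1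
      (zr_of H hb eo S R).2⟩

end Crest.Agent.X212.Mon62
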