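import Crest.Agent.X212.Mon62.Lz3
import Crest.Agent.X212.Add46.Ch

/-! # Row 212, LOC: the neck terms at an end -/

set_option autoImplicit false
set_option linter.unusedSectionVars false
set_option maxSynthPendingDepth 3
noncomputable section
open scoped Manifold ContDiff Topology InnerProductSpace ENNReal
open MeasureTheory Set Function Filter Real

namespace Crest.Agent.X212.Mon62.Lz
open An Sob92 Wz78 Rsp69 Rsp69.Cx Cyf70 Dgr80 Nd18 Mod61 Nk89 Eqv71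

variable {E : Type} [NormedAddCommGroup E] [NormedSpace ℝ E] [FiniteDimensional ℝ E]
  [MeasurableSpace E] [BorelSpace E]
  {HM : Type} [TopologicalSpace HM] {I : ModelWithCorners ℝ E HM} [I.Boundaryless]
  {M : Type} [TopologicalSpace M] [ChartedSpace HM M] [IsManifold I ∞ M]
  [MeasurableSpace M] [T2Space M] [BorelSpace M] [SecondCountableTopology M]
  {κ lam : Type} [Fintype κ] [Fintype lam] {r n m k : ℕ}
  {T : Type} [NormedAddCommGroup T] [NormedSpace ℝ T] {𝔉 : Mod61.Fam I M (Option κ) lam T}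
  {o : Ref 𝔉} {δ R b : ℝ} {t : T}

theorem alg {V : Type} [AddCommGroup V] {a a' p p' s s' c c' : V} (h1 : a' = a) (h2 : p' = p)
    (h3 : c' = c) (h4 : s' = s) : a - (p + s) - (a' - c) = -(p' - c') - s' := by
  subst h1 h2 h3 h4; abel

section cyl
variable {Y : X212.M.Mf 3} [CompactSpace Y.M] {D : YD Y.I Y.M κ lam} {O' : Set (Y.M × ℝ)}

theorem ne_of {V : Type} [NormedAddCommGroup V] [NormedSpace ℝ V] {u v : Y.M × ℝ → V} {sg a a' : ℝ}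
    {ε : ℝ≥0∞} (h : Nk89.NE D δ sg a k v ≤ ε) (ha : a ≤ a') (e : ∀ x, a' < sg * x.2 → u x = v x) :
    Nk89.NE D δ sg a' k u ≤ ε := by
  have o : IsOpen {x : Y.M × ℝ | a' < sg * x.2} := isOpen_lt continuous_const (by fun_prop)
  exact (Gl67.N_congr o.measurableSet fun x hx => eventually_of_mem (o.mem_nhds hx) e).trans_le
    ((Gl67.N_mono fun x hx => ha.trans_lt hx).trans h)

section two
variable {𝒟 : Type} {n₀ : ℕ} {J : En (Fin n₀)} {β : Rf Y.M κ lam n₀} {C : ℕ → ℝ} {sg : ℝ}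
  (B : Bn D β C δ sg) {s₀ s₁ : Si D 𝒟 n₀ J} (h0 : s₀.OK β C k δ sg b) (h1 : s₁.OK β C k δ sg b)
  {N : ND Y.M lam} (hN : N.OK D) (hk : 8 ≤ k) (hδ : 8 * δ ≤ N.δ)
include h0 h1 hN hk hδ

theorem q1' (e : ∀ d (z : Y.M × ℝ), b < sg * z.2 →
      (∀ a, s₁.W d a (s₁.K.ψ z) = s₀.W d a (s₀.K.ψ z)) ∧ s₁.Φ d (s₁.K.ψ z) = s₀.Φ d (s₀.K.ψ z)) :
    ((B.cx 𝒟 b).Hk (N := fun _ => Eu (Fin n₀)) (fun _ => rw (δ + δ) sg b) k fun d z =>
      (N.q1 (n := 0) s₁.K).D (s₁.c d) (s₁.K.ψ z) - (N.q1 (n := 0) s₀.K).D (s₀.c d) (s₀.K.ψ z)) ∧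
    (B.cx 𝒟 b).Hk (N := fun _ => Fm (Option κ × Option κ) (HS (Fin n₀)))
      (fun _ => rw (δ + δ) sg b) k fun d z =>
      (N.q1 (n := 0) s₁.K).C (s₁.c d) (s₁.K.ψ z) - (N.q1 (n := 0) s₀.K).C (s₀.c d) (s₀.K.ψ z) := by
  have w : δ + δ ≤ N.δ / 4 := by linarith only [hδ]
  obtain ⟨s, rfl, rfl⟩ : ∃ s : Bool → Si D 𝒟 n₀ J, s false = s₀ ∧ s true = s₁ :=
    ⟨fun i => Bool.rec s₀ s₁ i, rfl, rfl⟩
  have A := B.q1 (s := s) (fun i => Bool.rec h0 h1 i) hN hk e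
  exact ⟨B.wt (V := Eu (Fin n₀)) w A.1, B.wt (V := Fm (Option κ × Option κ) (HS (Fin n₀))) w A.2⟩

theorem q2' (e : ∀ d (z : Y.M × ℝ), b < sg * z.2 →
      (∀ a, s₀.W d a (s₀.K.ψ z) = β.W a z.1) ∧ s₀.Φ d (s₀.K.ψ z) = β.Φ z.1)
    (hz : ∀ d, N.ew s₀.K (s₀.c d) = 0) (w : YW Y.I Y.M) (c : ℝ) :
    ((B.cx 𝒟 b).Hk (N := fun _ => Eu (Fin n₀)) (fun _ => rw (δ + δ) sg b) k fun d z =>
      c • (N.q2 (n := 0) s₁.K w.1).D (s₁.c d) (s₁.K.ψ z)) ∧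
    (B.cx 𝒟 b).Hk (N := fun _ => Fm (Option κ × Option κ) (HS (Fin n₀)))
      (fun _ => rw (δ + δ) sg b) k fun d z => c • (N.q2 (n := 0) s₁.K w.1).C (s₁.c d) (s₁.K.ψ z) :=
  have A := B.q2 (s := fun i => Bool.rec s₀ s₁ i) (fun i => Bool.rec h0 h1 i) hN hk hδ e hz w.2
  ⟨A.1.clm (T := fun _ => .lsmul ℝ ℝ c) (.const _), A.2.clm (T := fun _ => .lsmul ℝ ℝ c) (.const _)⟩

end two

theorem cst_Z (D : YD Y.I Y.M κ lam) : ∃ C, D.Z.Tame C ∧ ∀ a, D.Z.CBs (D.Z.D a Prod.snd) C := by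
  obtain ⟨C, hC⟩ := Cht98.tame_cyl D.F Y.dim.le
  obtain ⟨A, hA⟩ := Prm93.Cb_unif (F := D.Z.toPre) (f := fun a => D.Z.D a Prod.snd) fun a => by
    cases a with
    | none =>
      exact (congrArg D.Z.Cb ((D_none_snd D.F.toPre contDiff_id).trans
        (funext fun x => deriv_id x.2))).mpr (Cb_const (1 : ℝ))
    | some a => exact (congrArg D.Z.Cb (D_some_snd D.F.toPre contDiff_id a)).mpr (Cb_const (0 : ℝ))
  exact ⟨fun k => max (C k) (A k), Ell97.Tame_mono hC fun _ => le_max_left _ _,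
    fun a => Ell97.CBs_mono (hA a) fun _ => le_max_right _ _⟩

theorem ok_endZ (hD : D.OK) (hY : PreconnectedSpace Y.M) (s : Bool) :
    (endZ T Y D δ O' s).OK (fun x => δ * ab x.2) δ 1 :=
  ⟨hD, hY, fun s _ => by simp [Dp, YD.nk], fun _ _ _ _ _ _ => ⟨rfl, rfl⟩,
    fun _ _ _ _ => ⟨rfl, rfl⟩, fun _ _ _ _ _ => rfl, fun _ _ => rfl,
    fun x hx => congrArg (δ * ·) (ab_eq (End.sg_cases _) hx.2.le)⟩

theorem W_refZ {β : YC Y.M κ lam} (h : D.Adm β) (h0 : ∀ x ∉ O', β.Φ x.1 = 0) (t : T) (a x) :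
    (refZ T δ h h0).W t 0 a x = β.W a x.1 := by
  have : ∑ b, D.B.P a b x • β.W b x.1 = β.W a x.1 := h.adm.conn.cc.proj a x
  simpa [Ref.W, Ref.A, Md.addC, Mod61.Fam.W0, famZ, Nk89.wtF, Nk89.cst] using this

end cyl

theorem W_hi {P : End 𝔉} {ψ : M → ℝ} (h : 𝔉.OK) (hP : P.OK ψ δ R) (y : Pnt o r) (hy : y.t = t)
    {z : P.Y.M × ℝ} (hz : z ∈ P.H R) (a : Option κ) :
    y.cfg.W a (P.K.ψ z) = o.W t 0 a (P.K.ψ z) + opL (y.α (P.K.ψ z) a) := by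
  have u := hP.ψ_mem le_rfl hz
  subst hy
  exact (End14.W_end hP h y.ht _ u (y.pα h _) a).trans (by rw [End14.W0_end h hP y.ht u])

variable (X : Ends 𝔉 δ) (l : X.Lit o R) {a : X.A}
include l

theorem eq_end' (y : Pnt o r) (hy : y.t = t) {h : (X.P a).D.Adm ((X.P a).sl o (R + 1) t)} {h0}
    (y' : Pnt (refZ T0 δ (O' := (X.P a).O' R) h h0) 0) {z : (X.P a).Y.M × ℝ} (hz : z ∈ (X.P a).H R)
    (e : ∀ᶠ x in 𝓝 z, y.α ((X.P a).K.ψ x) = y'.α x ∧ y.φ ((X.P a).K.ψ x) = y'.φ x) :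
    (eq0 (X.P a).D.B (X.P a).D.G 0 0 0).D y'.cfg z = (𝔉.eq0 r n m y.t).D y.cfg ((X.P a).K.ψ z) ∧
    (eq0 (X.P a).D.B (X.P a).D.G 0 0 0).C y'.cfg z = (𝔉.eq0 r n m y.t).C y.cfg ((X.P a).K.ψ z) := by
  subst hy
  exact Add46.eq_end X l y y' hz e

set_option maxHeartbeats 1000000 in
/-- **LOC** -/
theorem loc (ha : X.Act a) {N : ND (X.P a).Y.M lam} (hN : N.OK (X.P a).D) (hδ : 8 * δ ≤ N.δ)
    (ht : t ∈ 𝔉.Q) {K : Nk (X.P a).D 𝔉.B (𝔉.G t)} (S : Same K (X.P a).K) (hk : 7 ≤ k) (q h h0) :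
    (X.P a).Loc o k δ R (fun t => 𝔉.eq0 r n m t - px m (N.pt K q)) t h h0 (eZ N (X.P a).D) := by
  intro b ρ hb ε hε
  have hP := X.okP a
  have d0 := X.δ0
  let 𝒟 := {p : Pnt o r × Pnt (refZ T0 δ h h0) 0 // p.1.t = t ∧ ‖p.1.pt k‖ ≤ ρ ∧ ‖p.2.pt k‖ ≤ ρ ∧
    ∀ x, b < (X.P a).sg * x.2 → p.1.α ((X.P a).K.ψ x) = p.2.α x ∧ p.1.φ ((X.P a).K.ψ x) = p.2.φ x}
  obtain ⟨C1, c1⟩ := X.ok.tameG t ht
  obtain ⟨C2, c2, c3⟩ := cst_Z (X.P a).D
  have c4 := Ell97.Tame_mono c2 fun k => le_max_right (C1 k) (C2 k)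
  let β : Rf (X.P a).Y.M κ lam o.m.N := ⟨((X.P a).sl o (R + 1) t).m.p, ((X.P a).sl o (R + 1) t).m.ρ,
    ((X.P a).sl o (R + 1) t).m.j, ((X.P a).sl o (R + 1) t).W, ((X.P a).sl o (R + 1) t).Φ⟩
  have B : Bn (X.P a).D β _ δ (X.P a).sg := ⟨hP.D, c4, fun a => Ell97.CBs_mono (c3 a) fun _ =>
    le_max_right _ _, End.sg_cases _, d0, fun a => sm_slice_fst (h.adm.conn.cc.sm a) 0,
    sm_slice_fst h.adm.sm 0⟩
  have kZ := X.okZ a R
  have hZ := ok_endZ (T := T0) (δ := δ) (O' := (X.P a).O' R) hP.D hP.con (X.P a).out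
  have b1 : ∀ z ∈ (X.P a).H (max b 1), z ∈ (X.P a).H b := fun z hz => (le_max_left b 1).trans_lt hz
  have b2 : ∀ z ∈ (X.P a).H (max b 1), z ∈ (X.P a).H R := fun z hz => hb.trans_lt (b1 z hz)
  have b3 : ∀ z ∈ (X.P a).H (max b 1), z ∈ (X.P a).H X.R := fun z hz => l.le.trans_lt (b2 z hz)
  have eψ : ∀ z ∈ (X.P a).H (max b 1), K.ψ z = (X.P a).K.ψ z := fun z hz =>
    S.ψ z (S.src ▸ hP.src (b3 z hz).le)
  have l1 := fun z hz => (l.lit a).at ht (b2 z hz)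
  have s1 := si_ok X.ok hP X.wt.toWtP (l.le.trans (hb.trans (le_max_left b 1))) ht S
    (y := fun d : 𝒟 => d.1.1) (fun d => ⟨d.2.1, d.2.2.1⟩) (by omega) (β := β) l1
    (Ell97.Tame_mono c1 fun k => le_max_left (C1 k) (C2 k))
  have sZ := fun {ρ} {y : 𝒟 → Pnt (refZ T0 δ h h0) 0} (hy : ∀ d, ‖(y d).pt k‖ ≤ ρ) =>
    si_ok kZ hZ wt_famZ.toWtP (le_max_right b 1) (t := 0) trivial (.refl _) (y := y)
      (fun d => ⟨Subsingleton.elim _ _, hy d⟩) (by omega) (β := β)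
      (fun z _ => ⟨rfl, fun _ => rfl, rfl, fun a => W_refZ h h0 0 a z, rfl⟩) c4
  have s2 := sZ (y := fun d => d.1.2) fun d => d.2.2.2.1
  have s3 := sZ (y := fun _ => pt0 _ 0 (t := 0) trivial) fun _ => le_rfl
  have A := q1' B s2 s1 hN (by omega) hδ fun d z hz => ⟨fun c => by
      refine (congrArg _ (eψ z hz)).trans ((W_hi X.ok hP d.1.1 d.2.1 (b3 z hz) c).trans
        (.trans ?_ (W_hi kZ hZ d.1.2 (t := 0) (Subsingleton.elim _ _) (z := z)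
          ((le_max_right _ _).trans_lt hz) c).symm))
      rw [(l1 z hz).2.2.2.1, (d.2.2.2.2 z (b1 z hz)).1]
      exact congrArg (· + _) (W_refZ h h0 0 c z).symm, (congrArg _ (eψ z hz)).trans
    (congrArg₂ (α := o.m.V) (· + ·) (l1 z hz).2.2.2.2 (d.2.2.2.2 z (b1 z hz)).2)⟩
  have Q := fun w => q2' B s3 s1 hN (by omega) hδ
    (fun d z _ => ⟨fun c => W_refZ h h0 0 c z, add_zero _⟩)
    (fun _ => (congrArg (N.ew (X.P a).D.nk) (cfg_refZ (T := T0) (δ := δ) (t := 0) h h0 trivial)).trans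
      (Bki64.ew_cy h)) w (q w)
  obtain ⟨a1, h1⟩ := B.ne (V := Eu (Fin o.m.N)) (lt_add_of_pos_left δ d0)
    ((A.1.neg.sub (Hk.sum q.support A.1 fun w _ => (Q w).1)).of_le k.le_succ) hε
  obtain ⟨a2, h2⟩ := B.ne (V := Fm (Option κ × Option κ) (HS (Fin o.m.N))) (lt_add_of_pos_left δ d0)
    ((A.2.neg.sub (Hk.sum q.support A.2 fun w _ => (Q w).2)).of_le k.le_succ) hε
  refine ⟨max (max a1 a2) (max b 1), fun y y' hy n1 n2 e => ?_⟩
  have b4 : ∀ z : (X.P a).Y.M × ℝ, max (max a1 a2) (max b 1) < (X.P a).sg * z.2 →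
    z ∈ (X.P a).H (max b 1) := fun z hz => (le_max_right _ _).trans_lt hz
  have e1 := fun z hz => eq_end' (n := n) (m := m) X l y hy y' (b2 z hz)
    ((((X.P a).isOpen_H b).eventually_mem (b1 z hz)).mono e)
  have mO := fun z hz => hP.mem_O' X.ok l.le (b2 z hz) z
  refine ⟨?_, ne_of (V := Fm (Option κ × Option κ) (HS (Fin o.m.N))) (h2 ⟨(y, y'), hy, n1, n2, e⟩) ((le_max_right _ _).trans (le_max_left _ _))
    fun z hz => ?_⟩
  · by_cases hO : (X.P a).U R ⊆ 𝔉.Om'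
    · refine ne_of (V := Eu (Fin o.m.N)) (h1 ⟨(y, y'), hy, n1, n2, e⟩) ((le_max_left _ _).trans (le_max_left _ _))
        fun z hz => ?_
      have hz := b4 z hz
      refine (congrArg₂ (· - ·) (indicator_of_mem ((mO z hz).1 hO) _) (indicator_of_mem hO _)).trans
        (alg (V := Eu (Fin o.m.N)) (e1 z hz).1 ((congrArg _ (eψ z hz)).trans
          (q1_noz (n := n) N K y.cfg _).1) (q1_noz (n := 0) N (X.P a).D.nk y'.cfg z).1
          (Finset.sum_congr rfl fun w _ => congrArg (q w • ·)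
            ((congrArg _ (eψ z hz)).trans (q2_noz (n := n) N K y.cfg w.1 _).1)))
    · refine ne_of (v := 0) (Gl67.N_zero.trans_le zero_le) le_rfl fun z hz => sub_eq_zero.2 ?_
      exact (indicator_of_notMem (mt (mO z (b4 z hz)).2 hO) _).trans (indicator_of_notMem hO _).symm
  · have hz := b4 z hz
    refine (congrArg₂ (· - ·) (indicator_of_mem (ha (hP.ψ_mem le_rfl (b3 z hz))) _)
      (indicator_of_mem (mem_univ _) _)).trans
      (alg (V := Fm (Option κ × Option κ) (HS (Fin o.m.N))) (e1 z hz).2 ((congrArg _ (eψ z hz)).trans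
        (q1_noz (n := n) N K y.cfg _).2) (q1_noz (n := 0) N (X.P a).D.nk y'.cfg z).2
        (Finset.sum_congr rfl fun w _ => congrArg (q w • ·)
          ((congrArg _ (eψ z hz)).trans (q2_noz (n := n) N K y.cfg w.1 _).2)))

omit l in
/-- the text of `Ax1.Fr.LocE` -/
theorem locE (κ lam : Type) [Fintype κ] [Fintype lam] :
    ∀ (Z : X212.M.Mf 4) (T : Type) [NormedAddCommGroup T] [NormedSpace ℝ T]
    (𝔉 : Mod61.Fam Z.I Z.M (Option κ) lam T) δ (X : Ends 𝔉 δ) (o : Ref 𝔉) [o.B0] R r n m (a : X.A)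
    (N : ND (X.P a).Y.M lam) t (K : Nk (X.P a).D 𝔉.B (𝔉.G t)) q h h0,
    X.Lit o R → X.Act a → t ∈ 𝔉.Q → N.OK (X.P a).D → δ ≤ 1 / 16 → 8 * δ ≤ N.δ → Same K (X.P a).K →
    (X.P a).Loc o 8 δ R (fun t => 𝔉.eq0 r n m t - px m (N.pt K q)) t h h0 (eZ N (X.P a).D) :=
  fun _ _ _ _ _ _ X _ _ _ _ _ _ _ _ _ _ q h h0 l ha ht hN _ hδ S =>
    loc X l ha hN hδ ht S (by norm_num) q h h0

end Crest.Agent.X212.Mon62.Lz
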