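import Crest.Agent.X212.Mon62.Abs
import Crest.Agent.X212.Sob92.Ops
import Crest.Agent.X212.Ell97.Scale
import Crest.Agent.X212.Wz78.Int

/-! # Row 212, RESH: `1 + ∇*∇` on the Sobolev scale for connection forms of finite regularity -/

set_option autoImplicit false
set_option linter.unusedSectionVars false
noncomputable section
open scoped Manifold ContDiff Topology InnerProductSpace
open MeasureTheory Set Function Filter

namespace Crest.Agent.X212.Mon62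
open An Sob92 Wz78

variable {E : Type} [NormedAddCommGroup E] [NormedSpace ℝ E] [FiniteDimensional ℝ E]
  [MeasurableSpace E] [BorelSpace E]
  {HM : Type} [TopologicalSpace HM] {I : ModelWithCorners ℝ E HM}
  {M : Type} [TopologicalSpace M] [ChartedSpace HM M] [IsManifold I ∞ M]
  [MeasurableSpace M] [T2Space M] [BorelSpace M] [SecondCountableTopology M] {ι : Type} [Fintype ι]
  {V : Type} [NormedAddCommGroup V] [InnerProductSpace ℝ V]

/-- Sobolev space of `V`-valued functions -/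
abbrev HT (F : Pre I M ι) (V : Type) [NormedAddCommGroup V] [InnerProductSpace ℝ V] (k : ℕ) :=
  F.H k (triv M V)

/-- inclusion -/
abbrev ic (F : Pre I M ι) (V : Type) [NormedAddCommGroup V] [InnerProductSpace ℝ V] (k j : ℕ) :
    HT F V k →L[ℝ] HT F V j := F.incl k j (triv M V)

/-- connection multipliers on two consecutive levels -/
abbrev Mu (F : Pre I M ι) (V : Type) [NormedAddCommGroup V] [InnerProductSpace ℝ V] (j : ℕ) :=
  (ι → HT F V j →L[ℝ] HT F V j) × (ι → HT F V (j + 1) →L[ℝ] HT F V (j + 1))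

variable (F₀ : Pre I M ι) (F : Fr I M ι)

variable (V) in
/-- the derivative along the frame `F` on the scale of `F₀` -/
def Dt (j : ℕ) (c : ι) : HT F₀ V (j + 1) →L[ℝ] HT F₀ V j := F₀.lift (j + 1) j _ _ (F.D c)

/-- covariant derivative with the multiplier `T` -/
def Nb (j : ℕ) (T : HT F₀ V j →L[ℝ] HT F₀ V j) (c : ι) : HT F₀ V (j + 1) →L[ℝ] HT F₀ V j :=
  Dt V F₀ F j c + T ∘L ic F₀ V (j + 1) j

/-- `1 + ∇*∇` -/
def QQ (j : ℕ) (T : Mu F₀ V j) : HT F₀ V (j + 2) →L[ℝ] HT F₀ V j :=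
  ic F₀ V (j + 2) j - ∑ c, (Nb F₀ F j (T.1 c) c + smulH F₀ j _ (F.dv c) ∘L ic F₀ V (j + 1) j) ∘L
    Nb F₀ F (j + 1) (T.2 c) c

variable (V) in
/-- the frame `F` acts on the scale of `F₀` -/
structure Act : Prop where
  D : ∀ j c, F₀.Rep (Dt V F₀ F j c) (F.D c)
  dv : ∀ c, F₀.Cb (F.dv c)

/-- `T` represents the multiplication by `A` -/
def RepM {j : ℕ} (T : Mu F₀ V j) (A : ι → M → V →L[ℝ] V) : Prop :=
  (∀ c, F₀.Rep (T.1 c) fun u x => A c x (u x)) ∧ ∀ c, F₀.Rep (T.2 c) fun u x => A c x (u x)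

variable (V) in
/-- multipliers of smooth metric connections -/
def Adm (j : ℕ) : Set (Mu F₀ V j) :=
  {T | ∃ A : ι → M → V →L[ℝ] V, (∀ c, Sm I (A c)) ∧ (∀ c x, Skew (A c x)) ∧ RepM F₀ T A}

variable {F₀ F} {j : ℕ}

theorem Dt_self (j : ℕ) (c : ι) : Dt V F.toPre F j c = DH F.toPre j (triv M V) c := rfl

theorem act_self {C : ℕ → ℝ} (hF : F.Tame C) : Act V F.toPre F :=
  ⟨fun _ c => rep_DH c, fun c => ⟨C, hF.dv c⟩⟩

theorem rep_Nb (h : Act V F₀ F) {T : HT F₀ V j →L[ℝ] HT F₀ V j} {A : ι → M → V →L[ℝ] V} {c : ι}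
    (hT : F₀.Rep T fun u x => A c x (u x)) : F₀.Rep (Nb F₀ F j T c) (nab I F.e A c) :=
  RepT_add (h.D j c) (RepT_comp hT (rep_incl (Nat.le_succ j)))

theorem rep_QQ (h : Act V F₀ F) {T : Mu F₀ V j} {A : ι → M → V →L[ℝ] V} (hT : RepM F₀ T A) :
    F₀.Rep (QQ F₀ F j T) fun u x => u x + lap I F.e F.dv A u x := by
  refine RepT_congr (RepT_sub (rep_incl (by omega)) (RepT_sum Finset.univ fun c _ =>
    RepT_comp (RepT_add (rep_Nb h (hT.1 c))
      (RepT_comp (rep_smulH (h.dv c)) (rep_incl (Nat.le_succ j)))) (rep_Nb h (hT.2 c)))) fun u => ?_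
  funext x
  simp only [lap, Pi.sub_apply, Pi.add_apply, id, sub_eq_add_neg]

theorem continuous_QQ : Continuous (QQ F₀ F j : Mu F₀ V j → _) := by
  unfold QQ Nb
  refine continuous_const.sub (continuous_finsetSum _ fun c _ => Continuous.clm_comp ?_ ?_)
  · exact (continuous_const.add (Continuous.clm_comp (by fun_prop) continuous_const)).add
      continuous_const
  · exact continuous_const.add (Continuous.clm_comp (by fun_prop) continuous_const)

theorem repM_zero : RepM F₀ (0 : Mu F₀ V j) fun _ _ => 0 :=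
  ⟨fun _ => RepT_congr RepT_zero fun _ => rfl, fun _ => RepT_congr RepT_zero fun _ => rfl⟩

theorem zero_mem_adm : (0 : Mu F₀ V j) ∈ Adm V F₀ j :=
  ⟨fun _ _ => 0, fun _ => contMDiff_const, fun _ _ v w => by simp, repM_zero⟩

/-- coercivity for smooth connections -/
theorem coer_adm (h : Act V F.toPre F) {T : Mu F.toPre V j} (hT : T ∈ Adm V F.toPre j) :
    Coer (ic F.toPre V (j + 2) 0) (ic F.toPre V j 0) 1 (QQ F.toPre F j T) := by
  obtain ⟨A, hA, hs, hT⟩ := hT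
  intro u
  refine H_le (f := fun u => 1 * ‖ic F.toPre V (j + 2) 0 u‖ ^ 2)
    (g := fun u => ⟪ic F.toPre V j 0 (QQ F.toPre F j T u), ic F.toPre V (j + 2) 0 u⟫_ℝ)
    (by fun_prop) (by fun_prop) (fun u => ?_) u
  simp only [ic]
  rw [RepT_toH (rep_QQ h hT), incl_toH (Nat.zero_le _), incl_toH (Nat.zero_le _), one_mul,
    ← real_inner_self_eq_norm_sq, Pre.inner_toH, Pre.inner_toH]
  simp only [Pre.ip, inner_add_left]
  rw [integral_add (F.integrable_inner u.2.1.continuous u.2.2.1 u.2.1.continuous)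
    (integ (fun x => SA.inner (sm_lap hA u.2.1 x) (u.2.1 x)) (hcs_inner _ u.2.2.1)),
    integral_lap hA hs u.2.1 u.2.1 u.2.2.1]
  exact le_add_of_nonneg_right (integral_nonneg fun x =>
    Finset.sum_nonneg fun _ _ => real_inner_self_nonneg)

theorem coer_closure (h : Act V F.toPre F) {T : Mu F.toPre V j} (hT : T ∈ closure (Adm V F.toPre j)) :
    Coer (ic F.toPre V (j + 2) 0) (ic F.toPre V j 0) 1 (QQ F.toPre F j T) := fun u => by
  have hc : Continuous fun T : Mu F.toPre V j => QQ F.toPre F j T u :=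
    continuous_QQ.clm_apply continuous_const
  have hcl : IsClosed {T : Mu F.toPre V j | 1 * ‖ic F.toPre V (j + 2) 0 u‖ ^ 2 ≤
      ⟪ic F.toPre V j 0 (QQ F.toPre F j T u), ic F.toPre V (j + 2) 0 u⟫_ℝ} :=
    isClosed_le continuous_const (by fun_prop)
  exact hcl.closure_subset_iff.2 (fun T hT => coer_adm h hT u) hT

theorem ic_Dt (h : Act V F₀ F) (c : ι) (u : HT F₀ V (j + 2)) :
    ic F₀ V (j + 1) j (Dt V F₀ F (j + 1) c u) = Dt V F₀ F j c (ic F₀ V (j + 2) (j + 1) u) :=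
  Rep_incl (h.D (j + 1) c) (h.D j c) (by omega) (by omega) u

theorem norm_ic_le {k : ℕ} (h : j ≤ k) (u : HT F₀ V k) : ‖ic F₀ V k j u‖ ≤ ‖u‖ := norm_incl_le h u

theorem norm_T1_le (T : Mu F₀ V j) (c : ι) (u : HT F₀ V j) : ‖T.1 c u‖ ≤ ‖T‖ * ‖u‖ :=
  (T.1 c).le_of_opNorm_le ((norm_le_pi_norm T.1 c).trans (norm_fst_le T)) u

theorem norm_T2_le (T : Mu F₀ V j) (c : ι) (u : HT F₀ V (j + 1)) : ‖T.2 c u‖ ≤ ‖T‖ * ‖u‖ :=
  (T.2 c).le_of_opNorm_le ((norm_le_pi_norm T.2 c).trans (norm_snd_le T)) u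

/-- the connection terms are of lower order -/
theorem QQ_sub (h : Act V F₀ F) (T : Mu F₀ V j) (u : HT F₀ V (j + 2)) :
    QQ F₀ F j T u - QQ F₀ F j 0 u = -∑ c,
      (T.1 c (Dt V F₀ F j c (ic F₀ V (j + 2) (j + 1) u) +
          ic F₀ V (j + 1) j (T.2 c (ic F₀ V (j + 2) (j + 1) u))) +
        Dt V F₀ F j c (T.2 c (ic F₀ V (j + 2) (j + 1) u)) +
        smulH F₀ j _ (F.dv c) (ic F₀ V (j + 1) j (T.2 c (ic F₀ V (j + 2) (j + 1) u)))) := by
  simp only [QQ, Nb, sub_apply, sub_sub_sub_cancel_left, _root_.sum_apply,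
    ContinuousLinearMap.comp_apply, add_apply, map_add, Prod.fst_zero, Prod.snd_zero,
    Pi.zero_apply, zero_apply, add_zero, ic_Dt h, ← Finset.sum_sub_distrib,
    ← Finset.sum_neg_distrib]
  exact Finset.sum_congr rfl fun c _ => by abel

theorem norm_QQ_sub (h : Act V F₀ F) {d s : ℝ} (hd : ∀ c u, ‖Dt V F₀ F j c u‖ ≤ d * ‖u‖)
    (hs : ∀ c u, ‖smulH F₀ j (triv M V) (F.dv c) u‖ ≤ s * ‖u‖) (hd0 : 0 ≤ d) (hs0 : 0 ≤ s)
    {T : Mu F₀ V j} {R : ℝ} (hR : ‖T‖ ≤ R) (u : HT F₀ V (j + 2)) :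
    ‖QQ F₀ F j T u - QQ F₀ F j 0 u‖ ≤
      Fintype.card ι * (R * (2 * d + R + s)) * ‖ic F₀ V (j + 2) (j + 1) u‖ := by
  rw [QQ_sub h, norm_neg, mul_assoc]
  refine (norm_sum_le _ _).trans ((Finset.sum_le_card_nsmul _ _ _ fun c _ => ?_).trans
    (by rw [nsmul_eq_mul, Finset.card_univ]))
  set v := ic F₀ V (j + 2) (j + 1) u
  have hR0 : 0 ≤ R := (norm_nonneg T).trans hR
  have h1 : ‖T.2 c v‖ ≤ R * ‖v‖ :=
    (norm_T2_le T c v).trans (mul_le_mul_of_nonneg_right hR (norm_nonneg _))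
  have h2 : ‖ic F₀ V (j + 1) j (T.2 c v)‖ ≤ R * ‖v‖ := (norm_ic_le (by omega) _).trans h1
  have h3 : ‖T.1 c (Dt V F₀ F j c v + ic F₀ V (j + 1) j (T.2 c v))‖ ≤ R * (d * ‖v‖ + R * ‖v‖) :=
    (norm_T1_le T c _).trans (mul_le_mul hR ((norm_add_le _ _).trans (add_le_add (hd c v) h2))
      (norm_nonneg _) hR0)
  have h4 := (hd c (T.2 c v)).trans (mul_le_mul_of_nonneg_left h1 hd0)
  have h5 := (hs c _).trans (mul_le_mul_of_nonneg_left h2 hs0)
  refine (norm_add₃_le).trans ?_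
  linarith

/-- one integration by parts -/
theorem sum_D_sq_le {C : ℕ → ℝ} (hF : F.Tame C) (u : Ell97.T I M V) :
    ∑ a, (Ell97.scl V F.toPre).N 0 ((Ell97.scl V F.toPre).D a u) ^ 2 ≤
      Fintype.card ι * (1 + cK ι 0 * |C 0|) * (Ell97.scl V F.toPre).N 0 u *
        (Ell97.scl V F.toPre).N 2 u := by
  set A := Ell97.scl V F.toPre
  rw [mul_assoc, mul_assoc]
  refine (Finset.sum_le_card_nsmul _ _ _ fun a _ => ?_).trans
    (by rw [nsmul_eq_mul, Finset.card_univ])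
  rw [A.N0, Ell97.ip_D]
  refine (A.cs _ _).trans ?_
  rw [mul_left_comm]
  refine mul_le_mul_of_nonneg_left ?_ (A.nn _ _)
  have h1 : A.N 0 (A.D a (A.D a u)) ≤ A.N 2 u := (A.N_D 0 a _).trans (A.N_D 1 a u)
  have h2 : A.N 0 (A.D a u) ≤ A.N 2 u := (A.N_D 0 a u).trans (A.N_succ 1 u)
  have h3 : A.N 0 (Ell97.mul (Ell97.sc V (F.dv a)) (Ell97.sm_sc (F.dv_sm a)) (A.D a u)) ≤
      cK ι 0 * |C 0| * A.N 0 (A.D a u) := by
    rw [Ell97.scl_N, Ell97.scl_N]
    exact nrm_smul (F.dv_sm a) (A.D a u).2.1 ((hF.dv a).2 0) (FL_sec 0 _)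
  have h4 := map_sub_le_add (A.N 0) (-(A.D a (A.D a u)))
    (Ell97.mul (Ell97.sc V (F.dv a)) (Ell97.sm_sc (F.dv_sm a)) (A.D a u))
  rw [map_neg_eq_map] at h4
  have h5 := mul_le_mul_of_nonneg_left h2 (mul_nonneg (cK_nonneg (ι := ι) 0) (abs_nonneg (C 0)))
  refine h4.trans ?_
  linarith

/-- **Interpolation** on the Sobolev scale. -/
theorem interpH {C : ℕ → ℝ} (hF : F.Tame C) {δ : ℝ} (hδ : 0 < δ) (k : ℕ)
    (u : HT F.toPre V (k + 1)) : ‖ic F.toPre V (k + 1) k u‖ ≤ δ * ‖u‖ +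
      KJ (Fintype.card ι * (1 + cK ι 0 * |C 0|)) δ k * ‖ic F.toPre V (k + 1) 0 u‖ := by
  refine H_le (f := fun u => ‖ic F.toPre V (k + 1) k u‖) (g := fun u => δ * ‖u‖ +
      KJ (Fintype.card ι * (1 + cK ι 0 * |C 0|)) δ k * ‖ic F.toPre V (k + 1) 0 u‖)
    (by fun_prop) (by fun_prop) (fun u => ?_) u
  simp only [ic]
  rw [incl_toH (Nat.le_succ _), incl_toH (Nat.zero_le _)]
  exact interp (A := Ell97.scl V F.toPre) (sum_D_sq_le hF) hδ k u

/-- the bound of the resolvent -/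
def KR (n : ℕ) (b s K₀ R : ℝ) (j : ℕ) : ℝ :=
  2 * (K₀ + K₀ * (n * (R * (2 * 1 + R + s))) *
    KJ b (2 * (K₀ * (n * (R * (2 * 1 + R + s))) + 1))⁻¹ (j + 1) * (1⁻¹ * |1|))

/-- **The resolvent for connections of finite regularity**, given the rough Laplacian. -/
theorem bij_QQ {C : ℕ → ℝ} (hF : F.Tame C) {K₀ : ℝ} (hK : 0 ≤ K₀)
    (hs : Surjective (QQ F.toPre F j (0 : Mu F.toPre V j)))
    (hb : ∀ u, ‖u‖ ≤ K₀ * ‖QQ F.toPre F j (0 : Mu F.toPre V j) u‖)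
    {T : Mu F.toPre V j} (hT : T ∈ closure (Adm V F.toPre j)) {R : ℝ} (hR : ‖T‖ ≤ R) :
    Bijective (QQ F.toPre F j T) ∧ ∀ u, ‖u‖ ≤ KR (Fintype.card ι)
      (Fintype.card ι * (1 + cK ι 0 * |C 0|)) (cK ι j * |C j|) K₀ R j * ‖QQ F.toPre F j T u‖ := by
  have h := act_self (V := V) hF
  have hR0 : 0 ≤ R := (norm_nonneg T).trans hR
  have hs0 : 0 ≤ cK ι j * |C j| := mul_nonneg (cK_nonneg _) (abs_nonneg _)
  have h1 := norm_QQ_sub h (d := 1) (s := cK ι j * |C j|)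
    (fun c u => by rw [one_mul]; exact norm_DH_le c u)
    (fun c u => ContinuousLinearMap.le_of_opNorm_le _
      (rep_smulH' (F.dv_sm c) ((hF.dv c).2 j)).2 u) zero_le_one hs0 hR
  have h2 : ∀ f : HT F.toPre V j, ‖ic F.toPre V j 0 f‖ ≤ 1 * ‖f‖ := fun f => by
    rw [one_mul]; exact norm_ic_le (Nat.zero_le _) f
  have h3 := interpH (V := V) hF (δ := (2 * (K₀ * (Fintype.card ι *
    (R * (2 * 1 + R + cK ι j * |C j|))) + 1))⁻¹) (by positivity) (j + 1)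
  exact ⟨(coer_adm h zero_mem_adm).bij (coer_closure h hT) one_pos hK (by positivity) (KJ_nn _ _ _)
    hs hb h1 h2 h3, (coer_closure h hT).bound one_pos hK (by positivity) (KJ_nn _ _ _) hb h1 h2 h3⟩

end Crest.Agent.X212.Mon62
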