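import Crest.Agent.X212.Mon62.Pq
import Crest.Agent.X212.Pte3.Bas
import Crest.Agent.X212.Rd78.Hc

/-! # Row 212, P-SM: the maps of the charts of parts are smooth -/

set_option autoImplicit false
set_option linter.unusedSectionVars false
set_option maxSynthPendingDepth 3
noncomputable section
open scoped Manifold ContDiff Topology InnerProductSpace
open MeasureTheory Set Function Filter

namespace Crest.Agent.X212.Mon62
open An Sob92 Prm93 Wz78 Mod61 Dm Nd18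
open Nk89 (End Ends Fs)
open Rdc90 (Flt Bs Har HC bh)
open Map77 (Aff Adj)

section gen
variable {E : Type} [NormedAddCommGroup E] [NormedSpace ℝ E] [FiniteDimensional ℝ E]
  [MeasurableSpace E] [BorelSpace E]
  {HM : Type} [TopologicalSpace HM] {I : ModelWithCorners ℝ E HM} [I.Boundaryless]
  {M : Type} [TopologicalSpace M] [ChartedSpace HM M] [IsManifold I ∞ M]
  [MeasurableSpace M] [T2Space M] [BorelSpace M] [SecondCountableTopology M]
  {κ lam : Type} [Fintype κ] [Fintype lam] {T : Type} [NormedAddCommGroup T] [NormedSpace ℝ T]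
  {𝔉 : Fam I M (Option κ) lam T} {δ R c : ℝ} {ψ : M → ℝ} {t : T} {o : Ref 𝔉} {r n m : ℕ}

/-- literal references with flat slices are flat far out -/
theorem end_flat {P : End 𝔉} (h : P.OK ψ δ R) (k : 𝔉.OK) (ht : t ∈ 𝔉.Q) (hc : R ≤ c)
    (l : P.Lit o c) (hf : Flt P.D (P.sl o (c + 1) t)) {x : M} (hx : x ∈ P.U c) :
    o.m.Fg (𝔉.G t).F (o.W t 0) x = 0 := by
  obtain ⟨z, hz, rfl⟩ := h.exists_ψ hx
  have ev := ((P.isOpen_H c).eventually_mem hz).mono fun y hy => l.at ht hy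
  obtain ⟨a1, a2, a3, -⟩ := l.at ht hz
  have g : o.m.gS (P.K.ψ z) = (cy (P.sl o (c + 1) t)).m.gS z := Submodule.ext fun ξ => by
    change (_ ∧ _ ∧ _ ∧ _ ∧ _) ↔ _
    simp only [a1, a2, a3]
    rfl
  have g' : o.m.pg (P.K.ψ z) = (cy (P.sl o (c + 1) t)).m.pg z := by
    simp only [Md.pg, g]
    rfl
  refine Eq.trans (PiLp.ext fun s => ?_) (hf z)
  exact (congrArg (fun L : CL o.m.A o.m.A => L _) g').trans (congrArg _ (congrArg hsL
    ((h.gRel k ht).fr.curv (hc.trans_lt hz) (A := fun a y => (P.sl o (c + 1) t).W a y.1)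
      (fun a => ev.mono fun y hy => (hy.2.2.2.1 a).symm) s.1 s.2).symm))

/-- **the unperturbed equations** at a literal reference with flat limits and no spinor -/
theorem aff_ends (X : Ends 𝔉 δ) (l : X.Lit o c) (h0 : o.Φ0 = 0)
    (hf : ∀ a, X.Act a → ∀ t ∈ 𝔉.Q, Flt (X.P a).D ((X.P a).sl o (c + 1) t)) :
    Aff o (Fs 𝔉) r n m (𝔉.eq0 r n m) := by
  refine aff_cs (Map77.adj_rem X.ok) (X.cov' c) fun y x hx => ?_
  have e : (Map77.bs y).cfg.Φ = fun _ => 0 := (add_zero _).trans h0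
  obtain ⟨a, ha⟩ := mem_iUnion.1 (not_not.1 hx)
  refine ⟨indicator_apply_eq_zero.2 fun _ => ?_, indicator_apply_eq_zero.2 fun k => ?_⟩
  · change dir I _ _ _ (Map77.bs y).cfg.Φ x = 0
    simp [e, dir, nab, dv_const]
  · have hA : X.Act a := ((X.okP a).dich X.ok.Om le_rfl).resolve_right fun b =>
      b ((X.P a).U_mono l.le ha) k
    change o.m.p2 𝔉.B x (o.m.Fg (𝔉.G y.t).F (o.W y.t 0) x) -
      o.m.mu 𝔉.B x ((o.Φ0 + 0) x) ((o.Φ0 + 0) x) = 0
    rw [end_flat (X.okP a) X.ok y.ht l.le (l.lit a) (hf a hA _ y.ht) ha, h0]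
    simp [Md.mu, Md.q, rk1, ← Pi.zero_def]

theorem sm_nrm {ι : Type} [Fintype ι] {𝔉 : Fam I M ι lam T} (o : Ref 𝔉) :
    o.Sm fun _ => (Rf65.nrm m : PtX M ι lam r n m) := fun k _ =>
  ⟨fun v => (0, 0, 0, fun _ => ‖v.2.2.1‖ ^ 2 - 1), (contDiff_const.prodMk (contDiff_const.prodMk
    (contDiff_const.prodMk (contDiff_pi.2 fun _ => ((contDiff_norm_sq ℂ).comp (by fun_prop)).sub
      contDiff_const)))).contDiffOn, fun y =>
    ⟨val_zero.trans (indicator_zero' _).symm, val_zero.trans (indicator_zero' _).symm, rfl, rfl⟩⟩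

end gen

section flat
variable {E3 : Type} [NormedAddCommGroup E3] [NormedSpace ℝ E3] [FiniteDimensional ℝ E3]
  [MeasurableSpace E3] [BorelSpace E3]
  {H3 : Type} [TopologicalSpace H3] {I3 : ModelWithCorners ℝ E3 H3} [I3.Boundaryless]
  {Y : Type} [TopologicalSpace Y] [ChartedSpace H3 Y] [IsManifold I3 ∞ Y] [T2Space Y]
  [MeasurableSpace Y] [BorelSpace Y] [SecondCountableTopology Y] [CompactSpace Y]
  {κ : Type} [Fintype κ] {lam : Type} [Fintype lam] {D : YD I3 Y κ lam} {β β' : YC Y κ lam}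

theorem flt_eqv (hD : D.OK) (a : D.Adm β) (a' : D.Adm β') {v : _} {ζ : Circle}
    (e : EqOn D.B D.Z univ (cy β) (cy β') v ζ) (h : Flt D β) : Flt D β' := fun x =>
  (((Eqv71.lg_refl hD.B hD.G isOpen_univ).of_ceq (Eqv71.ad0 a.adm) (Eqv71.ad0 a'.adm) e).Fg
    (mem_univ x)).trans ((congrArg _ (h x)).trans (map_zero _))

theorem har_smul {η : κ → Y → β.m.A} (h : Har D β η) (s : ℝ) : Har D β (s • η) := by
  have e : ∀ k, (s • η) k = fun y => s • η k y := fun _ => rfl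
  have n := fun a k y => nab_csmul (e := D.F.e) (A := Rdc90.A0 β) a s (h.sm k y)
  refine ⟨⟨fun k y => SA.clm (s • ContinuousLinearMap.id ℝ _) (h.sm k y), fun k y => Submodule.smul_mem _ _ (h.mem k y),
    fun k y => ?_⟩, fun j k y => ?_, fun y => ?_⟩
  · simp only [e, smul_comm _ s, ← Finset.smul_sum, h.P]
  · simp only [Rdc90.ed, e, n, smul_comm _ s, ← Finset.smul_sum, ← smul_sub]
    exact smul_eq_zero_of_right _ (h.ed j k y)
  · simp only [Rdc90.dv1, e, n, smul_comm _ s, ← smul_add, ← Finset.smul_sum]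
    exact smul_eq_zero_of_right _ (h.dv y)

/-- the limits along a harmonic form are flat -/
theorem flt_har (hβ : Bs D β) {b : ℕ} (hp : Rf65.PY D b) {η : κ → Y → β.m.A} (h : Har D β η) :
    D.Adm (bh β η 0) ∧ Flt D (bh β η 0) := by
  obtain ⟨ν, ρ, S⟩ := hp.psc
  have : Subsingleton (Fin b) := Fin.subsingleton_iff_le_one.2 hp.b1
  exact ⟨Rd78.adm_bh hβ.adm h.toFo ⟨contMDiff_const, fun _ => map_zero _⟩,
    Rd78.flt_bh hβ.ok hβ.adm hβ.flat 0 h.toFo fun j k y => by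
      rw [Rdc90.By, h.ed, Rd78.hc _ _ _ _ D β hβ _ ν ρ S η h, add_zero]⟩

end flat

open M Cht98 Rf65 Pte3

variable {Wi : Type} {X : Mf 4} {A κ lam : Type} [Fintype A] [Fintype κ] [Fintype lam]
  [DecidableEq lam] {M : Mark X A κ} {W : World M} {N : ML M lam} {Λ : Lns W N}
  {A' h : Type} [Fintype A'] [DecidableEq A'] [Fintype h] {r n : ℕ}
  {J : Job Wi Λ A' h r n} {c : M.Cl} {σ : Cel A'} {p : Prt A A' h} {U : Type} [Fintype U] {δ : ℝ}
  {b : Bp J c} {E : EC b p U δ}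

theorem jl_of (H : PG J c σ p) (hb : J.Ov σ c b.s) : JL J σ (b.F p U δ) (b.θ p U) :=
  ⟨H.ok, H.mem, rfl, fun _ _ => rfl, fun _ => H.ov hb, (sm_θ b).contDiffOn⟩

/-- **P-SM** for flat slices -/
theorem smU (H : PG J c σ p) (hJ : PJ J c) (hb : J.Ov σ c b.s) (eo : E.OK) (hδ : δ ≤ 1 / 16)
    (h0 : E.o.Φ0 = 0) (hf : ∀ i ∈ EdP c p.P, ∀ t ∈ (b.F p U δ).Q,
      Flt (J.xs i.1).D ((en E i).sl E.o (E.R + 1) t)) : SmC E := by
  have L := jl_of (U := U) (δ := δ) H hb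
  let Y := H.ends U b eo.d0 eo.d1
  have hy := hy_ends E.o Y
  have ng : ∀ {τ : Tq p U → PtX (W.Z c).M (Option κ) (lam ⊕ lam) r n (min r 1)}, E.o.Sm τ →
      E.o.Sm (-τ) := fun k => mem_SmS.1 (neg_mem (mem_SmS.2 k))
  refine ⟨?_, fun w => ng (L.smwp hy h0 w fun a k => congrFun (hJ.nil a k).2 w), fun i w =>
    L.rcp hy h0 (by norm_num) (fun _ ht => H.cut_ok hb ht i) i w⟩
  have a := ((aff_ends (r := r) (n := n) (m := min r 1) Y ⟨eo.R5, eo.lit⟩ h0 fun i k =>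
    hf i ((H.act_iff _ _).1 k)).add Y.ok (ng (L.sm0p hy h0 (wf_ends Y hδ) fun a k =>
      (hJ.nil a k).1))).add Y.ok (sm_nrm E.o)
  rwa [← sub_eq_add_neg] at a

/-- the slices of a chart with flat base points are flat -/
theorem flt_sl (H : PG J c σ p) (hJ : PJ J c) (eo : E.OK) {i : Ed c} (hi : i ∈ EdP c p.P)
    (hβ : Bs (J.xs i.1).D (E.β i)) {t : Tq p U} (ht : t ∈ (b.F p U δ).Q) :
    Flt (J.xs i.1).D ((en E i).sl E.o (E.R + 1) t) := by
  have a : (J.xs i.1).D.Adm (E.lim i t) ∧ Flt (J.xs i.1).D (E.lim i t) := by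
    by_cases e : E.μ i = none
    · rw [EC.lim, EC.lm, e, Option.elim_none, zero_smul, Rd78.bh_zero]
      exact ⟨hβ.adm, hβ.flat⟩
    · exact flt_har hβ (hJ.py _ i.1.2).choose_spec (har_smul (eo.har i hi e).2.1 _)
  exact flt_eqv hβ.ok a.1 ((eo.lit i).adm (H.fam eo.d0 eo.d1) ((H.ends U b eo.d0 eo.d1).okP i)
    eo.R5 ht) (eo.mov i hi t ht) a.2

variable (J c) in
/-- **LEAF P-SM** -/
theorem smP : SmP J c := fun _ hJ => ⟨1 / 16, by norm_num, fun _ hδ _ _ _ _ _ H _ _ _ g =>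
  have k : PG J c _ _ := ⟨H.ok, H.mem, H.pok⟩
  smU k hJ g.ov g.ok (g.le.trans hδ.2) g.z fun i hi _ => flt_sl k hJ g.ok hi (g.bs i hi)⟩

end Crest.Agent.X212.Mon62
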