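import Crest.Agent.X212.Mon62.UC
import Crest.Agent.X212.Mon62.Res
import Crest.Agent.X212.Sob92.Ev
import Crest.Agent.X212.Prm93.H
import Crest.Agent.X212.Ell97.Fo

/-! # Row 212, WORDH: families of functions that extend smoothly to a Banach model -/

set_option autoImplicit false
set_option linter.unusedSectionVars false
set_option maxSynthPendingDepth 3
noncomputable section
open scoped Manifold ContDiff Topology InnerProductSpace
open MeasureTheory Set Function Filter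

namespace Crest.Agent.X212.Mon62
open An Sob92 Prm93
open Ell97 (UB)

variable {E : Type} [NormedAddCommGroup E] [NormedSpace ℝ E] [FiniteDimensional ℝ E]
  [MeasurableSpace E] [BorelSpace E]
  {HM : Type} [TopologicalSpace HM] {I : ModelWithCorners ℝ E HM}
  {M : Type} [TopologicalSpace M] [ChartedSpace HM M] [IsManifold I ∞ M]
  [MeasurableSpace M] [T2Space M] [BorelSpace M] [SecondCountableTopology M] {ι : Type} [Fintype ι]
  {J : Type} {X Y : J → Type} [∀ i, NormedAddCommGroup (X i)] [∀ i, NormedSpace ℝ (X i)]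
  {N N' N'' : Type} [NormedAddCommGroup N] [NormedSpace ℝ N] [NormedAddCommGroup N']
  [NormedSpace ℝ N'] [NormedAddCommGroup N''] [NormedSpace ℝ N'']
  {U V W : Type} [NormedAddCommGroup U] [InnerProductSpace ℝ U]
  [NormedAddCommGroup V] [InnerProductSpace ℝ V] [NormedAddCommGroup W] [InnerProductSpace ℝ W]

variable (I M ι X Y) in
/-- Banach models `X i` with smooth points `Y i` and Sobolev frames `F i` -/
structure Dm extends Rg X where
  F : J → Fr I M ι
  C : ℕ → ℝ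
  tame : ∀ i, (F i).Tame C
  pt : ∀ i, Y i → X i
  y₀ : ∀ i, Y i
  mem : ∀ i y, pt i y ∈ U i
  dns : ∀ i, U i ⊆ closure (range (pt i))
  base : ∀ i, pt i (y₀ i) ∈ B i

namespace Dm
variable (D : Dm I M ι X Y)

abbrev P (i : J) : Pre I M ι := (D.F i).toPre
variable (V) in
abbrev H (j : ℕ) (i : J) : Type := HT (D.P i) V j
abbrev vl {j : ℕ} {i : J} (h : D.H V j i) : M → V := (D.P i).val j (triv M V) h

theorem sup (i : J) : Sup (D.P i) (D.C 0) := Sup.of_tame (D.tame i)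

/-- `Cb` at all smooth points, uniformly at the base points -/
structure Sz (w : ∀ i, Y i → M → N) : Prop where
  cb : ∀ i y, (D.P i).Cb (w i y)
  ub : UB D.P fun i => w i (D.y₀ i)

/-- `w = b + val δ` with `δ` smooth into `L²_j`; pure (`b = 0`) if `ε` -/
structure A0 (ε : Prop) (j : ℕ) (w : ∀ i, Y i → M → V) : Prop where
  sz : D.Sz w
  ex : ∃ (b : J → M → V) (δ : ∀ i, X i → D.H V j i), UB D.P b ∧ (ε → ∀ i x, b i x = 0) ∧
    UC D.toRg δ ∧ ∀ i y x, w i y x = b i x + D.vl (δ i (D.pt i y)) x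

/-- scalars that extend smoothly -/
def Sc (c : ∀ i, Y i → N) : Prop :=
  ∃ γ : ∀ i, X i → N, UC D.toRg γ ∧ ∀ i y, c i y = γ i (D.pt i y)

/-- smooth families of `Cb` functions -/
structure US (f : ∀ i, X i → M → N) : Prop where
  cb : ∀ i, ∀ x ∈ D.U i, (D.P i).Cb (f i x)
  uc : ∀ k, UC D.toRg fun i x => toB (D.P i) k (f i x)

variable {D}

theorem _root_.Crest.Agent.X212.Ell97.UB.cb {F : J → Pre I M ι} {f : J → M → N} (h : UB F f)
    (i : J) : (F i).Cb (f i) := let ⟨C, h⟩ := h; ⟨C, h i⟩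

theorem ub_const {F : J → Pre I M ι} {c : J → N} (h : Bv c) : UB F fun i _ => c i :=
  let ⟨K, hK⟩ := h; ⟨fun _ => K, fun i => ⟨contMDiff_const, fun k => CB_mono (CB_const k _) (hK i)⟩⟩

theorem ub_of_finite [Finite J] {F : J → Pre I M ι} {f : J → M → N} (h : ∀ i, (F i).Cb (f i)) :
    UB F f := by
  choose C hC using h
  choose L hL using fun k => (finite_range fun i => C i k).bddAbove
  exact ⟨L, fun i => Ell97.CBs_mono (hC i) fun k => hL k (mem_range_self i)⟩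

namespace Sz
variable {w w' : ∀ i, Y i → M → N} {v : ∀ i, Y i → M → N'}

theorem sm (h : D.Sz w) (i : J) (y : Y i) : Sm I (w i y) := Cb.sm (h.cb i y)

theorem congr (h : D.Sz w) (e : ∀ i y x, w' i y x = w i y x) : D.Sz w' := by
  obtain rfl : w' = w := funext fun i => funext fun y => funext (e i y)
  exact h

theorem fixed {b : J → M → N} (h : UB D.P b) : D.Sz fun i _ => b i := ⟨fun i _ => h.cb i, h⟩

theorem add (h : D.Sz w) (h' : D.Sz w') : D.Sz fun i y x => w i y x + w' i y x :=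
  ⟨fun i y => Cb_add (h.cb i y) (h'.cb i y), h.ub.add h'.ub⟩

theorem bil (β : N →L[ℝ] N' →L[ℝ] N'') (h : D.Sz w) (h' : D.Sz v) :
    D.Sz fun i y x => β (w i y x) (v i y x) :=
  ⟨fun i y => Cb_bil β (h.cb i y) (h'.cb i y), h.ub.bil β h'.ub⟩

theorem clm (L : N →L[ℝ] N') (h : D.Sz w) : D.Sz fun i y x => L (w i y x) :=
  ⟨fun i y => Cb_clm L (h.cb i y), h.ub.clm L⟩

theorem app {f : J → M → N →L[ℝ] N'} (hf : UB D.P f) (h : D.Sz w) :
    D.Sz fun i y x => f i x (w i y x) := (fixed hf).bil (ContinuousLinearMap.id ℝ _) h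

theorem dD (h : D.Sz w) (a : ι) : D.Sz fun i y => (D.P i).D a (w i y) :=
  ⟨fun i y => Cb_D (h.cb i y) a, h.ub.D a⟩

end Sz

/-! ### bounded families of operators -/

theorem bv_mulH {f : J → M → V →L[ℝ] W} (hf : UB D.P f) (k : ℕ) :
    Bv fun i => (D.P i).mulH k (triv M V) (triv M W) (f i) :=
  let ⟨_, h⟩ := hf; ⟨_, fun i => norm_mulH_le (h i).1 ((h i).2 k) (Maps.triv _)⟩

theorem bv_ic {k j : ℕ} (h : j ≤ k) : Bv fun i => ic (D.P i) V k j :=
  ⟨1, fun _ => (rep_incl' h).2⟩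

theorem bv_DH (k : ℕ) (a : ι) : Bv fun i => DH (D.P i) k (triv M V) a :=
  ⟨1, fun _ => (rep_DH' a).2⟩

theorem bv_bilH {k j l : ℕ} (h : Lev k j l) (β : V →L[ℝ] W →L[ℝ] U) :
    Bv fun i => (D.P i).bilH k j (triv M V) (triv M W) (triv M U) l fun _ => β :=
  ⟨_, fun i => (rep_bilH' (D.sup i) h contMDiff_const (CB_const k β) (Maps₂.triv _)).2⟩

theorem bv_mulB (k : ℕ) : Bv fun i => mulB (W := W) (D.P i) k (triv M V) :=
  ⟨cK ι k, fun _ => LinearMap.mkContinuous_norm_le _ (cK_nonneg k) _⟩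

theorem bv_clm (k : ℕ) (L : N →L[ℝ] N') : Bv fun i => (B.clm L : B (D.P i) k N →L[ℝ] _) :=
  ⟨‖L‖, fun _ => ContinuousLinearMap.opNorm_le_bound _ (norm_nonneg L) fun f =>
    (B.norm_le (by positivity)).2 (CB_clm L f.sm f.CB)⟩

theorem UC.bv {Z : J → Type} [∀ i, NormedAddCommGroup (Z i)] [∀ i, NormedSpace ℝ (Z i)]
    {f : ∀ i, X i → Z i} (h : UC D.toRg f) : Bv fun i => f i (D.pt i (D.y₀ i)) :=
  let ⟨K, hK⟩ := h.bd0; ⟨K, fun i => hK i _ (D.base i)⟩

namespace US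
variable {f : ∀ i, X i → M → N}

theorem fixed {b : J → M → N} (h : UB D.P b) : D.US fun i _ => b i :=
  ⟨fun i _ _ => h.cb i, fun k => UC.const (let ⟨C, hC⟩ := h; ⟨|C k|, fun i =>
    (B.norm_le (abs_nonneg _)).2 (by rw [fn_toB ⟨C, hC i⟩]; exact CB_abs ((hC i).2 k))⟩)⟩

theorem of_sb [Finite J] (hB : ∀ i, IsCompact (D.B i)) (h : ∀ i, SB (D.P i) (D.U i) (f i)) :
    D.US f := ⟨fun i => (h i).cb, fun k => UC.of_compact hB fun i => (h i).sm k⟩

theorem sz (h : D.US f) : D.Sz fun i y => f i (D.pt i y) := by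
  refine ⟨fun i y => h.cb i _ (D.mem i y), ?_⟩
  choose K hK using fun k => UC.bv (h.uc k)
  refine ⟨K, fun i => ⟨Cb.sm (h.cb i _ (D.mem i _)), fun k => ?_⟩⟩
  have := CB_mono (B.CB _) (hK k i)
  rwa [fn_toB (h.cb i _ (D.mem i _))] at this

theorem clm (L : N →L[ℝ] N') (h : D.US f) : D.US fun i x z => L (f i x z) :=
  ⟨fun i x hx => Cb_clm L (h.cb i x hx), fun k => ((h.uc k).clm (bv_clm k L)).congr fun i x hx =>
    (eq_toB (by rw [B.fn_clm, fn_toB (h.cb i x hx)])).symm⟩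

theorem mulH {f : ∀ i, X i → M → V →L[ℝ] W} (h : D.US f) (k : ℕ) :
    UC D.toRg fun i x => (D.P i).mulH k (triv M V) (triv M W) (f i x) :=
  ((h.uc k).clm (bv_mulB k)).congr fun i x hx => by rw [mulB_apply, fn_toB (h.cb i x hx)]

theorem smulH {f : ∀ i, X i → M → ℝ} (h : D.US f) (k : ℕ) :
    UC D.toRg fun i x => smulH (D.P i) k (triv M V) (f i x) :=
  (h.clm ((ContinuousLinearMap.id ℝ ℝ).smulRight (ContinuousLinearMap.id ℝ V))).mulH k

end US

namespace A0
variable {ε ε' : Prop} {k j l : ℕ} {w w' : ∀ i, Y i → M → V} {v : ∀ i, Y i → M → W}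

theorem congr (h : D.A0 ε j w) (e : ∀ i y x, w' i y x = w i y x) : D.A0 ε j w' := by
  obtain rfl : w' = w := funext fun i => funext fun y => funext (e i y)
  exact h

theorem imp (h : D.A0 ε j w) (e : ε' → ε) : D.A0 ε' j w :=
  let ⟨b, δ, h1, h2, h3⟩ := h.ex; ⟨h.sz, b, δ, h1, fun h' => h2 (e h'), h3⟩

theorem aff (h : D.A0 ε j w) : D.A0 False j w := h.imp False.elim

theorem fixed {b : J → M → V} (h : UB D.P b) : D.A0 False j fun i _ => b i :=
  ⟨Sz.fixed h, b, fun _ _ => 0, h, False.elim, UC.zero, fun _ _ _ => by simp [val_zero]⟩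

theorem zero : D.A0 ε j fun _ _ _ => (0 : V) :=
  ⟨Sz.fixed (UB.const 0), fun _ _ => 0, fun _ _ => 0, UB.const 0, fun _ _ _ => rfl, UC.zero,
    fun _ _ _ => by simp [val_zero]⟩

/-- the pure form -/
theorem pure (h : D.A0 True j w) : ∃ δ : ∀ i, X i → D.H V j i, UC D.toRg δ ∧
    ∀ i y, w i y = D.vl (δ i (D.pt i y)) :=
  let ⟨_, δ, _, h2, h3, h4⟩ := h.ex
  ⟨δ, h3, fun i y => funext fun x => by rw [h4, h2 trivial, zero_add]⟩

theorem of_pure (hs : D.Sz w) {δ : ∀ i, X i → D.H V j i} (h : UC D.toRg δ)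
    (e : ∀ i y x, w i y x = D.vl (δ i (D.pt i y)) x) : D.A0 ε j w :=
  ⟨hs, fun _ _ => 0, δ, UB.const 0, fun _ _ _ => rfl, h, fun i y x => by rw [zero_add, e]⟩

/-- the base point as the base -/
theorem rebase (h : D.A0 ε j w) : ∃ δ : ∀ i, X i → D.H V j i, UC D.toRg δ ∧
    ∀ i y x, w i y x = w i (D.y₀ i) x + D.vl (δ i (D.pt i y)) x := by
  obtain ⟨b, δ, -, -, h3, h4⟩ := h.ex
  refine ⟨fun i x => δ i x - δ i (D.pt i (D.y₀ i)), h3.sub (UC.const (UC.bv h3)), fun i y x => ?_⟩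
  simp only [h4, vl, val_sub, Pi.sub_apply]; abel

theorem add (h : D.A0 ε j w) (h' : D.A0 ε j w') : D.A0 ε j fun i y x => w i y x + w' i y x := by
  obtain ⟨b, δ, h1, h2, h3, h4⟩ := h.ex
  obtain ⟨b', δ', k1, k2, k3, k4⟩ := h'.ex
  refine ⟨h.sz.add h'.sz, _, _, h1.add k1, fun e i x => by rw [h2 e, k2 e, add_zero], h3.add k3,
    fun i y x => ?_⟩
  simp only [h4, k4, vl, val_add, Pi.add_apply]; abel

theorem fsum {κ : Type*} (s : Finset κ) {u : κ → ∀ i, Y i → M → V} (h : ∀ k ∈ s, D.A0 ε j (u k)) :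
    D.A0 ε j fun i y x => ∑ k ∈ s, u k i y x := by
  classical
  induction s using Finset.induction_on with
  | empty => exact zero.congr fun _ _ _ => Finset.sum_empty
  | insert a s ha ih =>
    exact ((h a (Finset.mem_insert_self a s)).add
      (ih fun k hk => h k (Finset.mem_insert_of_mem hk))).congr fun _ _ _ => Finset.sum_insert ha

/-- a family that vanishes at the base points is pure -/
theorem pure_of_base (h : D.A0 ε j w) (h0 : D.A0 True j fun i _ => w i (D.y₀ i)) :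
    D.A0 ε' j w := by
  obtain ⟨δ, h1, h2⟩ := h.rebase
  obtain ⟨δ', k1, k2⟩ := h0.pure
  refine of_pure h.sz (k1.add h1) fun i y x => ?_
  rw [h2, k2 i y]; simp only [vl, val_add, Pi.add_apply]

theorem smulc {c : ∀ i, Y i → ℝ} (hc : D.Sc c) (h : D.A0 True j w) :
    D.A0 ε j fun i y x => c i y • w i y x := by
  obtain ⟨γ, g1, g2⟩ := hc
  obtain ⟨δ, h1, h2⟩ := h.pure
  refine of_pure ⟨fun i y => Cb_smul (Cb_const _) (h.sz.cb i y), UB.smul (ub_const ?_) h.sz.ub⟩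
    (g1.smul h1) fun i y x => ?_
  · simp only [g2]; exact UC.bv g1
  · rw [g2, h2]; simp only [vl, val_smul, Pi.smul_apply]

variable [CompleteSpace U] [CompleteSpace V] [CompleteSpace W]

theorem of_hcs (hj : 4 ≤ j) {b : J → M → V} (h : UB D.P b) (hc : ∀ i, HasCompactSupport (b i))
    (hn : ∃ K, ∀ i, (D.P i).nrm j (b i) ≤ K) : D.A0 ε j fun i _ => b i :=
  of_pure (Sz.fixed h) (δ := fun i _ => (D.P i).toH j _ ⟨b i, mem_triv (h.sm i) (hc i)⟩)
    (UC.const (let ⟨K, hK⟩ := hn; ⟨K, fun i => by rw [Pre.norm_toH]; exact hK i⟩))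
    fun i _ x => by rw [vl, val_toH (D.sup i) hj]

theorem app (hj : 4 ≤ j) {f : J → M → V →L[ℝ] W} (hf : UB D.P f) (h : D.A0 ε j w) :
    D.A0 ε j fun i y x => f i x (w i y x) := by
  obtain ⟨b, δ, h1, h2, h3, h4⟩ := h.ex
  refine ⟨h.sz.app hf, _, _, hf.bil (ContinuousLinearMap.id ℝ _) h1,
    fun e i x => by simp [h2 e], h3.clm (bv_mulH hf j), fun i y x => ?_⟩
  rw [h4, map_add, vl, vl, val_mulH (D.sup i) hj (hf.cb i) (Maps.triv _)]; rfl

theorem clm (hj : 4 ≤ j) (L : V →L[ℝ] W) (h : D.A0 ε j w) : D.A0 ε j fun i y x => L (w i y x) :=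
  h.app hj (UB.const L)

theorem lower (hl : 4 ≤ l) (hj : l ≤ j) (h : D.A0 ε j w) : D.A0 ε l w := by
  obtain ⟨b, δ, h1, h2, h3, h4⟩ := h.ex
  exact ⟨h.sz, b, _, h1, h2, h3.clm (bv_ic hj), fun i y x => by
    rw [h4, vl, vl, val_incl (D.sup i) hl hj]⟩

theorem bil (β : V →L[ℝ] W →L[ℝ] U) (hL : Lev k j l) (hl : 4 ≤ l) (h : D.A0 ε k w)
    (h' : D.A0 ε' j v) : D.A0 (ε ∨ ε') l fun i y x => β (w i y x) (v i y x) := by
  obtain ⟨b, δ, h1, h2, h3, h4⟩ := h.ex
  obtain ⟨b', δ', k1, k2, k3, k4⟩ := h'.ex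
  have m1 := h1.clm β
  have m2 := k1.clm β.flip
  refine ⟨h.sz.bil β h'.sz, _, _, h1.bil β k1, fun e i x => ?_,
    (((k3.clm (bv_mulH m1 j)).clm (bv_ic hL.2.1)).add ((h3.clm (bv_mulH m2 k)).clm
      (bv_ic hL.1))).add (UC.bil (bv_bilH hL β) h3 k3), fun i y x => ?_⟩
  · rcases e with e | e
    · simp [h2 e]
    · simp [k2 e]
  · simp only [h4, k4, vl, val_add, Pi.add_apply, map_add, add_apply,
      val_incl (D.sup i) hl hL.1, val_incl (D.sup i) hl hL.2.1,
      val_mulH (D.sup i) (hl.trans hL.1) (m2.cb i) (Maps.triv _),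
      val_mulH (D.sup i) (hl.trans hL.2.1) (m1.cb i) (Maps.triv _),
      val_bilH (D.sup i) hL hl (Cb_const β) (Maps₂.triv _), ContinuousLinearMap.flip_apply]
    abel

/-- multipliers -/
theorem mult (β : U →L[ℝ] V →L[ℝ] W) (hj : 7 ≤ j) (hl : 4 ≤ l) (hlj : l ≤ j)
    {a : ∀ i, Y i → M → U} (h : D.A0 ε j a) :
    ∃ T : ∀ i, X i → D.H V l i →L[ℝ] D.H W l i, UC D.toRg T ∧
      ∀ i y, T i (D.pt i y) = (D.P i).mulH l _ _ fun x => β (a i y x) := by
  obtain ⟨b, δ, h1, -, h3, h4⟩ := h.ex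
  have m1 := h1.clm β
  have hL := Lev.left hj hlj
  refine ⟨_, (UC.const (bv_mulH m1 l)).add (h3.clm (bv_bilH hL β)), fun i y => ?_⟩
  ext u
  refine val_injective (D.sup i) hl (funext fun x => ?_)
  rw [val_mulH (D.sup i) hl (Cb_clm β (h.sz.cb i y)) (Maps.triv _), add_apply, val_add,
    Pi.add_apply, val_mulH (D.sup i) hl (m1.cb i) (Maps.triv _),
    val_bilH (D.sup i) hL hl (Cb_const β) (Maps₂.triv _), h4, map_add, add_apply]

/-- families of `Cb` functions that vary only where `χ = 1` -/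
theorem loc (hj : 4 ≤ j) {f : ∀ i, X i → M → V} (h : D.US f) {χ : J → M → ℝ}
    (hχ : D.A0 True j fun i _ => χ i)
    (h1 : ∀ i y x, χ i x • (f i (D.pt i y) x - f i (D.pt i (D.y₀ i)) x) =
      f i (D.pt i y) x - f i (D.pt i (D.y₀ i)) x) : D.A0 False j fun i y => f i (D.pt i y) := by
  obtain ⟨δ, k1, k2⟩ := hχ.pure
  have h2 := h.clm (ContinuousLinearMap.smulRightL ℝ ℝ V (ContinuousLinearMap.id ℝ ℝ))
  have h3 := (h2.mulH j).app (UC.const (UC.bv k1))
  refine ⟨h.sz, _, _, h.sz.ub, False.elim, h3.sub (UC.const (UC.bv h3)), fun i y x => ?_⟩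
  rw [vl, val_sub, Pi.sub_apply, val_mulH (D.sup i) hj (h2.cb i _ (D.mem i _)) (Maps.triv _),
    val_mulH (D.sup i) hj (h2.cb i _ (D.mem i _)) (Maps.triv _), ← vl, ← k2 i (D.y₀ i)]
  have := h1 i y x
  simp only [smul_sub] at this
  simp [this]

/-- products of a smooth family of `Cb` functions with a pure family -/
theorem us_smul (hj : 4 ≤ j) {f : ∀ i, X i → M → ℝ} (hf : D.US f) (h : D.A0 True j w) :
    D.A0 ε j fun i y x => f i (D.pt i y) x • w i y x := by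
  obtain ⟨δ, h1, h2⟩ := h.pure
  exact of_pure (hf.sz.bil (ContinuousLinearMap.lsmul ℝ ℝ) h.sz) ((hf.smulH j).app h1)
    fun i y x => by rw [vl, val_smulH (D.sup i) hj (hf.cb i _ (D.mem i _)), h2]

/-- integrals against an integrable weight -/
theorem integral [CompleteSpace N'] (β : N →L[ℝ] V →L[ℝ] N') (hj : 4 ≤ j) (h : D.A0 ε j w)
    {s : J → M → N} (hs : ∀ i, Continuous (s i)) (hc : ∀ i, HasCompactSupport (s i))
    (hn : ∃ K, ∀ i, ∫ x, ‖s i x‖ ∂(D.P i).μ ≤ K) :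
    D.Sc fun i y => ∫ x, β (s i x) (w i y x) ∂(D.P i).μ := by
  obtain ⟨b, δ, ⟨C, h1⟩, -, h3, h4⟩ := h.ex
  obtain ⟨K, hK⟩ := hn
  have hi : ∀ i {u : M → V}, Continuous u → Integrable (fun x => β (s i x) (u x)) (D.P i).μ :=
    fun i u hu => ((β.continuous.comp (hs i)).clm_apply hu).integrable_of_hasCompactSupport
      (hcs_bil_left β u (hc i))
  have hb : ∀ i {u : M → V} {c : ℝ}, 0 ≤ c → (∀ x, ‖u x‖ ≤ c) →
      ‖∫ x, β (s i x) (u x) ∂(D.P i).μ‖ ≤ ‖β‖ * K * c := fun i u c h0 hu => by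
    refine (norm_integral_le_of_norm_le ((((hs i).norm.integrable_of_hasCompactSupport
      (hc i).norm).const_mul ‖β‖).mul_const c) (.of_forall fun x => (β.le_opNorm₂ _ _).trans
        (mul_le_mul_of_nonneg_left (hu x) (by positivity)))).trans ?_
    rw [integral_mul_const, integral_const_mul]
    gcongr
    exact hK i
  have cv := fun i (u : D.H V j i) => continuous_val (D.sup i) hj u
  let L : ∀ i, D.H V j i →L[ℝ] N' := fun i => LinearMap.mkContinuous
    { toFun := fun u => ∫ x, β (s i x) (D.vl u x) ∂(D.P i).μ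
      map_add' := fun u v => by
        rw [← integral_add (hi i (cv i u)) (hi i (cv i v))]
        simp only [vl, val_add, Pi.add_apply, map_add]
      map_smul' := fun c u => by
        simp only [vl, val_smul, Pi.smul_apply, map_smul, integral_smul, RingHom.id_apply] }
    (‖β‖ * K * √|D.C 0|) fun u => by
      rw [mul_assoc (‖β‖ * K)]
      exact hb i (by positivity) (norm_val_le (D.sup i) hj u)
  have hL : Bv L := ⟨_, fun i => LinearMap.mkContinuous_norm_le' _ _⟩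
  refine ⟨_, (UC.const (c := fun i => ∫ x, β (s i x) (b i x) ∂(D.P i).μ) ⟨_, fun i =>
    hb i (abs_nonneg (C 0)) (CB_bound (CB_abs ((h1 i).2 0)))⟩).add (h3.clm hL), fun i y => ?_⟩
  simp only [h4, map_add]
  exact integral_add (hi i (h1 i).1.continuous) (hi i (cv i _))

variable [I.Boundaryless]

theorem dD (hj : 4 ≤ j) (h : D.A0 ε (j + 1) w) (a : ι) :
    D.A0 ε j fun i y => (D.P i).D a (w i y) := by
  obtain ⟨b, δ, h1, h2, h3, h4⟩ := h.ex
  refine ⟨h.sz.dD a, _, _, h1.D a, fun e i x => ?_, h3.clm (bv_DH j a), fun i y x => ?_⟩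
  · rw [show b i = fun _ => 0 from funext (h2 e i)]; simp [Pre.D]
  · obtain ⟨m1, m2⟩ := val_DH (D.sup i) hj (δ i (D.pt i y))
    rw [show w i y = b i + D.vl (δ i (D.pt i y)) from funext (h4 i y), vl, vl, ← m2]
    exact dv_add ((h1.sm i).mdifferentiableAt (by simp)) (m1 x)

end A0

end Dm

end Crest.Agent.X212.Mon62
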