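import Crest.Agent.X212.Mon62.NkE
import Crest.Agent.X212.Nka63.A
import Crest.Agent.X212.Nk89.Wt
import Crest.Agent.X212.Sob92.Fun

/-! # Row 212, NK-SM: window integrals act on the families of the calculus -/

set_option autoImplicit false
set_option linter.unusedSectionVars false
set_option maxSynthPendingDepth 3
noncomputable section
open scoped Manifold ContDiff Topology InnerProductSpace ENNReal
open MeasureTheory Set Function Filter Real

namespace Crest.Agent.X212.Mon62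
open An Sob92 Prm93 Wz78 Dgr80
open Ell97 (UB)
open Nk89 (wm)

section schur
variable {M : Type*} [MeasurableSpace M] {ν : Measure M}

theorem sq_lintegral_le {κ f : M → ℝ≥0∞} (hκ : Measurable κ) (hf : Measurable f) :
    (∫⁻ z, κ z * f z ∂ν) ^ 2 ≤ (∫⁻ z, κ z ∂ν) * ∫⁻ z, κ z * f z ^ 2 ∂ν := by
  have h := ENNReal.lintegral_mul_le_Lp_mul_Lq (ν.withDensity κ) Real.HolderConjugate.two_two
    (f := fun _ => 1) (g := f) aemeasurable_const hf.aemeasurable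
  simp only [Pi.mul_apply, one_mul, ENNReal.rpow_two] at h
  rw [lintegral_withDensity_eq_lintegral_mul _ hκ hf, lintegral_withDensity_eq_lintegral_mul _ hκ
    (hf.pow_const 2), lintegral_withDensity_eq_lintegral_mul _ hκ measurable_const,
    ← ENNReal.mul_rpow_of_nonneg _ _ (by norm_num)] at h
  refine (pow_le_pow_left' h 2).trans_eq ?_
  rw [← ENNReal.rpow_two, ← ENNReal.rpow_mul]
  simp

/-- the Schur test -/
theorem schur [SFinite ν] {κ : M → M → ℝ≥0∞} (hκ : Measurable (uncurry κ)) {A : ℝ≥0∞}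
    (h1 : ∀ x, ∫⁻ z, κ x z ∂ν ≤ A) (h2 : ∀ z, ∫⁻ x, κ x z ∂ν ≤ A) {f : M → ℝ≥0∞}
    (hf : Measurable f) : ∫⁻ x, (∫⁻ z, κ x z * f z ∂ν) ^ 2 ∂ν ≤ A ^ 2 * ∫⁻ z, f z ^ 2 ∂ν := by
  have hm : Measurable (uncurry fun x z => κ x z * f z ^ 2) :=
    hκ.mul ((hf.pow_const 2).comp measurable_snd)
  calc _ ≤ ∫⁻ x, A * ∫⁻ z, κ x z * f z ^ 2 ∂ν ∂ν := lintegral_mono fun x =>
        (sq_lintegral_le hκ.of_uncurry_left hf).trans (mul_le_mul_left (h1 x) _)
    _ = A * ∫⁻ z, ∫⁻ x, κ x z * f z ^ 2 ∂ν ∂ν := by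
        rw [lintegral_const_mul _ hm.lintegral_prod_right, lintegral_lintegral_swap hm.aemeasurable]
    _ ≤ A * ∫⁻ z, A * f z ^ 2 ∂ν := mul_le_mul_right (lintegral_mono fun z => by
        rw [lintegral_mul_const _ hκ.of_uncurry_right]; exact mul_le_mul_left (h2 z) _) _
    _ = _ := by rw [lintegral_const_mul _ (hf.pow_const 2), ← mul_assoc, sq A]

theorem memLp_of_lint {μ : Measure M} {a g : M → ℝ} {K : ℝ} (hK : 0 ≤ K)
    (ha : AEStronglyMeasurable a ν) (hg : MemLp g 2 μ)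
    (h : ∫⁻ x, ENNReal.ofReal (‖a x‖ ^ 2) ∂ν ≤
      ENNReal.ofReal K * ∫⁻ x, ENNReal.ofReal (‖g x‖ ^ 2) ∂μ) :
    MemLp a 2 ν ∧ ∫ x, ‖a x‖ ^ 2 ∂ν ≤ K * ∫ x, ‖g x‖ ^ 2 ∂μ := by
  have h0 : 0 ≤ ∫ x, ‖g x‖ ^ 2 ∂μ := integral_nonneg fun _ => by positivity
  rw [← ofReal_integral_eq_lintegral_ofReal (int_sq hg) (.of_forall fun _ => by positivity),
    ← ENNReal.ofReal_mul hK] at h
  have hi : Integrable (fun x => ‖a x‖ ^ 2) ν := ⟨ha.norm.pow 2,
    (hasFiniteIntegral_iff_ofReal (.of_forall fun _ => by positivity)).2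
      (h.trans_lt ENNReal.ofReal_lt_top)⟩
  refine ⟨(memLp_two_iff_integrable_sq_norm ha).2 hi, ?_⟩
  rwa [← ofReal_integral_eq_lintegral_ofReal hi (.of_forall fun _ => by positivity),
    ENNReal.ofReal_le_ofReal_iff (by positivity)] at h

end schur

variable {E : Type} [NormedAddCommGroup E] [NormedSpace ℝ E] [FiniteDimensional ℝ E]
  [MeasurableSpace E] [BorelSpace E]
  {HM : Type} [TopologicalSpace HM] {I : ModelWithCorners ℝ E HM}
  {M : Type} [TopologicalSpace M] [ChartedSpace HM M] [IsManifold I ∞ M]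
  [MeasurableSpace M] [T2Space M] [BorelSpace M] [SecondCountableTopology M] {ι : Type} [Fintype ι]
  {J : Type} {X Y : J → Type} [∀ i, NormedAddCommGroup (X i)] [∀ i, NormedSpace ℝ (X i)]

section one
variable {ν : Measure M} {τ ψ g : M → ℝ} {δ η C A c : ℝ} {S : Set M}

variable (ν τ) in
/-- volume growth along the time -/
def VG (η A : ℝ) : Prop :=
  ∀ t, Integrable (fun z => exp (-(η * |τ z - t|))) ν ∧ ∫ z, exp (-(η * |τ z - t|)) ∂ν ≤ A

theorem b_le_exp' (hδ : 0 < δ) (hη : η ≤ δ) (s : ℝ) : b δ s ≤ δ * exp (-(η * |s|)) :=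
  (b_le_exp hδ s).trans (by have := abs_nonneg s; gcongr)

theorem VG.wi (h : VG ν τ η A) (hδ : 0 < δ) (hη : η ≤ δ) (hτ : Continuous τ) (hg : Continuous g)
    (hc : ∀ x, ‖g x‖ ≤ c) : WI ν τ δ g ∧ ∀ t, wn ν τ δ (fun x => ‖g x‖) t ≤ δ * |c| * A := by
  have h1 : ∀ t x, ‖b δ (τ x - t) * ‖g x‖‖ ≤ δ * |c| * exp (-(η * |τ x - t|)) := fun t x => by
    rw [Real.norm_of_nonneg (mul_nonneg (b_pos hδ _).le (norm_nonneg _)), mul_right_comm]
    exact mul_le_mul (b_le_exp' hδ hη _) ((hc x).trans (le_abs_self c)) (norm_nonneg _)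
      (by positivity)
  refine ⟨⟨hτ.aestronglyMeasurable, hg.aestronglyMeasurable, ((h 0).1.const_mul (δ * |c|)).mono'
    (((continuous_b δ).comp hτ).mul hg.norm).aestronglyMeasurable
    (.of_forall fun x => by simpa only [sub_zero] using h1 0 x)⟩, fun t => ?_⟩
  refine (Real.le_norm_self _).trans ((norm_integral_le_of_norm_le ((h t).1.const_mul _)
    (.of_forall (h1 t))).trans ?_)
  rw [integral_const_mul]
  exact mul_le_mul_of_nonneg_left (h t).2 (by positivity)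

theorem VG.schur [SFinite ν] (h : VG ν τ η A) (hδ : 0 < δ) (hτ : Continuous τ)
    (hψ : Continuous ψ) (hS : ∀ᵐ x ∂ν, x ∈ S)
    (hs : ∀ x ∈ S, ∀ z ∈ S, ψ x - ψ z ≤ C + (δ - η) * |τ x - τ z|) (s : ℝ) (hg : Continuous g)
    (hw : WI ν τ δ g) :
    ∫⁻ x, ENNReal.ofReal (wn ν τ δ (fun x => ‖g x‖) (τ x + s) ^ 2) ∂wm ν ψ ≤
      ENNReal.ofReal ((δ * exp (δ * |s|) * exp C * A) ^ 2) *
        ∫⁻ x, ENNReal.ofReal (‖g x‖ ^ 2) ∂wm ν ψ := by
  set c := δ * exp (δ * |s|) * exp C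
  have hc : 0 ≤ c := by positivity
  have hA : 0 ≤ A := (integral_nonneg fun _ => (exp_pos _).le).trans (h 0).2
  have h1 : ∀ t, ∫⁻ z, ENNReal.ofReal (c * exp (-(η * |τ z - t|))) ∂ν ≤ ENNReal.ofReal (c * A) :=
    fun t => by
    rw [← ofReal_integral_eq_lintegral_ofReal ((h t).1.const_mul c)
      (.of_forall fun _ => by positivity), integral_const_mul]
    exact ENNReal.ofReal_le_ofReal (mul_le_mul_of_nonneg_left (h t).2 hc)
  have h2 := Mon62.schur (ν := ν) (κ := fun x z => ENNReal.ofReal (c * exp (-(η * |τ z - τ x|))))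
    (Continuous.measurable (f := fun p : M × M => c * exp (-(η * |τ p.2 - τ p.1|)))
      (by fun_prop)).ennreal_ofReal (fun x => h1 _)
    (fun z => by simpa only [abs_sub_comm (τ z)] using h1 (τ z))
    (f := fun z => ENNReal.ofReal (exp (ψ z) * ‖g z‖))
    (Continuous.measurable (by fun_prop)).ennreal_ofReal
  have h3 : ∀ {u : M → ℝ}, Continuous u → ∫⁻ x, ENNReal.ofReal (u x ^ 2) ∂wm ν ψ =
      ∫⁻ x, ENNReal.ofReal (exp (ψ x) * |u x|) ^ 2 ∂ν := fun {u} hu => by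
    rw [wm, lintegral_withDensity_eq_lintegral_mul _ (Nk89.meas_w hψ)
      (g := fun x => ENNReal.ofReal (u x ^ 2)) (hu.pow 2).measurable.ennreal_ofReal]
    refine lintegral_congr fun x => ?_
    rw [Pi.mul_apply, ← ENNReal.ofReal_mul (exp_pos _).le, ← ENNReal.ofReal_pow (by positivity),
      mul_pow, sq_abs, ← exp_nat_mul]
    rfl
  rw [h3 hg.norm, h3 (u := fun x => wn ν τ δ (fun x => ‖g x‖) (τ x + s))
    ((hw.norm.contDiff_wn hδ).continuous.comp (hτ.add continuous_const)),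
    ENNReal.ofReal_pow (by positivity)]
  simp only [abs_norm]
  refine (lintegral_mono_ae ?_).trans h2
  filter_upwards [hS] with x hx
  refine pow_le_pow_left' ?_ 2
  rw [abs_of_nonneg (wn_nonneg hδ (fun _ => norm_nonneg _) _), wn, ← integral_const_mul,
    ofReal_integral_eq_lintegral_ofReal ((hw.norm.int hδ _).const_mul _) (.of_forall fun z =>
      mul_nonneg (exp_pos _).le (mul_nonneg (b_pos hδ _).le (norm_nonneg _)))]
  refine lintegral_mono_ae ?_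
  filter_upwards [hS] with z hz
  rw [← ENNReal.ofReal_mul (by positivity), smul_eq_mul, ← mul_assoc, ← mul_assoc]
  refine ENNReal.ofReal_le_ofReal (mul_le_mul_of_nonneg_right ?_ (norm_nonneg _))
  refine (mul_le_mul_of_nonneg_left (b_le_exp hδ _) (exp_pos _).le).trans ?_
  have h4 := hs x hx z hz
  have h5 : |τ x - τ z| ≤ |τ z - (τ x + s)| + |s| := by
    rw [abs_sub_comm (τ x)]
    simpa [sub_add_eq_sub_sub] using abs_add_le (τ z - (τ x + s)) s
  simp only [c, mul_left_comm (exp (ψ x)), mul_assoc, ← exp_add, abs_sub_comm (τ z) (τ x)]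
  refine mul_le_mul_of_nonneg_left (exp_le_exp.2 ?_) hδ.le
  nlinarith

end one

/-- `L²_k` bounds for cut-off functions of the time -/
theorem n2_time {F : J → Pre I M ι} {τ : J → M → ℝ} {S : J → Set M} (hτ : ∀ i, Sm I (τ i))
    (dτ : ∀ a, UB F fun i => (F i).D a (τ i)) (hS : ∀ i, MeasurableSet (S i)) (c : ℕ → ℝ) (k : ℕ) :
    ∀ (m : ℕ) (θ : J → M → ℝ), UB F θ → (∀ i, tsupport (θ i) ⊆ S i) → ∃ K, ∀ i (a : ℕ → ℝ → ℝ) Q,
      0 ≤ Q → (∀ m, ContDiff ℝ ∞ (a m)) → (∀ m, deriv (a m) = a (m + 1)) →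
      (∀ m, MemLp (fun x => a m (τ i x)) 2 ((F i).μ.restrict (S i)) ∧
        ∫ x in S i, ‖a m (τ i x)‖ ^ 2 ∂(F i).μ ≤ c m * Q) →
      FL (F i) k (fun x => θ i x * a m (τ i x)) ∧
        N2 (F i) k (fun x => θ i x * a m (τ i x)) ≤ K * Q := by
  have h0 : ∀ (m : ℕ) (θ : J → M → ℝ), UB F θ → (∀ i, tsupport (θ i) ⊆ S i) → ∃ K, ∀ i
      (a : ℕ → ℝ → ℝ) Q, (∀ m, MemLp (fun x => a m (τ i x)) 2 ((F i).μ.restrict (S i)) ∧
        ∫ x in S i, ‖a m (τ i x)‖ ^ 2 ∂(F i).μ ≤ c m * Q) →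
      FL (F i) 0 (fun x => θ i x * a m (τ i x)) ∧
        N2 (F i) 0 (fun x => θ i x * a m (τ i x)) ≤ K * Q := fun m θ ⟨C, hC⟩ hs => by
    refine ⟨C 0 ^ 2 * c m, fun i a Q h => ?_⟩
    have hb := CB_bound ((hC i).2 0)
    have h1 : MemLp (fun x => θ i x * a m (τ i x)) 2 ((F i).μ.restrict (S i)) :=
      (h m).1.of_le_mul (c := C 0) ((hC i).1.continuous.aestronglyMeasurable.mul (h m).1.1)
        (.of_forall fun x => by
          rw [norm_mul]; exact mul_le_mul_of_nonneg_right (hb x) (norm_nonneg _))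
    have h2 : ∀ x ∉ S i, θ i x * a m (τ i x) = 0 := fun x hx => by
      rw [image_eq_zero_of_notMem_tsupport fun e => hx (hs i e), zero_mul]
    refine ⟨?_, ?_⟩
    · have := (memLp_indicator_iff_restrict (hS i)).2 h1
      rwa [indicator_eq_self.2 fun x hx => by_contra fun e => hx (h2 x e)] at this
    · change ∫ x, _ ∂_ ≤ _
      rw [← setIntegral_eq_integral_of_forall_compl_eq_zero (s := S i) fun x hx => by simp [h2 x hx],
        mul_assoc]
      refine (integral_mono (int_sq h1) ((int_sq (h m).1).const_mul (C 0 ^ 2)) fun x => ?_).trans ?_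
      · simp only [norm_mul, mul_pow]
        exact mul_le_mul_of_nonneg_right (pow_le_pow_left₀ (norm_nonneg _) (hb x) 2) (by positivity)
      · rw [integral_const_mul]
        exact mul_le_mul_of_nonneg_left (h m).2 (by positivity)
  induction k with
  | zero => exact fun m θ h1 h2 => let ⟨K, hK⟩ := h0 m θ h1 h2; ⟨K, fun i a Q _ _ _ => hK i a Q⟩
  | succ k ih =>
    intro m θ h1 h2
    obtain ⟨K, hK⟩ := h0 m θ h1 h2
    have u2 := fun a => h1.bil (ContinuousLinearMap.mul ℝ ℝ) (dτ a)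
    choose K1 k1 using fun a => ih m _ (h1.D a) fun i => ((F i).tsupport_D _ a).trans (h2 i)
    choose K2 k2 using fun a => ih (m + 1) _ (u2 a) fun i => tsupport_mul_subset_left.trans (h2 i)
    refine ⟨K + ∑ a, (2 * K1 a + 2 * K2 a), fun i a Q hQ s1 s2 h => ?_⟩
    have sm := fun m => Sob92.sm_comp (s1 m) (hτ i)
    have e : ∀ e, dv I ((F i).e e) (fun x => θ i x * a m (τ i x)) =
        (fun x => (F i).D e (θ i) x * a m (τ i x)) +
          fun x => θ i x * (F i).D e (τ i) x * a (m + 1) (τ i x) := fun e => funext fun x => by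
      refine (dv_smul ((h1.sm i).mdifferentiableAt (by simp))
        ((sm m).mdifferentiableAt (by simp))).trans ?_
      rw [← Pre.D_def, ← Pre.D_def, Nka63.D_time (hτ i) (s1 m), s2]
      simp [mul_assoc]
    refine ⟨⟨(hK i a Q h).1, fun e' => ?_⟩, ?_⟩
    · rw [e]
      exact ML.add (F i).sm (((h1.D e').sm i).mul (sm m)) (((u2 e').sm i).mul (sm _))
        (k1 e' i a Q hQ s1 s2 h).1 (k2 e' i a Q hQ s1 s2 h).1
    · rw [N2, n2_succ, add_mul, Finset.sum_mul]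
      refine add_le_add (hK i a Q h).2 (Finset.sum_le_sum fun e' _ => ?_)
      rw [e, add_mul, mul_assoc, mul_assoc]
      exact (n2_add_le (F i).sm k (((h1.D e').sm i).mul (sm m)) (((u2 e').sm i).mul (sm _))
        (k1 e' i a Q hQ s1 s2 h).1 (k2 e' i a Q hQ s1 s2 h).1).trans (add_le_add
          (mul_le_mul_of_nonneg_left (k1 e' i a Q hQ s1 s2 h).2 zero_le_two)
          (mul_le_mul_of_nonneg_left (k2 e' i a Q hQ s1 s2 h).2 zero_le_two))

namespace Dm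
variable (D : Dm I M ι X Y)

/-- windows for a time and a measure that do not depend on the parameter -/
structure WE (δ : ℝ) (ν : J → Measure M) (τ : J → M → ℝ) (S : J → Set M) : Prop where
  δ0 : 0 < δ
  sm : ∀ i, Sm I (τ i)
  dτ : ∀ a, UB D.P fun i => (D.P i).D a (τ i)
  ms : ∀ i, MeasurableSet (S i)
  sf : ∀ i, SFinite (ν i)
  sup : ∀ i, ∀ᵐ x ∂ν i, x ∈ S i
  wt : ∃ (ψ : J → M → ℝ) (η C A : ℝ), η ≤ δ ∧ ∀ i, Continuous (ψ i) ∧
    (D.P i).μ.restrict (S i) = wm (ν i) (ψ i) ∧ VG (ν i) (τ i) η A ∧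
    ∀ x ∈ S i, ∀ z ∈ S i, ψ i x - ψ i z ≤ C + (δ - η) * |τ i x - τ i z|

variable {D} {δ : ℝ} {ν : J → Measure M} {τ θ : J → M → ℝ} {S : J → Set M}

theorem WE.wi (h : D.WE δ ν τ S) : ∃ A, ∀ i (g : M → ℝ) c, Continuous g → (∀ x, ‖g x‖ ≤ c) →
    WI (ν i) (τ i) δ g ∧ ∀ t, wn (ν i) (τ i) δ (fun x => ‖g x‖) t ≤ δ * |c| * A :=
  let ⟨_, _, _, A, h1, h2⟩ := h.wt
  ⟨A, fun i _ _ => (h2 i).2.2.1.wi h.δ0 h1 (h.sm i).continuous⟩

theorem WE.cbs (h : D.WE δ ν τ S) (s c : ℝ) : ∃ C, ∀ i (g : M → ℝ), Continuous g →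
    (∀ x, ‖g x‖ ≤ c) → (D.P i).CBs (fun x => wn (ν i) (τ i) δ g (τ i x + s)) C := by
  obtain ⟨A, hA⟩ := h.wi
  obtain ⟨T, hT⟩ := UB.unif h.dτ
  refine ⟨fun k => Nka63.cT T k * ∑ m ∈ Finset.range (k + 1), |cb δ m * (δ * |c| * A)|,
    fun i g h1 h2 => ?_⟩
  obtain ⟨w, hw⟩ := hA i g c h1 h2
  have sm : ContDiff ℝ ∞ fun t => wn (ν i) (τ i) δ g (t + s) :=
    (w.contDiff_wn h.δ0).comp (contDiff_id.add contDiff_const)
  refine ⟨Sob92.sm_comp sm (h.sm i), fun k => Nka63.CB_time (h.sm i) (hT i) k sm fun m hm t => ?_⟩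
  rw [iteratedDeriv_comp_add_const, w.iteratedDeriv_wn h.δ0]
  exact (((w.norm_wnd_le h.δ0 m _).trans (mul_le_mul_of_nonneg_left (hw _) (cb_nonneg δ m))).trans
    (le_abs_self _)).trans (Finset.single_le_sum (f := fun m => |cb δ m * (δ * |c| * A)|)
      (fun _ _ => abs_nonneg _) (Finset.mem_range.2 (Nat.lt_succ_of_le hm)))

theorem WE.n2 (h : D.WE δ ν τ S) (hθ : UB D.P θ) (hs : ∀ i, tsupport (θ i) ⊆ S i) (s : ℝ) (k : ℕ) :
    ∃ K, ∀ i (g : M → ℝ) c, Continuous g → (∀ x, ‖g x‖ ≤ c) → MemLp g 2 (D.P i).μ →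
      FL (D.P i) k (fun x => θ i x * wn (ν i) (τ i) δ g (τ i x + s)) ∧
      N2 (D.P i) k (fun x => θ i x * wn (ν i) (τ i) δ g (τ i x + s)) ≤ K * N2 (D.P i) 0 g := by
  obtain ⟨ψ, η, C, A, h1, h2⟩ := h.wt
  obtain ⟨K, hK⟩ := n2_time h.sm h.dτ h.ms
    (fun m => cb δ m ^ 2 * (δ * exp (δ * |s|) * exp C * A) ^ 2) k 0 θ hθ hs
  refine ⟨K, fun i g c g1 g2 g3 => ?_⟩
  obtain ⟨p1, p2, p3, p4⟩ := h2 i
  have w := (p3.wi h.δ0 h1 (h.sm i).continuous g1 g2).1
  have sm : ∀ m, ContDiff ℝ ∞ fun t => wnd (ν i) (τ i) δ m g (t + s) := fun m =>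
    (w.contDiff_wnd h.δ0 m).comp (contDiff_id.add contDiff_const)
  have := hK i (fun m t => wnd (ν i) (τ i) δ m g (t + s)) (N2 (D.P i) 0 g) (n2_nonneg 0 g) sm
    (fun m => funext fun t => ((w.hasDerivAt_wnd h.δ0 m (t + s)).comp_add_const t s).deriv)
    fun m => memLp_of_lint (by positivity)
      ((sm m).continuous.comp (h.sm i).continuous).aestronglyMeasurable g3 ?_
  · simpa only [wnd_zero] using this
  have := h.sf i
  have h3 := p3.schur h.δ0 (h.sm i).continuous p1 (h.sup i) p4 s g1 w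
  rw [← p2] at h3
  rw [ENNReal.ofReal_mul (by positivity), mul_assoc]
  refine le_trans ?_ (mul_le_mul_right (h3.trans (mul_le_mul_right
    (lintegral_mono' Measure.restrict_le_self le_rfl) _)) _)
  rw [← lintegral_const_mul' _ _ ENNReal.ofReal_ne_top]
  refine lintegral_mono fun x => ?_
  rw [← ENNReal.ofReal_mul (by positivity), ← mul_pow]
  exact ENNReal.ofReal_le_ofReal (pow_le_pow_left₀ (norm_nonneg _) (w.norm_wnd_le h.δ0 m _) 2)

theorem wn_add {μ : Measure M} {τ g g' : M → ℝ} (hδ : 0 < δ) (h : WI μ τ δ g) (h' : WI μ τ δ g')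
    (t : ℝ) : wn μ τ δ (fun x => g x + g' x) t = wn μ τ δ g t + wn μ τ δ g' t := by
  simp only [wn, smul_add]
  exact integral_add (h.int hδ t) (h'.int hδ t)

variable [I.Boundaryless]

/-- **Windows, fixed neck.** -/
theorem WE.a0 (h : D.WE δ ν τ S) (hθ : UB D.P θ) (hs : ∀ i, tsupport (θ i) ⊆ S i) (s : ℝ)
    {ε : Prop} {l j : ℕ} (hl : 4 ≤ l) (hj : 4 ≤ j) {w : ∀ i, Y i → M → ℝ} (hw : D.A0 ε l w) :
    D.A0 ε j fun i y x => θ i x * wn (ν i) (τ i) δ (w i y) (τ i x + s) := by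
  obtain ⟨A, hA⟩ := h.wi
  obtain ⟨K, hK⟩ := h.n2 hθ hs s j
  have cb : ∀ i (g : M → ℝ) c, Continuous g → (∀ x, ‖g x‖ ≤ c) →
      (D.P i).Cb fun x => θ i x * wn (ν i) (τ i) δ g (τ i x + s) := fun i g c h1 h2 =>
    let ⟨C, hC⟩ := h.cbs s c
    Cb_bil (ContinuousLinearMap.mul ℝ ℝ) (hθ.cb i) ⟨C, hC i g h1 h2⟩
  have ub : ∀ {g : J → M → ℝ}, UB D.P g →
      UB D.P fun i x => θ i x * wn (ν i) (τ i) δ (g i) (τ i x + s) := fun ⟨C, hC⟩ =>
    let ⟨C', hC'⟩ := h.cbs s (C 0)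
    hθ.bil (ContinuousLinearMap.mul ℝ ℝ)
      ⟨C', fun i => hC' i _ (hC i).1.continuous (CB_bound ((hC i).2 0))⟩
  have cv := fun i (u : D.H ℝ l i) => continuous_val (D.sup i) hl u
  have bv := fun i (u : D.H ℝ l i) => norm_val_le (D.sup i) hl u
  have iv := fun i (u : D.H ℝ l i) => Is.val (D.sup i) hl u
  have ex : ∀ i (u : D.H ℝ l i), ∃ v : D.H ℝ j i,
      (D.vl v = fun x => θ i x * wn (ν i) (τ i) δ (D.vl u) (τ i x + s)) ∧ ‖v‖ ≤ √|K| * ‖u‖ := by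
    intro i u
    obtain ⟨k1, k2⟩ := hK i _ _ (cv i u) (bv i u) (iv i u).memLp
    have sm := Cb.sm (cb i _ _ (cv i u) (bv i u))
    obtain ⟨v, hv⟩ := exists_Is (p := triv M ℝ) (Exh.of_tame (D.tame i)) sm k1 fun _ => rfl
    refine ⟨v, hv.val_eq (D.sup i) hj sm.continuous, ?_⟩
    rw [hv.norm sm]
    refine nrm_le_of_sq (by positivity) (k2.trans ?_)
    rw [mul_pow, Real.sq_sqrt (abs_nonneg K), ← nrm_sq, ← (iv i u).norm_zero]
    exact mul_le_mul (le_abs_self K) (pow_le_pow_left₀ (norm_nonneg _)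
      ((ContinuousLinearMap.le_of_opNorm_le _ (rep_incl' l.zero_le).2 u).trans_eq (one_mul _)) 2)
      (by positivity) (abs_nonneg K)
  choose T t1 t2 using ex
  let L : ∀ i, D.H ℝ l i →L[ℝ] D.H ℝ j i := fun i => LinearMap.mkContinuous
    { toFun := T i
      map_add' := fun u v => val_injective (D.sup i) hj (by
        rw [val_add, ← vl, ← vl, ← vl, t1, t1, t1]
        funext x
        rw [Pi.add_apply, ← mul_add, ← wn_add h.δ0 (hA i _ _ (cv i u) (bv i u)).1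
          (hA i _ _ (cv i v) (bv i v)).1, vl, val_add]; rfl)
      map_smul' := fun c u => val_injective (D.sup i) hj (by
        rw [RingHom.id_apply, val_smul, ← vl, ← vl, t1, t1]
        funext x
        simp only [wn, vl, val_smul, Pi.smul_apply, smul_eq_mul, mul_left_comm _ c,
          integral_const_mul]) } √|K| (t2 i)
  have hL : Bv L := ⟨_, fun i => LinearMap.mkContinuous_norm_le _ (Real.sqrt_nonneg _) _⟩
  obtain ⟨b, δ', h1, h2, h3, h4⟩ := hw.ex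
  refine ⟨⟨fun i y => let ⟨C, hC⟩ := hw.sz.cb i y; cb i _ _ hC.1.continuous (CB_bound (hC.2 0)),
    ub hw.sz.ub⟩, _, _, ub h1, fun e i x => by simp [wn, h2 e], h3.clm hL, fun i y x => ?_⟩
  obtain ⟨C, hC⟩ := h1.cb i
  rw [show D.vl (L i _) = _ from t1 i _, ← mul_add, ← wn_add h.δ0
    (hA i _ _ hC.1.continuous (CB_bound (hC.2 0))).1 (hA i _ _ (cv i _) (bv i _)).1, funext (h4 i y)]

omit [I.Boundaryless] in
theorem is_inner {V : Type} [NormedAddCommGroup V] [InnerProductSpace ℝ V] [CompleteSpace V]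
    {F : Pre I M ι} {h h' : F.H 0 (triv M V)} {u v : M → V} (H : Is F 0 _ h u)
    (H' : Is F 0 _ h' v) : ⟪h, h'⟫_ℝ = ∫ x, ⟪u x, v x⟫_ℝ ∂F.μ := by
  rw [← inner_toL2, L2.inner_def]
  refine integral_congr_ae ?_
  filter_upwards [H, H'] with x h1 h2
  rw [h1, h2]

omit [I.Boundaryless] in
theorem bv_innerSL {Z : J → Type} [∀ i, NormedAddCommGroup (Z i)] [∀ i, InnerProductSpace ℝ (Z i)] :
    Bv fun i => (innerSL ℝ : Z i →L[ℝ] Z i →L[ℝ] ℝ) := ⟨1, fun i => norm_innerSL_le ℝ (E := Z i)⟩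

omit [I.Boundaryless] in
/-- the `L²` pairing of two pure families -/
theorem A0.pair {V : Type} [NormedAddCommGroup V] [InnerProductSpace ℝ V] [CompleteSpace V]
    {l l' : ℕ} (hl : 4 ≤ l) (hl' : 4 ≤ l') {u v : ∀ i, Y i → M → V} (hu : D.A0 True l u)
    (hv : D.A0 True l' v) : D.Sc fun i y => ∫ x, ⟪u i y x, v i y x⟫_ℝ ∂(D.P i).μ := by
  obtain ⟨a, a1, a2⟩ := hu.pure
  obtain ⟨c, c1, c2⟩ := hv.pure
  exact ⟨_, UC.bil bv_innerSL (a1.clm (bv_ic l.zero_le)) (c1.clm (bv_ic l'.zero_le)), fun i y => by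
    simp only [a2, c2]
    exact (is_inner ((Is.val (D.sup i) hl _).incl l.zero_le)
      ((Is.val (D.sup i) hl' _).incl l'.zero_le)).symm⟩

omit [I.Boundaryless] in
theorem US.of_map {N : Type} [NormedAddCommGroup N] [NormedSpace ℝ N] {f : ∀ i, X i → M → N}
    (h : ∀ k, ∃ g : ∀ i, X i → B (D.P i) k N, UC D.toRg g ∧ ∀ i, ∀ x ∈ D.U i, B.fn (g i x) = f i x) :
    D.US f :=
  ⟨fun i x hx => let ⟨g, _, e⟩ := h 0; e i x hx ▸ (g i x).cb, fun k =>
    let ⟨_, h1, e⟩ := h k; h1.congr fun i x hx => (eq_toB (e i x hx)).symm⟩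

omit [I.Boundaryless] in
theorem FF.densR {G : ∀ i, X i → Fr I M ι} (h : D.FF G) : ∃ ρ : ∀ i, X i → M → ℝ, D.US ρ ∧
    ∀ i y (g : M → ℝ), ∫ x, g x ∂(G i (D.pt i y)).μ = ∫ x, ρ i (D.pt i y) x * g x ∂(D.P i).μ := by
  obtain ⟨ρ, h1, h2⟩ := h.dens
  refine ⟨ρ, h1, fun i y g => Complex.ofReal_injective ?_⟩
  rw [← integral_complex_ofReal, ← integral_complex_ofReal, h2]
  simp

/-- multiplication by the kernel at a given time -/
def _root_.Crest.Agent.X212.Mon62.kerL (F : Pre I M ι) (δ : ℝ) (p : B F 0 ℝ × ℝ) :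
    HT F ℝ 0 →L[ℝ] HT F ℝ 0 :=
  mulB F 0 (triv M ℝ) (B.clm (ContinuousLinearMap.mul ℝ ℝ) (nemB F 0 (b δ) (p.1 - B.const p.2)))

theorem ug_ker (δ : ℝ) : UG fun i => kerL (D.P i) δ := fun _ =>
  ((((UG.fixed (contDiff_b δ)).nemB (F := D.P) (k := 0)).cmp
    (uc_fst.sub (uc_snd.clm bv_Bconst))).clm (bv_clm 0 _)).clm (bv_mulB 0)

/-- functions of the parameter and of a moving function -/
theorem US.nem {T Z : J → Type} [∀ i, NormedAddCommGroup (T i)] [∀ i, NormedSpace ℝ (T i)]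
    [∀ i, NormedAddCommGroup (Z i)] [∀ i, NormedSpace ℝ (Z i)] {g : ∀ i, T i × ℝ → Z i}
    (hg : UG g) {p : ∀ i, X i → T i} (hp : UC D.toRg p) {Λ : ∀ i, X i → Z i →L[ℝ] ℝ}
    (hΛ : UC D.toRg Λ) {τ : ∀ i, X i → M → ℝ} (hτ : D.US τ) (s : ℝ) :
    D.US fun i x z => Λ i x (g i (p i x, τ i x z + s)) := US.of_map fun k => by
  have h1 := ((hp.prod (UC.const (Bv.const s))).clm (bv_Bconst (F := D.P) (k := k))).add
    ((hτ.uc k).clm (bv_Bclm (L := fun i => ContinuousLinearMap.inr ℝ (T i) ℝ)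
      ⟨1, fun _ => ContinuousLinearMap.norm_inr_le_one _ _ _⟩))
  have h2 : Bv fun i => (B.bil (ContinuousLinearMap.id ℝ (Z i →L[ℝ] ℝ)) :
      B (D.P i) k _ →L[ℝ] B (D.P i) k _ →L[ℝ] B (D.P i) k _) := bv_Bbil bv_id
  refine ⟨_, UC.bil h2 (hΛ.clm bv_Bconst) (hg.nemB.cmp h1), fun i x hx => funext fun z => ?_⟩
  simp only [B.fn_bil, B.fn_const, (hg.ga i).fn, map_add, B.fn_clm, fn_toB (hτ.cb i x hx),
    Pi.add_apply, ContinuousLinearMap.inr_apply, Prod.mk_add_mk, add_zero, add_comm s]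
  rfl

/-- **Windows, compact moving neck.** -/
theorem A0.us_wn {G : ∀ i, X i → Fr I M ι} (hF : D.FF G) {τ : ∀ i, X i → M → ℝ} (hτ : D.US τ)
    (δ s : ℝ) {l : ℕ} (hl : 4 ≤ l) {η w : ∀ i, Y i → M → ℝ} (hη : D.A0 True l η)
    (hw : D.A0 True l w) (e : ∀ i y x, η i y x * w i y x = w i y x) :
    ∃ a : ∀ i, X i → M → ℝ, D.US a ∧ ∀ i y x, a i (D.pt i y) x =
      wn (G i (D.pt i y)).μ (τ i (D.pt i y)) δ (w i y) (τ i (D.pt i y) x + s) := by
  obtain ⟨ρ, r1, r2⟩ := hF.densR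
  obtain ⟨u, u1, u2⟩ := (hw.us_smul (ε := True) hl r1).pure
  obtain ⟨v, v1, v2⟩ := hη.pure
  have h0 : Bv fun i => ContinuousLinearMap.apply ℝ (E := D.H ℝ 0 i) (D.H ℝ 0 i) :=
    ⟨1, fun i => ContinuousLinearMap.opNorm_le_bound₂ _ zero_le_one fun v T => by
      rw [one_mul, mul_comm]; exact T.le_opNorm v⟩
  have hΛ := ((v1.clm (bv_ic l.zero_le)).clm bv_innerSL).comp ((u1.clm (bv_ic l.zero_le)).clm h0)
  refine ⟨_, hτ.nem (ug_ker δ) (hτ.uc 0) hΛ s, fun i y x => ?_⟩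
  have h1 := (Is.val (D.sup i) hl (u i (D.pt i y))).incl l.zero_le
  refine (is_inner ((Is.val (D.sup i) hl _).incl l.zero_le)
    (h1.mulH (B.cb _) (Maps.triv _))).trans ?_
  rw [wn, r2]
  refine integral_congr_ae (.of_forall fun z => ?_)
  have := e i y z
  simp only [← u2, ← v2, B.fn_clm, fn_nemB (contDiff_b δ), map_sub, B.fn_const,
    fn_toB (hτ.cb i _ (D.mem i y)), Pi.sub_apply, ContinuousLinearMap.mul_apply', smul_eq_mul,
    RCLike.inner_apply, conj_trivial]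
  linear_combination (b δ (τ i (D.pt i y) z - (τ i (D.pt i y) x + s)) * ρ i (D.pt i y) z) * this

end Dm

end Crest.Agent.X212.Mon62
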