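import Crest.Agent.X212.Mon62.Abs

/-! # Row 212, WORDH: families of smooth maps with uniform bounds of all derivatives -/

set_option autoImplicit false
set_option linter.unusedSectionVars false
set_option maxSynthPendingDepth 3
noncomputable section
open scoped ContDiff Topology
open Set Function Filter

namespace Crest.Agent.X212.Mon62

variable {J : Type} {X : J → Type} [∀ i, NormedAddCommGroup (X i)] [∀ i, NormedSpace ℝ (X i)]

/-- bounded on `B`, uniformly in the family -/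
def Bd (B : ∀ i, Set (X i)) {Z : J → Type} [∀ i, NormedAddCommGroup (Z i)]
    (f : ∀ i, X i → Z i) : Prop := ∃ K, ∀ i, ∀ x ∈ B i, ‖f i x‖ ≤ K

/-- derivatives of order `≤ n` bounded on `B` -/
def Bn (B : ∀ i, Set (X i)) : ℕ → ∀ {Z : J → Type} [∀ i, NormedAddCommGroup (Z i)]
    [∀ i, NormedSpace ℝ (Z i)], (∀ i, X i → Z i) → Prop
  | 0, _, _, _, f => Bd B f
  | n + 1, _, _, _, f => Bd B f ∧ Bn B n fun i => fderiv ℝ (f i)

variable (X) in
/-- open domains `U` with regions `B` of uniform bounds -/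
structure Rg where
  U : ∀ i, Set (X i)
  B : ∀ i, Set (X i)
  op : ∀ i, IsOpen (U i)
  sub : ∀ i, B i ⊆ U i

variable {Z Z' Z'' : J → Type} [∀ i, NormedAddCommGroup (Z i)] [∀ i, NormedSpace ℝ (Z i)]
  [∀ i, NormedAddCommGroup (Z' i)] [∀ i, NormedSpace ℝ (Z' i)]
  [∀ i, NormedAddCommGroup (Z'' i)] [∀ i, NormedSpace ℝ (Z'' i)]

/-- smooth on `U` -/
def Rg.Sm (R : Rg X) (f : ∀ i, X i → Z i) : Prop := ∀ i, ContDiffOn ℝ ∞ (f i) (R.U i)

/-- smooth on `U`, all derivatives uniformly bounded on `B` -/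
structure UC (R : Rg X) (f : ∀ i, X i → Z i) : Prop where
  sm : R.Sm f
  bd : ∀ n, Bn R.B n f

/-- a bounded family of vectors -/
def Bv {Z : J → Type} [∀ i, Norm (Z i)] (c : ∀ i, Z i) : Prop := ∃ K, ∀ i, ‖c i‖ ≤ K

variable {R : Rg X} {B : ∀ i, Set (X i)} {f f' : ∀ i, X i → Z i} {g : ∀ i, X i → Z' i} {n : ℕ}

theorem Bv.nn {Z : J → Type} [∀ i, Norm (Z i)] {c : ∀ i, Z i} (h : Bv c) : ∃ K, 0 ≤ K ∧ ∀ i, ‖c i‖ ≤ K :=
  let ⟨K, hK⟩ := h; ⟨|K|, abs_nonneg K, fun i => (hK i).trans (le_abs_self K)⟩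

theorem Bd.nn (h : Bd B f) : ∃ K, 0 ≤ K ∧ ∀ i, ∀ x ∈ B i, ‖f i x‖ ≤ K :=
  let ⟨K, hK⟩ := h; ⟨|K|, abs_nonneg K, fun i x hx => (hK i x hx).trans (le_abs_self K)⟩

theorem Bv.const {N : Type} [Norm N] (c : N) : Bv fun _ : J => c := ⟨‖c‖, fun _ => le_rfl⟩

theorem Bv.of_le {Z Z' : J → Type} [∀ i, Norm (Z i)] [∀ i, Norm (Z' i)] {c : ∀ i, Z i}
    {d : ∀ i, Z' i} (h : Bv d) (e : ∀ i, ‖c i‖ ≤ ‖d i‖) : Bv c :=
  let ⟨K, hK⟩ := h; ⟨K, fun i => (e i).trans (hK i)⟩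

theorem Bn.bd : ∀ {n : ℕ}, Bn B n f → Bd B f
  | 0, h => h
  | _ + 1, h => h.1

theorem Bn.pred (n : ℕ) : ∀ {Z : J → Type} [∀ i, NormedAddCommGroup (Z i)]
    [∀ i, NormedSpace ℝ (Z i)] {f : ∀ i, X i → Z i}, Bn B (n + 1) f → Bn B n f := by
  induction n with
  | zero => exact fun h => h.1
  | succ n ih => exact fun h => ⟨h.1, ih h.2⟩

theorem Rg.Sm.fderiv (h : R.Sm f) : R.Sm fun i => fderiv ℝ (f i) :=
  fun i => (h i).fderiv_of_isOpen (R.op i) (by simp)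

theorem Rg.Sm.diff (h : R.Sm f) {i : J} {x : X i} (hx : x ∈ R.U i) : DifferentiableAt ℝ (f i) x :=
  ((h i).contDiffAt ((R.op i).mem_nhds hx)).differentiableAt (by simp)

theorem Rg.Sm.bil (β : ∀ i, Z i →L[ℝ] Z' i →L[ℝ] Z'' i) (h : R.Sm f) (h' : R.Sm g) :
    R.Sm fun i x => β i (f i x) (g i x) :=
  fun i => ((β i).contDiff.comp_contDiffOn (h i)).clm_apply (h' i)

theorem Bn.congr (n : ℕ) : ∀ {Z : J → Type} [∀ i, NormedAddCommGroup (Z i)]
    [∀ i, NormedSpace ℝ (Z i)] {f f' : ∀ i, X i → Z i}, Bn R.B n f →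
      (∀ i, ∀ x ∈ R.U i, f' i x = f i x) → Bn R.B n f' := by
  have h0 : ∀ {Z : J → Type} [∀ i, NormedAddCommGroup (Z i)] {f f' : ∀ i, X i → Z i},
      Bd R.B f → (∀ i, ∀ x ∈ R.U i, f' i x = f i x) → Bd R.B f' := fun ⟨K, hK⟩ e =>
    ⟨K, fun i x hx => by rw [e i x (R.sub i hx)]; exact hK i x hx⟩
  induction n with
  | zero => exact fun h e => h0 h e
  | succ n ih =>
    exact fun h e => ⟨h0 h.1 e, ih h.2 fun i x hx => EventuallyEq.fderiv_eq
      (eventually_of_mem ((R.op i).mem_nhds hx) (e i))⟩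

theorem Bn.const (n : ℕ) : ∀ {Z : J → Type} [∀ i, NormedAddCommGroup (Z i)]
    [∀ i, NormedSpace ℝ (Z i)] {c : ∀ i, Z i}, Bv c → Bn R.B n fun i _ => c i := by
  induction n with
  | zero => exact fun ⟨K, hK⟩ => ⟨K, fun i _ _ => hK i⟩
  | succ n ih =>
    exact fun ⟨K, hK⟩ => ⟨⟨K, fun i _ _ => hK i⟩,
      (ih (c := fun _ => 0) ⟨0, fun _ => norm_zero.le⟩).congr n fun i x _ => by simp⟩

theorem Bn.add (n : ℕ) : ∀ {Z : J → Type} [∀ i, NormedAddCommGroup (Z i)]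
    [∀ i, NormedSpace ℝ (Z i)] {f f' : ∀ i, X i → Z i}, R.Sm f → R.Sm f' → Bn R.B n f →
      Bn R.B n f' → Bn R.B n fun i x => f i x + f' i x := by
  have h0 : ∀ {Z : J → Type} [∀ i, NormedAddCommGroup (Z i)] {f f' : ∀ i, X i → Z i},
      Bd R.B f → Bd R.B f' → Bd R.B fun i x => f i x + f' i x := fun ⟨K, hK⟩ ⟨K', hK'⟩ =>
    ⟨K + K', fun i x hx => (norm_add_le _ _).trans (add_le_add (hK i x hx) (hK' i x hx))⟩
  induction n with
  | zero => exact fun _ _ h h' => h0 h h'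
  | succ n ih =>
    exact fun s s' h h' => ⟨h0 h.1 h'.1, (ih s.fderiv s'.fderiv h.2 h'.2).congr n fun i x hx =>
      fderiv_fun_add (s.diff hx) (s'.diff hx)⟩

theorem Bn.bil (n : ℕ) : ∀ {Z Z' Z'' : J → Type} [∀ i, NormedAddCommGroup (Z i)]
    [∀ i, NormedSpace ℝ (Z i)] [∀ i, NormedAddCommGroup (Z' i)] [∀ i, NormedSpace ℝ (Z' i)]
    [∀ i, NormedAddCommGroup (Z'' i)] [∀ i, NormedSpace ℝ (Z'' i)]
    {β : ∀ i, Z i →L[ℝ] Z' i →L[ℝ] Z'' i} {f : ∀ i, X i → Z i} {g : ∀ i, X i → Z' i},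
      Bv β → R.Sm f → R.Sm g → Bn R.B n f → Bn R.B n g →
        Bn R.B n fun i x => β i (f i x) (g i x) := by
  have h0 : ∀ {Z Z' Z'' : J → Type} [∀ i, NormedAddCommGroup (Z i)]
      [∀ i, NormedSpace ℝ (Z i)] [∀ i, NormedAddCommGroup (Z' i)] [∀ i, NormedSpace ℝ (Z' i)]
      [∀ i, NormedAddCommGroup (Z'' i)] [∀ i, NormedSpace ℝ (Z'' i)]
      {β : ∀ i, Z i →L[ℝ] Z' i →L[ℝ] Z'' i} {f : ∀ i, X i → Z i} {g : ∀ i, X i → Z' i},
      Bv β → Bd R.B f → Bd R.B g → Bd R.B fun i x => β i (f i x) (g i x) := by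
    intro Z Z' Z'' _ _ _ _ _ _ β f g hβ h h'
    obtain ⟨L, hL0, hL⟩ := hβ.nn
    obtain ⟨K, hK0, hK⟩ := h.nn
    obtain ⟨K', -, hK'⟩ := h'.nn
    exact ⟨L * K * K', fun i x hx => ((β i).le_opNorm₂ _ _).trans (mul_le_mul
      (mul_le_mul (hL i) (hK i x hx) (norm_nonneg _) hL0) (hK' i x hx) (norm_nonneg _)
      (mul_nonneg hL0 hK0))⟩
  induction n with
  | zero => exact fun hβ _ _ h h' => h0 hβ h h'
  | succ n ih =>
    intro Z Z' Z'' _ _ _ _ _ _ β f g hβ s s' h h'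
    have b1 : Bv fun i => (β i).precompR (X i) :=
      hβ.of_le fun i => ContinuousLinearMap.norm_precompR_le _ _
    have b2 : Bv fun i => (β i).precompL (X i) :=
      hβ.of_le fun i => ContinuousLinearMap.norm_precompL_le _ _
    exact ⟨h0 hβ h.1 h'.1, (Bn.add n (s.bil _ s'.fderiv) (s.fderiv.bil _ s')
      (ih b1 s s'.fderiv (h.pred n) h'.2) (ih b2 s.fderiv s' h.2 (h'.pred n))).congr n
        fun i x hx => (β i).fderiv_of_bilinear (s.diff hx) (s'.diff hx)⟩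

theorem bv_compL : Bv fun i => ContinuousLinearMap.compL ℝ (Z i) (Z' i) (Z'' i) :=
  ⟨1, fun _ => ContinuousLinearMap.norm_compL_le _ _ _ _⟩

theorem bv_id : Bv fun i => ContinuousLinearMap.id ℝ (Z i) :=
  ⟨1, fun _ => ContinuousLinearMap.norm_id_le⟩

namespace UC

theorem bd0 (h : UC R f) : Bd R.B f := h.bd 0

theorem fderiv (h : UC R f) : UC R fun i => fderiv ℝ (f i) := ⟨h.sm.fderiv, fun n => (h.bd (n + 1)).2⟩

theorem congr (h : UC R f) (e : ∀ i, ∀ x ∈ R.U i, f' i x = f i x) : UC R f' :=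
  ⟨fun i => (h.sm i).congr (e i), fun n => (h.bd n).congr n e⟩

theorem const {c : ∀ i, Z i} (h : Bv c) : UC R fun i _ => c i :=
  ⟨fun _ => contDiffOn_const, fun n => Bn.const n h⟩

theorem zero : UC R fun i _ => (0 : Z i) := const ⟨0, fun _ => norm_zero.le⟩

theorem add (h : UC R f) (h' : UC R f') : UC R fun i x => f i x + f' i x :=
  ⟨fun i => (h.sm i).add (h'.sm i), fun n => Bn.add n h.sm h'.sm (h.bd n) (h'.bd n)⟩

theorem bil {β : ∀ i, Z i →L[ℝ] Z' i →L[ℝ] Z'' i} (hβ : Bv β) (h : UC R f) (h' : UC R g) :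
    UC R fun i x => β i (f i x) (g i x) :=
  ⟨h.sm.bil β h'.sm, fun n => Bn.bil n hβ h.sm h'.sm (h.bd n) (h'.bd n)⟩

theorem app {L : ∀ i, X i → Z i →L[ℝ] Z' i} (hL : UC R L) (h : UC R f) :
    UC R fun i x => L i x (f i x) :=
  bil (β := fun i => ContinuousLinearMap.id ℝ (Z i →L[ℝ] Z' i)) bv_id hL h

theorem clm {L : ∀ i, Z i →L[ℝ] Z' i} (hL : Bv L) (h : UC R f) : UC R fun i x => L i (f i x) :=
  (const hL).app h

theorem comp {A : ∀ i, X i → Z' i →L[ℝ] Z'' i} {A' : ∀ i, X i → Z i →L[ℝ] Z' i} (h : UC R A)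
    (h' : UC R A') : UC R fun i x => A i x ∘L A' i x :=
  bil (β := fun i => ContinuousLinearMap.compL ℝ (Z i) (Z' i) (Z'' i)) bv_compL h h'

theorem neg (h : UC R f) : UC R fun i x => -f i x :=
  h.clm (L := fun i => -ContinuousLinearMap.id ℝ (Z i)) (bv_id.of_le fun _ => (norm_neg _).le)

theorem sub (h : UC R f) (h' : UC R f') : UC R fun i x => f i x - f' i x :=
  (h.add h'.neg).congr fun _ _ _ => sub_eq_add_neg _ _

theorem smul {c : ∀ i, X i → ℝ} (hc : UC R c) (h : UC R f) : UC R fun i x => c i x • f i x :=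
  bil (β := fun _ => ContinuousLinearMap.lsmul ℝ ℝ)
    ⟨1, fun _ => ContinuousLinearMap.opNorm_lsmul_le⟩ hc h

theorem fsum {κ : Type*} (s : Finset κ) {u : κ → ∀ i, X i → Z i} (h : ∀ k ∈ s, UC R (u k)) :
    UC R fun i x => ∑ k ∈ s, u k i x := by
  classical
  induction s using Finset.induction_on with
  | empty => exact zero.congr fun _ _ _ => Finset.sum_empty
  | insert a s ha ih =>
    exact ((h a (Finset.mem_insert_self a s)).add
      (ih fun k hk => h k (Finset.mem_insert_of_mem hk))).congr fun _ _ _ => Finset.sum_insert ha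

theorem sum {κ : Type*} [Fintype κ] {u : κ → ∀ i, X i → Z i} (h : ∀ k, UC R (u k)) :
    UC R fun i x => ∑ k, u k i x := fsum _ fun k _ => h k

/-- the criterion by the first derivative -/
theorem of_fderiv (hs : R.Sm f) (hb : Bd R.B f) (h : UC R fun i => _root_.fderiv ℝ (f i)) :
    UC R f := ⟨hs, fun n => by
  cases n with
  | zero => exact hb
  | succ n => exact ⟨hb, h.bd n⟩⟩

theorem id (h : Bd R.B fun _ x => x) : UC R fun _ x => x :=
  of_fderiv (fun _ => contDiffOn_id) h ((const bv_id).congr fun _ _ _ => fderiv_fun_id)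

theorem prod (h : UC R f) (h' : UC R g) : UC R fun i x => (f i x, g i x) :=
  ((h.clm (L := fun i => ContinuousLinearMap.inl ℝ (Z i) (Z' i))
    ⟨1, fun _ => ContinuousLinearMap.norm_inl_le_one _ _ _⟩).add
    (h'.clm (L := fun i => ContinuousLinearMap.inr ℝ (Z i) (Z' i))
    ⟨1, fun _ => ContinuousLinearMap.norm_inr_le_one _ _ _⟩)).congr fun _ _ _ => by simp

/-- composition -/
theorem cmp {R' : Rg Z} {G : ∀ i, Z i → Z' i} (hG : UC R' G) (h : UC R f)
    (hU : ∀ i, MapsTo (f i) (R.U i) (R'.U i)) (hB : ∀ i, MapsTo (f i) (R.B i) (R'.B i)) :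
    UC R fun i x => G i (f i x) := by
  have key : ∀ n, ∀ {Z' : J → Type} [∀ i, NormedAddCommGroup (Z' i)] [∀ i, NormedSpace ℝ (Z' i)]
      {G : ∀ i, Z i → Z' i}, UC R' G → Bn R.B n fun i x => G i (f i x) := by
    have h0 : ∀ {Z' : J → Type} [∀ i, NormedAddCommGroup (Z' i)] [∀ i, NormedSpace ℝ (Z' i)]
        {G : ∀ i, Z i → Z' i}, UC R' G → Bd R.B fun i x => G i (f i x) := fun hG =>
      let ⟨K, hK⟩ := hG.bd0; ⟨K, fun i x hx => hK i _ (hB i hx)⟩
    intro n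
    induction n with
    | zero => exact h0
    | succ n ih =>
      intro Z' _ _ G hG
      exact ⟨h0 hG, (Bn.bil n (β := fun i => ContinuousLinearMap.compL ℝ (X i) (Z i) (Z' i))
        (f := fun i x => _root_.fderiv ℝ (G i) (f i x)) bv_compL
        (fun i => (hG.sm.fderiv i).comp (h.sm i) (hU i))
        h.sm.fderiv (ih hG.fderiv) (h.fderiv.bd n)).congr n fun i x hx =>
          fderiv_fun_comp x (hG.sm.diff (hU i hx)) (h.sm.diff hx)⟩
  exact ⟨fun i => (hG.sm i).comp (h.sm i) (hU i), fun n => key n hG⟩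

/-- shrinking the domains -/
theorem mono {R' : Rg X} (h : UC R f) (hU : ∀ i, R'.U i ⊆ R.U i) (hB : ∀ i, R'.B i ⊆ R.B i) :
    UC R' f := by
  have key : ∀ n, ∀ {Z : J → Type} [∀ i, NormedAddCommGroup (Z i)] [∀ i, NormedSpace ℝ (Z i)]
      {f : ∀ i, X i → Z i}, Bn R.B n f → Bn R'.B n f := by
    intro n
    induction n with
    | zero => exact fun ⟨K, hK⟩ => ⟨K, fun i x hx => hK i x (hB i hx)⟩
    | succ n ih => exact fun ⟨⟨K, hK⟩, h⟩ => ⟨⟨K, fun i x hx => hK i x (hB i hx)⟩, ih h⟩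
  exact ⟨fun i => (h.sm i).mono (hU i), fun n => key n (h.bd n)⟩

/-- finitely many members, compact regions: no condition -/
theorem of_compact [Finite J] (hB : ∀ i, IsCompact (R.B i)) (hs : R.Sm f) : UC R f := by
  have h0 : ∀ {Z : J → Type} [∀ i, NormedAddCommGroup (Z i)] [∀ i, NormedSpace ℝ (Z i)]
      {f : ∀ i, X i → Z i}, R.Sm f → Bd R.B f := fun hs => by
    choose K hK using fun i => (hB i).exists_bound_of_continuousOn
      ((hs i).continuousOn.mono (R.sub i))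
    obtain ⟨L, hL⟩ := (finite_range K).bddAbove
    exact ⟨L, fun i x hx => (hK i x hx).trans (hL (mem_range_self i))⟩
  refine ⟨hs, fun n => ?_⟩
  induction n generalizing Z with
  | zero => exact h0 hs
  | succ n ih => exact ⟨h0 hs, ih hs.fderiv⟩

/-- composition with a fixed smooth map -/
theorem cmp_fixed {N N' : Type} [NormedAddCommGroup N] [NormedSpace ℝ N] [NormedAddCommGroup N']
    [NormedSpace ℝ N'] {φ : N → N'} {O K : Set N} (hO : IsOpen O) (hK : IsCompact K) (hKO : K ⊆ O)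
    (hφ : ContDiffOn ℝ ∞ φ O) {f : ∀ i, X i → N} (h : UC R f)
    (hU : ∀ i, MapsTo (f i) (R.U i) O) (hB : ∀ i, MapsTo (f i) (R.B i) K) :
    UC R fun i x => φ (f i x) := by
  have h1 : UC (X := fun _ : Unit => N) ⟨fun _ => O, fun _ => K, fun _ => hO, fun _ => hKO⟩
      fun _ => φ := of_compact (fun _ => hK) fun _ => hφ
  have key : ∀ n, ∀ {N' : Type} [NormedAddCommGroup N'] [NormedSpace ℝ N'] {φ : N → N'},
      Bn (X := fun _ : Unit => N) (fun _ => K) n (fun _ => φ) →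
        Bn (X := fun _ : J => N) (fun _ => K) n fun _ => φ := by
    intro n
    induction n with
    | zero => exact fun ⟨C, hC⟩ => ⟨C, fun _ => hC ()⟩
    | succ n ih =>
      intro N' _ _ φ ⟨⟨C, hC⟩, h⟩
      exact ⟨⟨C, fun _ => hC ()⟩, ih (φ := _root_.fderiv ℝ φ) h⟩
  exact cmp (R' := ⟨fun _ => O, fun _ => K, fun _ => hO, fun _ => hKO⟩) (G := fun _ => φ)
    ⟨fun _ => hφ, fun n => key n (h1.bd n)⟩ h hU hB

end UC

theorem hasFDerivAt_inverse {X E F : Type} [NormedAddCommGroup X] [NormedSpace ℝ X]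
    [NormedAddCommGroup E] [NormedSpace ℝ E] [NormedAddCommGroup F] [NormedSpace ℝ F]
    {L : X → E →L[ℝ] F} {x : X} (hi : ∀ᶠ y in 𝓝 x, (L y).IsInvertible)
    (hL : DifferentiableAt ℝ L x) (hG : DifferentiableAt ℝ (fun y => (L y).inverse) x) :
    fderiv ℝ (fun y => (L y).inverse) x =
      -((ContinuousLinearMap.compL ℝ F E E).flip (L x).inverse ∘L
        (ContinuousLinearMap.compL ℝ E F E (L x).inverse ∘L fderiv ℝ L x)) := by
  have h1 : (fun y => (L y).inverse ∘L L y) =ᶠ[𝓝 x] fun _ => ContinuousLinearMap.id ℝ E :=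
    hi.mono fun y hy => ContinuousLinearMap.ext fun u => inverse_apply hy u
  have h2 := h1.fderiv_eq (𝕜 := ℝ)
  rw [fderiv_clm_comp hG hL, fderiv_fun_const] at h2
  ext v u
  have h3 := congrArg (fun T : X →L[ℝ] E →L[ℝ] E => T v ((L x).inverse u)) h2
  simp only [add_apply, ContinuousLinearMap.comp_apply, ContinuousLinearMap.compL_apply,
    ContinuousLinearMap.flip_apply, apply_inverse hi.self_of_nhds, Pi.zero_apply, zero_apply] at h3
  simpa using eq_neg_of_add_eq_zero_right h3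

/-- inversion -/
theorem UC.inverse [∀ i, CompleteSpace (Z i)] {L : ∀ i, X i → Z i →L[ℝ] Z' i} (h : UC R L)
    (hi : ∀ i, ∀ x ∈ R.U i, (L i x).IsInvertible) (hb : Bd R.B fun i x => (L i x).inverse) :
    UC R fun i x => (L i x).inverse := by
  have hs : R.Sm fun i x => (L i x).inverse := fun i x hx => by
    obtain ⟨e, he⟩ := hi i x hx
    have := contDiffAt_map_inverse (𝕜 := ℝ) (n := ∞) e
    rw [he] at this
    exact this.comp_contDiffWithinAt x (h.sm i x hx)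
  refine ⟨hs, fun n => ?_⟩
  induction n with
  | zero => exact hb
  | succ n ih =>
    have b1 : Bv fun i => (ContinuousLinearMap.compL ℝ (Z i) (Z' i) (Z i)).precompR (X i) :=
      bv_compL.of_le fun i => ContinuousLinearMap.norm_precompR_le _ _
    have b2 : Bv fun i => -(ContinuousLinearMap.compL ℝ (Z' i) (Z i) (Z i)).precompL (X i) :=
      bv_compL.of_le fun i => (norm_neg _).le.trans (ContinuousLinearMap.norm_precompL_le _ _)
    refine ⟨hb, (Bn.bil n b2 (hs.bil _ h.sm.fderiv) hs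
      (Bn.bil n b1 hs h.sm.fderiv ih (h.fderiv.bd n)) ih).congr n fun i x hx => ?_⟩
    rw [hasFDerivAt_inverse (eventually_of_mem ((R.op i).mem_nhds hx) (hi i)) (h.sm.diff hx)
      (hs.diff hx)]
    ext v u
    simp

/-- the uniform `C^{1,1}` bounds on convex regions -/
theorem UC.c11 (h : UC R f) (hc : ∀ i, Convex ℝ (R.B i)) : ∃ K, 0 ≤ K ∧ ∀ i, ∀ x ∈ R.B i,
    ‖f i x‖ ≤ K ∧ ‖_root_.fderiv ℝ (f i) x‖ ≤ K ∧ ∀ y ∈ R.B i, ‖f i y - f i x‖ ≤ K * ‖y - x‖ ∧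
      ‖_root_.fderiv ℝ (f i) y - _root_.fderiv ℝ (f i) x‖ ≤ K * ‖y - x‖ := by
  obtain ⟨K₀, h0, hK₀⟩ := h.bd0.nn
  obtain ⟨K₁, h1, hK₁⟩ := h.fderiv.bd0.nn
  obtain ⟨K₂, h2, hK₂⟩ := h.fderiv.fderiv.bd0.nn
  refine ⟨K₀ + K₁ + K₂, by positivity, fun i x hx => ⟨by linarith [hK₀ i x hx],
    by linarith [hK₁ i x hx], fun y hy => ⟨?_, ?_⟩⟩⟩
  · exact (hc i).norm_image_sub_le_of_norm_fderiv_le (fun z hz => h.sm.diff (R.sub i hz))
      (fun z hz => by linarith [hK₁ i z hz]) hx hy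
  · exact (hc i).norm_image_sub_le_of_norm_fderiv_le (fun z hz => h.sm.fderiv.diff (R.sub i hz))
      (fun z hz => by linarith [hK₂ i z hz]) hx hy

end Crest.Agent.X212.Mon62
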