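import Crest.Agent.X212.Mon62.NkN
import Crest.Agent.X212.Dgr80.Defs

/-! # Row 212, NK-SM: the engine of `Dgr80/Defs` with letters that depend on the parameter -/

set_option autoImplicit false
set_option linter.unusedSectionVars false
set_option maxSynthPendingDepth 3
noncomputable section
open scoped Manifold ContDiff Topology InnerProductSpace
open MeasureTheory Set Function Filter

namespace Crest.Agent.X212.Mon62
open An Sob92 Prm93 Wz78 Dgr80
open Ell97 (UB)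
open Wrd81 (wd)

/-- families of lists all of whose letters lie in the class `P` -/
inductive Fa {J : Type} {Y : J → Type} {β : Type} (P : (∀ i, Y i → β) → Prop) :
    (∀ i, Y i → List β) → Prop
  | nil : Fa P fun _ _ => []
  | cons {t w} : P t → Fa P w → Fa P fun i y => t i y :: w i y

section fa
variable {J : Type} {Y : J → Type} {β γ : Type} {P : (∀ i, Y i → β) → Prop}
  {Q : (∀ i, Y i → γ) → Prop} {w w' : ∀ i, Y i → List β}

theorem Fa.list {α : Type} {L : α → ∀ i, Y i → β} :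
    ∀ {u : List α}, (∀ a ∈ u, P (L a)) → Fa P fun i y => u.map fun a => L a i y
  | [], _ => .nil
  | a :: _, h => .cons (h a List.mem_cons_self) (list fun b hb => h b (List.mem_cons_of_mem a hb))

theorem Fa.map (h : Fa P w) {f : ∀ i, Y i → β → γ} (e : ∀ t, P t → Q fun i y => f i y (t i y)) :
    Fa Q fun i y => (w i y).map (f i y) := by
  induction h with
  | nil => exact .nil
  | cons ht _ ih => exact .cons (e _ ht) ih

theorem Fa.append (h : Fa P w) (h' : Fa P w') : Fa P fun i y => w i y ++ w' i y := by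
  induction h with
  | nil => exact h'
  | cons ht _ ih => exact .cons ht ih

end fa

section lin
variable {U V : Type} [NormedAddCommGroup U] [InnerProductSpace ℝ U] [CompleteSpace U]
  [NormedAddCommGroup V] [InnerProductSpace ℝ V] [CompleteSpace V]

variable (U V) in
/-- the adjoint as a linear map -/
def adjL : CL (CL U V) (CL V U) := LinearMap.mkContinuous
  { toFun := fun T => ContinuousLinearMap.adjoint T
    map_add' := map_add _
    map_smul' := fun c T => by simp } 1 fun T => by simp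

/-- `tp` as a bilinear map -/
def tpL (r : CL U (CL V V)) : CL V (CL V U) := adjL U V ∘L r.flip

end lin

variable {E : Type} [NormedAddCommGroup E] [NormedSpace ℝ E] [FiniteDimensional ℝ E]
  [MeasurableSpace E] [BorelSpace E]
  {HM : Type} [TopologicalSpace HM] {I : ModelWithCorners ℝ E HM}
  {M : Type} [TopologicalSpace M] [ChartedSpace HM M] [IsManifold I ∞ M]
  [MeasurableSpace M] [T2Space M] [BorelSpace M] [SecondCountableTopology M] {ι : Type} [Fintype ι]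
  {lam : Type} [Fintype lam]
  {J : Type} {X Y : J → Type} [∀ i, NormedAddCommGroup (X i)] [∀ i, NormedSpace ℝ (X i)]
  {D : Dm I M ι X Y}

namespace Dm
variable {U V W : Type} [NormedAddCommGroup U] [InnerProductSpace ℝ U] [CompleteSpace U]
  [NormedAddCommGroup V] [InnerProductSpace ℝ V] [CompleteSpace V]
  [NormedAddCommGroup W] [InnerProductSpace ℝ W] [CompleteSpace W]

variable (D)

/-- fields of operators that act on the families of level `j` -/
def Ap (j : ℕ) (T : ∀ i, Y i → M → CL V W) : Prop :=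
  ∀ ε w, D.A0 ε j w → D.A0 ε j fun i y x => T i y x (w i y x)

/-- admissible semantic letters -/
def SLk (j : ℕ) (L : ∀ i, Y i → SL M V) : Prop :=
  (∃ T, (L = fun i y => .op (T i y)) ∧ D.Ap j T ∧
    D.Ap j fun i y x => ContinuousLinearMap.adjoint (T i y x)) ∨ L = fun _ _ => .G

/-- a connection whose resolvent and covariant derivative act on the families of level `j` -/
structure Eng (G : ∀ i, X i → Fr I M ι) (j : ℕ) (A : ∀ i, Y i → ι → M → CL V V) : Prop where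
  hj : 8 ≤ j
  res : ∀ {ε s}, D.A0 ε j s → D.A0 ε (j + 1) fun i y => (G i (D.pt i y)).res (A i y) (s i y)
  nab : ∀ {ε w}, D.A0 ε (j + 1) w → ∀ a,
    D.A0 ε j fun i y => nab I (G i (D.pt i y)).e (A i y) a (w i y)

variable {D} {G : ∀ i, X i → Fr I M ι} {j : ℕ} {A : ∀ i, Y i → ι → M → CL V V} {ε ε' : Prop}
  {u v l s : ∀ i, Y i → M → V}

theorem Eng.of [I.Boundaryless] (hj : 8 ≤ j) (hF : D.FF G) (hB : D.RB V G) (hE : D.RE V G)
    (hA : ∀ c, D.Mul j fun i y => A i y c) (hs : ∀ i y c x, Skew (A i y c x)) : D.Eng G j A := by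
  refine ⟨hj, fun h => ?_, fun h => h.nab hF (by omega) hA⟩
  obtain ⟨l, rfl⟩ : ∃ l, j = l + 1 := ⟨j - 1, by omega⟩
  exact (h.lower (by omega) l.le_succ).res hF hB hE (by omega) hA hs

theorem A0.ap (β : CL U (CL V W)) (hj : 7 ≤ j) {a : ∀ i, Y i → M → U} (h : D.A0 ε j a) :
    D.Ap j fun i y x => β (a i y x) := fun _ _ hw =>
  (h.bil β (Lev.self hj) (by omega) hw).imp Or.inr

theorem Ap.fixed (hj : 4 ≤ j) {T : J → M → CL V W} (h : UB D.P T) : D.Ap j fun i _ => T i :=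
  fun _ _ hw => hw.app hj h

theorem Ap.smul (hj : 7 ≤ j) {f : ∀ i, Y i → M → ℝ} (hf : D.A0 ε j f)
    {T : ∀ i, Y i → M → CL V W} (h : D.Ap j T) : D.Ap j fun i y x => f i y x • T i y x :=
  fun _ _ hw => (A0.smul (Lev.self hj) (by omega) hf (h _ _ hw)).imp Or.inr

theorem Ap.sum {α : Type} [Fintype α] {T : α → ∀ i, Y i → M → CL V W} (h : ∀ a, D.Ap j (T a)) :
    D.Ap j fun i y x => ∑ a, T a i y x := fun _ _ hw =>
  (A0.fsum Finset.univ fun a _ => h a _ _ hw).congr fun _ _ _ => _root_.sum_apply _ _ _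

theorem SLk.fixed (hj : 4 ≤ j) {T : J → M → CL V V} (h : UB D.P T) :
    D.SLk j fun i _ => .op (T i) :=
  .inl ⟨_, rfl, .fixed hj h, .fixed hj (h.clm (adjL V V))⟩

/-- sums of fixed fields with moving coefficients -/
theorem SLk.sum (hj : 7 ≤ j) {α : Type} [Fintype α] {f : α → ∀ i, Y i → M → ℝ}
    (hf : ∀ a, D.A0 ε j (f a)) {T : α → J → M → CL V V} (h : ∀ a, UB D.P (T a)) :
    D.SLk j fun i y => .op fun x => ∑ a, f a i y x • T a i x := by
  refine .inl ⟨_, rfl, Ap.sum fun a => (Ap.fixed (by omega) (h a)).smul hj (hf a), ?_⟩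
  have := Ap.sum fun a => (Ap.fixed (by omega : 4 ≤ j) ((h a).clm (adjL V V))).smul hj (hf a)
  exact fun _ _ hw => (this _ _ hw).congr fun i y x => by
    congr 1
    exact (map_sum (adjL V V) _ _).trans (Finset.sum_congr rfl fun a _ => map_smul _ _ _)

theorem SLk.smul (hj : 7 ≤ j) {f : ∀ i, Y i → M → ℝ} (hf : D.A0 ε j f) :
    D.SLk j fun i y => .op fun x => f i y x • (1 : CL V V) := by
  simpa using SLk.sum (α := Unit) hj (fun _ => hf) fun _ => UB.const (1 : CL V V)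

theorem A0.inner (hj : 7 ≤ j) (h : D.A0 ε j u) (h' : D.A0 ε' j v) :
    D.A0 (ε ∨ ε') j fun i y x => ⟪u i y x, v i y x⟫_ℝ :=
  h.bil (innerSL ℝ) (Lev.self hj) (by omega) h'

theorem A0.sq (hj : 7 ≤ j) (h : D.A0 ε j u) : D.A0 ε j fun i y x => ‖u i y x‖ ^ 2 :=
  ((h.inner hj h).imp Or.inl).congr fun _ _ _ => (real_inner_self_eq_norm_sq _).symm

theorem A0.mul (hj : 7 ≤ j) {f g : ∀ i, Y i → M → ℝ} (h : D.A0 ε j f) (h' : D.A0 ε' j g) :
    D.A0 (ε ∨ ε') j fun i y x => f i y x * g i y x := A0.smul (Lev.self hj) (by omega) h h'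

theorem A0.isq (hj : 8 ≤ j) (h : D.A0 ε j u) :
    D.A0 False j fun i y x => (√(1 + ‖u i y x‖ ^ 2))⁻¹ :=
  ((h.sq (by omega)).comp hj contDiff_isq).congr fun _ _ _ => (isq_eq (sq_nonneg _)).symm

/-- pointwise normalisation -/
theorem A0.nrm (hj : 8 ≤ j) (h : D.A0 ε j u) :
    D.A0 ε j fun i y x => (√(1 + ‖u i y x‖ ^ 2))⁻¹ • u i y x :=
  (A0.smul (Lev.self (by omega)) (by omega) (h.isq hj) h).imp Or.inr

theorem A0.tp (r : CL U (CL V V)) (hj : 7 ≤ j) (h : D.A0 ε j u) (h' : D.A0 ε' j v) :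
    D.A0 (ε ∨ ε') j fun i y x => tp r (u i y x) (v i y x) :=
  h.bil (tpL r) (Lev.self hj) (by omega) h'

namespace Eng
variable (h : D.Eng G j A) {L : ∀ i, Y i → SL M V} {w : ∀ i, Y i → List (SL M V)}
include h

theorem low (hu : D.A0 ε (j + 1) u) : D.A0 ε j u := hu.lower (h.hj.trans' (by omega)) j.le_succ

theorem sl (hL : D.SLk j L) (hu : D.A0 ε j u) :
    D.A0 ε j fun i y => sl (G i (D.pt i y)) (A i y) (L i y) (u i y) := by
  rcases hL with ⟨T, rfl, h1, -⟩ | rfl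
  · exact h1 _ _ hu
  · exact h.low (h.res hu)

theorem slT (hL : D.SLk j L) (hu : D.A0 ε j u) :
    D.A0 ε j fun i y => slT (G i (D.pt i y)) (A i y) (L i y) (u i y) := by
  rcases hL with ⟨T, rfl, -, h1⟩ | rfl
  · exact h1 _ _ hu
  · exact h.low (h.res hu)

theorem wd (hw : Fa (D.SLk j) w) (hs : D.A0 ε j s) :
    D.A0 ε j fun i y => wd (Dgr80.sl (G i (D.pt i y)) (A i y)) (s i y) (w i y) := by
  induction hw with
  | nil => exact hs
  | cons ht _ ih => exact h.sl ht ih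

theorem bk (hw : Fa (D.SLk j) w) : ∀ {l}, D.A0 ε j l →
    D.A0 ε j fun i y => bk (G i (D.pt i y)) (A i y) (w i y) (l i y) := by
  induction hw with
  | nil => exact id
  | cons ht _ ih => exact fun hl => ih (h.slT ht hl)

theorem cur (r : CL U (CL V V)) (hv : D.A0 ε (j + 1) v) (hl : D.A0 ε' (j + 1) l) :
    D.A0 (ε ∨ ε') j fun i y => cur (G i (D.pt i y)) (A i y) r (v i y) (l i y) :=
  have h7 : 7 ≤ j := h.hj.trans' (by omega)
  A0.toLp (by omega) fun a => ((h.low hv).tp r h7 (h.nab hl a)).add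
    (((h.low hl).tp r h7 (h.nab hv a)).imp Or.symm)

theorem gc (r : CL U (CL V V)) (hs : D.A0 False j s) (hw : Fa (D.SLk j) w) : ∀ {l}, D.A0 ε j l →
    D.A0 ε j fun i y => gc (G i (D.pt i y)) (A i y) r (s i y) (w i y) (l i y) := by
  induction hw with
  | nil => exact fun _ => A0.zero
  | cons ht hw ih =>
    intro l hl
    have h1 := ih (h.slT ht hl)
    rcases ht with ⟨T, rfl, -⟩ | rfl
    · exact h1
    · exact h1.sub (h.hj.trans' (by omega))
        ((h.cur r (h.res (h.wd hw hs)) (h.res hl)).imp Or.inr)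

end Eng

end Dm

namespace CF
open Dm
variable {μ : MF M ι lam J} {r n : ℕ} (κ : CF D μ r) (j : ℕ)

/-- functions whose differential is a family of level `j` -/
def Cd (g : ∀ i, Y i → M → ℝ) : Prop := ∀ a, D.A0 False j fun i y => (κ.F i y).D a (g i y)

/-- admissible letters of spinor words -/
inductive LtY : (∀ i, Y i → Lt M) → Prop
  | mul {f} : D.A0 False j f → LtY fun i y => .mul (f i y)
  | cl {g} : κ.Cd j g → LtY fun i y => .cl (g i y)
  | im : LtY fun _ _ => .im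
  | G : LtY fun _ _ => .G

variable (D) in
/-- admissible letters of adjoint words -/
inductive _root_.Crest.Agent.X212.Mon62.Dm.LaY : (∀ i, Y i → La M) → Prop
  | mul {f} : D.A0 False j f → Dm.LaY fun i y => .mul (f i y)
  | G : Dm.LaY fun _ _ => .G

/-- densities with gradients -/
structure DenS (d : ∀ i, Y i → Den M ι lam r) : Prop where
  h : D.A0 False j fun i y => (d i y).h (κ.c i y)
  gA : ∀ ε f, D.A0 ε j f → D.A0 ε j (V := Fm ι μ.A) fun i y => (d i y).gA (κ.c i y) (f i y)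
  gP : ∀ ε f, D.A0 ε j f → D.A0 ε j (V := μ.V) fun i y => (d i y).gP (κ.c i y) (f i y)

/-- seeds with gradients -/
structure SedS (S : ∀ i, Y i → Sed M ι lam r) : Prop where
  s : D.A0 False j (V := μ.A) fun i y => (S i y).s (κ.c i y)
  sA : ∀ ε (l : ∀ i, Y i → M → μ.A), D.A0 ε j l →
    D.A0 ε j (V := Fm ι μ.A) fun i y => (S i y).sA (κ.c i y) (l i y)
  sP : ∀ ε (l : ∀ i, Y i → M → μ.A), D.A0 ε j l →
    D.A0 ε j (V := μ.V) fun i y => (S i y).sP (κ.c i y) (l i y)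

variable {κ j}

theorem DenS.sed (hj : 7 ≤ j) {S S' : ∀ i, Y i → Sed M ι lam r} (h : κ.SedS j S)
    (h' : κ.SedS j S') : κ.DenS j fun i y => Den.sed (S i y) (S' i y) :=
  have m : ∀ {ε f} {s : ∀ i, Y i → M → μ.A}, D.A0 ε j f → D.A0 False j s →
      D.A0 ε j fun i y x => f i y x • s i y x := fun hf hs =>
    (A0.smul (Lev.self hj) (by omega) hf hs).imp Or.inl
  ⟨(h.s.inner hj h'.s).aff, fun _ _ hf => (h.sA _ _ (m hf h'.s)).add (h'.sA _ _ (m hf h.s)),
    fun _ _ hf => (h.sP _ _ (m hf h'.s)).add (h'.sP _ _ (m hf h.s))⟩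

namespace OK
variable {ε ε' : Prop} [I.Boundaryless] (h : κ.OK ε j) {u v : ∀ i, Y i → SW M}
  {w : ∀ i, Y i → List (La M)} {f g g' : ∀ i, Y i → M → ℝ}
include h

theorem h7 : 7 ≤ j := h.hj.trans' (by omega)

theorem engV : D.Eng κ.G j κ.W := .of h.hj h.F h.bV h.eV h.mulV h.sk

theorem engA : D.Eng κ.G j fun i y => μ.adW i (κ.W i y) :=
  .of h.hj h.F h.bA h.eA h.mulA fun i y c x => adc_skw (h.sk i y c x)

theorem ltS (hu : Fa (κ.LtY j) u) :
    Fa (D.SLk (V := μ.V) j) fun i y => (u i y).map (ltS (κ.F i y) (κ.c i y)) := hu.map fun t ht => by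
  cases ht with
  | mul hf => exact .smul h.h7 hf
  | cl hg => exact .sum h.h7 hg h.ρ
  | im => exact .fixed h.h4 (UB.const μ.Jc)
  | G => exact .inr rfl

theorem laS (hw : Fa (D.LaY j) w) :
    Fa (D.SLk (V := μ.A) j) fun i y => (w i y).map (laS (κ.c i y)) := hw.map fun t ht => by
  cases ht with
  | mul hf => exact .smul h.h7 hf
  | G => exact .inr rfl

theorem wdVY (hu : Fa (κ.LtY j) u) {s : ∀ i, Y i → M → μ.V} (hs : D.A0 ε' j s) :
    D.A0 ε' j (V := μ.V) fun i y => wd ((κ.c i y).lt (κ.F i y)) (s i y) (u i y) :=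
  (h.engV.wd (h.ltS hu) hs).congr fun i y => congrFun (lt_eq (κ.F i y) (κ.c i y) _ _)

theorem wdAY (hw : Fa (D.LaY j) w) {s : ∀ i, Y i → M → μ.A} (hs : D.A0 ε' j s) :
    D.A0 ε' j (V := μ.A) fun i y => wd ((κ.c i y).la (κ.F i y)) (s i y) (w i y) :=
  (h.engA.wd (h.laS hw) hs).congr fun i y => congrFun (la_eq (κ.F i y) (κ.c i y) _ _)

theorem swY (hu : Fa (κ.LtY j) u) :
    D.A0 ε j (V := μ.V) fun i y => (κ.c i y).sw (κ.F i y) (u i y) := h.wdVY hu h.Φ

theorem nP : D.A0 ε j (V := μ.V) fun i y => nP (κ.c i y) := h.Φ.nrm h.hj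

theorem nw (hu : Fa (κ.LtY j) u) :
    D.A0 ε j (V := μ.V) fun i y => nw (κ.F i y) (κ.c i y) (u i y) := h.wdVY hu h.nP

theorem dn {l : ∀ i, Y i → M → μ.V} (hl : D.A0 ε' j l) :
    D.A0 ε' j (V := μ.V) fun i y => dn (κ.c i y) (l i y) :=
  have h1 := h.Φ.isq h.hj
  ((A0.smul h.lev h.h4 h1 hl).imp Or.inr).sub h.h4 ((A0.smul h.lev h.h4
    ((h1.comp h.hj (contDiff_id.pow 3)).mul h.h7 (h.Φ.inner h.h7 hl)) h.Φ).imp
      fun e => .inl (.inr (.inr e)))

theorem pk_one : D.Ap j (V := μ.V) (W := μ.V) fun i y => pk (κ.c i y) .one := fun _ _ h => h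

theorem pk_re {s : ∀ i, Y i → M → Eu lam} (hs : D.A0 False j s) :
    D.Ap j (V := μ.V) (W := μ.V) fun i y => pk (κ.c i y) (.re (s i y)) := fun _ _ hw =>
  ((hs.app h.h4 ((UB.const hsL).comp h.j)).ap opL h.h7 _ _ hw).congr fun i y x => by
    simp only [ContinuousLinearMap.comp_apply, opL_hsL]; rfl

theorem pk_im {s : ∀ i, Y i → M → Eu lam} (hs : D.A0 False j s) :
    D.Ap j (V := μ.V) (W := μ.V) fun i y => pk (κ.c i y) (.im (s i y)) := fun _ _ hw =>
  (h.pk_re hs _ _ hw).clm h.h4 μ.Jc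

theorem denSw {T : ∀ i, Y i → Pk M lam}
    (hT : D.Ap j (V := μ.V) (W := μ.V) fun i y => pk (κ.c i y) (T i y)) (hu : Fa (κ.LtY j) u)
    (hv : Fa (κ.LtY j) v) : κ.DenS j fun i y => Den.sw (κ.F i y) (T i y) (u i y) (v i y) := by
  have m : ∀ {ε' f} {u : ∀ i, Y i → SW M}, D.A0 ε' j f → Fa (κ.LtY j) u →
      D.A0 ε' j (V := μ.V) fun i y x =>
        f i y x • pk (κ.c i y) (T i y) x (Dgr80.nw (κ.F i y) (κ.c i y) (u i y) x) := fun hf hu =>
    (A0.smul h.lev h.h4 hf (hT _ _ (h.nw hu))).imp Or.inl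
  exact ⟨((hT _ _ (h.nw hu)).inner h.h7 (h.nw hv)).aff,
    fun _ _ hf => (h.engV.gc opL h.nP.aff (h.ltS hu) (m hf hv)).add
      (h.engV.gc opL h.nP.aff (h.ltS hv) (m hf hu)),
    fun _ _ hf => (h.dn (h.engV.bk (h.ltS hu) (m hf hv))).add
      (h.dn (h.engV.bk (h.ltS hv) (m hf hu)))⟩

theorem sedWd {S : ∀ i, Y i → Sed M ι lam r} (hS : κ.SedS j S) (hw : Fa (D.LaY j) w) :
    κ.SedS j fun i y => (S i y).wd (κ.F i y) (w i y) :=
  ⟨h.wdAY hw hS.s, fun _ _ hl => (h.engA.gc (adR _) hS.s (h.laS hw) hl).add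
    (hS.sA _ _ (h.engA.bk (h.laS hw) hl)), fun _ _ hl => hS.sP _ _ (h.engA.bk (h.laS hw) hl)⟩

theorem cvY (hf : D.A0 ε' j f) (hg : κ.Cd j g) (hg' : κ.Cd j g') :
    D.A0 ε' j (V := μ.A) fun i y => (κ.c i y).sd (κ.F i y) (.cv (f i y) (g i y) (g' i y)) := by
  have := h.hj
  have h7 := h.h7
  obtain ⟨l, rfl⟩ : ∃ l, j = l + 1 := ⟨j - 1, by omega⟩
  have hl : 4 ≤ l := by omega
  refine h.engA.low (h.engA.res (((h.resA hl le_rfl (A0.fsum Finset.univ fun s _ => ?_)).lower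
    (by omega) (l + 1).le_succ)))
  exact (A0.smul (Lev.left h7 l.le_succ) hl ((hf.mul h7 (hg s.1)).mul h7 (hg' s.2))
    (h.Fg hl le_rfl s)).imp fun e => .inl (.inl (.inl e))

theorem qY (hu : Fa (κ.LtY j) u) (hv : Fa (κ.LtY j) v) :
    D.A0 ε j (V := μ.A) fun i y => (κ.c i y).sd (κ.F i y) (.q (u i y) (v i y)) :=
  (h.q (h.swY hu) (h.swY hv)).imp Or.inl

/-- the two-form `dg ∧ dg' ⊗ ξ` -/
theorem wedge (hg : κ.Cd j g) (hg' : κ.Cd j g') {ξ : ∀ i, Y i → M → μ.A} (hξ : D.A0 ε' j ξ) :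
    D.A0 ε' j fun i y x => (WithLp.toLp 2 fun s : ι × ι =>
      ((κ.F i y).D s.1 (g i y) x * (κ.F i y).D s.2 (g' i y) x) • ξ i y x : Fm (ι × ι) μ.A) :=
  A0.toLp h.h4 fun s => (A0.smul h.lev h.h4 ((hg s.1).mul h.h7 (hg' s.2)) hξ).imp Or.inr

/-- the covariant derivative of the spinor along the gradient of `g` (one level lower) -/
theorem ntΦ {l : ℕ} (hl : l + 1 = j) (hg : κ.Cd j g) :
    D.A0 ε l (V := μ.V) fun i y => nt (κ.F i y) (κ.W i y) (g i y) (κ.Φ i y) := by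
  subst hl
  have := h.hj
  exact A0.fsum Finset.univ fun a _ => (A0.smul (Lev.left h.h7 l.le_succ) (by omega) (hg a)
    (h.Φ.nab h.F (by omega) (fun c => (h.mulV c).lower l.le_succ) a)).imp Or.inr

end OK

end CF

end Crest.Agent.X212.Mon62
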