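import Crest.Agent.X212.Mon62.Wrd
import Crest.Agent.X212.Nk89.WRes
import Crest.Agent.X212.Ell97.Main
import Crest.Agent.X212.Prm93.Chg

/-! # Row 212, WORDH: the hypotheses `RB`, `RE`, `TmU`, `Pu`; inputs and outputs -/

set_option autoImplicit false
set_option linter.unusedSectionVars false
set_option maxSynthPendingDepth 3
noncomputable section
open scoped Manifold ContDiff Topology InnerProductSpace
open MeasureTheory Set Function Filter

namespace Crest.Agent.X212.Mon62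
open An Sob92 Prm93 Wz78
open Ell97 (UB)

variable {E : Type} [NormedAddCommGroup E] [NormedSpace ℝ E] [FiniteDimensional ℝ E]
  [MeasurableSpace E] [BorelSpace E]
  {HM : Type} [TopologicalSpace HM] {I : ModelWithCorners ℝ E HM}
  {M : Type} [TopologicalSpace M] [ChartedSpace HM M] [IsManifold I ∞ M]
  [MeasurableSpace M] [T2Space M] [BorelSpace M] [SecondCountableTopology M] {ι : Type} [Fintype ι]
  {lam : Type} [Fintype lam]
  {J : Type} {X Y : J → Type} [∀ i, NormedAddCommGroup (X i)] [∀ i, NormedSpace ℝ (X i)]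
  {N : Type} [NormedAddCommGroup N] [NormedSpace ℝ N]
  {V : Type} [NormedAddCommGroup V] [InnerProductSpace ℝ V]

section one
variable {F₀ F₁ : Pre I M ι} {F : Fr I M ι} {l : ℕ}

variable (V F₀ F) in
/-- the resolvent of the frame `F` on the scale of `F₀` -/
def RB1 : Prop := ∀ l R, ∃ K, ∀ T ∈ closure (Adm V F₀ l), ‖T‖ ≤ R →
  Bijective (QQ F₀ F l T) ∧ ∀ u, ‖u‖ ≤ K * ‖QQ F₀ F l T u‖

/-- conjugation of multipliers -/
def cjM (h : Cmp F₀ F₁) (k : ℕ) (T : HT F₀ V k →L[ℝ] HT F₀ V k) : HT F₁ V k →L[ℝ] HT F₁ V k :=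
  (chg k (triv M V) h : HT F₀ V k →L[ℝ] HT F₁ V k) ∘L T ∘L
    ((chg k (triv M V) h).symm : HT F₁ V k →L[ℝ] HT F₀ V k)

theorem chg_Nb (h : Cmp F₀ F₁) (h₀ : Act V F₀ F) (h₁ : Act V F₁ F) (k : ℕ)
    (T : HT F₀ V k →L[ℝ] HT F₀ V k) (c : ι) (u : HT F₀ V (k + 1)) :
    chg k _ h (Nb F₀ F k T c u) = Nb F₁ F k (cjM h k T) c (chg (k + 1) _ h u) := by
  simp only [Nb, cjM, add_apply, map_add, ContinuousLinearMap.comp_apply,
    chg_rep h (h₀.D k c) (h₁.D k c), ← chg_incl h k.le_succ, ContinuousLinearEquiv.coe_coe,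
    ContinuousLinearEquiv.symm_apply_apply]

theorem chg_QQ (h : Cmp F₀ F₁) (h₀ : Act V F₀ F) (h₁ : Act V F₁ F) (T : Mu F₀ V l)
    (u : HT F₀ V (l + 2)) : chg l _ h (QQ F₀ F l T u) =
      QQ F₁ F l (fun c => cjM h l (T.1 c), fun c => cjM h (l + 1) (T.2 c)) (chg (l + 2) _ h u) := by
  simp only [QQ, sub_apply, map_sub, _root_.sum_apply, map_sum, add_apply, map_add,
    ContinuousLinearMap.comp_apply, chg_Nb h h₀ h₁, chg_incl h l.le_succ,
    chg_incl h (l.le_add_right 2), fun c => chg_rep h (rep_smulH (k := l) (p := triv M V) (h₀.dv c))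
      (rep_smulH (h₁.dv c))]

theorem RB1.chg (h : Cmp F₀ F₁) (h₀ : Act V F₀ F) (h₁ : Act V F₁ F) (hR : RB1 V F₁ F) :
    RB1 V F₀ F := fun l R => by
  let φ : Mu F₀ V l → Mu F₁ V l := fun T =>
    (fun c => cjM h l (T.1 c), fun c => cjM h (l + 1) (T.2 c))
  have hφ : Continuous φ := by
    unfold φ cjM
    exact (continuous_pi fun c => continuous_const.clm_comp (Continuous.clm_comp (by fun_prop)
      continuous_const)).prodMk (continuous_pi fun c => continuous_const.clm_comp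
        (Continuous.clm_comp (by fun_prop) continuous_const))
  have hm : MapsTo φ (Adm V F₀ l) (Adm V F₁ l) := fun T ⟨A, h1, h2, h3, h4⟩ =>
    ⟨A, h1, h2, fun c => rep_conj h.symm (h3 c), fun c => rep_conj h.symm (h4 c)⟩
  let a := fun k => ‖(Prm93.chg k (triv M V) h : HT F₀ V k →L[ℝ] HT F₁ V k)‖
  let b := fun k => ‖((Prm93.chg k (triv M V) h).symm : HT F₁ V k →L[ℝ] HT F₀ V k)‖
  have hn : ∀ k (T : HT F₀ V k →L[ℝ] HT F₀ V k), ‖T‖ ≤ R → ‖cjM h k T‖ ≤ a k * (|R| * b k) :=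
    fun k T hT => (ContinuousLinearMap.opNorm_comp_le _ _).trans (mul_le_mul_of_nonneg_left
      ((ContinuousLinearMap.opNorm_comp_le _ _).trans (mul_le_mul_of_nonneg_right
        (hT.trans (le_abs_self R)) (norm_nonneg _))) (norm_nonneg _))
  obtain ⟨K, hK⟩ := hR l (max (a l * (|R| * b l)) (a (l + 1) * (|R| * b (l + 1))))
  refine ⟨b (l + 2) * (|K| * a l), fun T hT hTR => ?_⟩
  obtain ⟨k1, k2⟩ := hK (φ T) (hm.closure hφ hT) (max_le_max
    ((pi_norm_le_iff_of_nonneg (by positivity)).2 fun c =>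
      hn _ _ ((norm_le_pi_norm T.1 c).trans ((norm_fst_le T).trans hTR)))
    ((pi_norm_le_iff_of_nonneg (by positivity)).2 fun c =>
      hn _ _ ((norm_le_pi_norm T.2 c).trans ((norm_snd_le T).trans hTR))))
  have e : Prm93.chg l _ h ∘ QQ F₀ F l T = QQ F₁ F l (φ T) ∘ Prm93.chg (l + 2) _ h :=
    funext (chg_QQ h h₀ h₁ T)
  refine ⟨(Bijective.of_comp_iff' (Prm93.chg l _ h).bijective _).1
    (e ▸ k1.comp (Prm93.chg (l + 2) _ h).bijective), fun u => ?_⟩
  have h1 := ((Prm93.chg (l + 2) (triv M V) h).symm :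
    HT F₁ V (l + 2) →L[ℝ] HT F₀ V (l + 2)).le_opNorm
    (Prm93.chg (l + 2) _ h u)
  rw [ContinuousLinearEquiv.coe_coe, ContinuousLinearEquiv.symm_apply_apply] at h1
  have h2 := k2 (Prm93.chg (l + 2) _ h u)
  rw [← chg_QQ h h₀ h₁] at h2
  rw [mul_assoc, mul_assoc]
  exact h1.trans (mul_le_mul_of_nonneg_left (h2.trans (mul_le_mul (le_abs_self K)
    ((Prm93.chg l (triv M V) h : HT F₀ V l →L[ℝ] HT F₁ V l).le_opNorm _) (norm_nonneg _)
    (abs_nonneg K))) (norm_nonneg _))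

variable [FiniteDimensional ℝ V] [I.Boundaryless] {C : ℕ → ℝ}

theorem rb1_dr {F' : Fr I M ι} {d : ℕ → ℝ} (h : Nk89.Dr F F' d) (hF : F'.Tame C) :
    RB1 V F'.toPre F := fun l R =>
  let ⟨K, _, hK⟩ := Nk89.res_unif (I := I) (M := M) (ι := ι) (V := V) C d l R
  ⟨K, hK F F' h hF (Ell97.reg V F')⟩

omit [I.Boundaryless] in
theorem dr_refl (F : Fr I M ι) : Nk89.Dr F F fun _ => 0 :=
  ⟨rfl, fun a => by
    simp only [sub_self]
    exact ⟨contMDiff_const, fun k => by simpa using CB_const k (0 : ℝ)⟩, fun x => by simp⟩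

theorem rb1_cmp (h : Cmp F₀ F.toPre) (h₀ : Act V F₀ F) (hF : F.Tame C) : RB1 V F₀ F :=
  (rb1_dr (dr_refl F) hF).chg h h₀ (act_self hF)

/-- existence of the resolvent on closed manifolds -/
theorem exists_res [CompactSpace M] (hF : F.Tame C) {A : ι → M → V →L[ℝ] V} (hA : ∀ c, Sm I (A c))
    (hs : ∀ c x, Skew (A c x)) {s : M → V} (h : Sm I s) : ∃ u, F.IsRes A s u := by
  have hA' := fun c => Cb_of_compact (F := F.toPre) (hA c)
  have hb := Ell97.lap_bij hF hA' hs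
  have hr := Ell97.rep_lapH hF hA' hs
  let σ : Sec I (triv M V) := ⟨s, mem_triv h (HasCompactSupport.of_compactSpace _)⟩
  choose x hx using fun k => (hb k).2 (F.toH k _ σ)
  obtain ⟨u, hu⟩ := Ell97.sec_of_all hF (x := x 0) fun j hj => by
    obtain ⟨k, rfl⟩ : ∃ k, j = k + 2 := ⟨j - 2, by omega⟩
    refine ⟨x k, (hb 0).1 ?_⟩
    rw [← Rep_incl (hr k) (hr 0) (by omega) k.zero_le, hx, hx, incl_toH k.zero_le]
  have h1 := hx 0
  rw [← hu, RepT_toH (hr 0)] at h1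
  obtain ⟨c, hc⟩ := (Cb_of_compact (F := F.toPre) u.2.1)
  exact ⟨u.1, u.2.1, ⟨c 0, CB_bound (hc.2 0)⟩,
    congrFun (congrArg Subtype.val (Ell97.toH_inj F 0 _ h1))⟩

end one

namespace Dm
variable {D : Dm I M ι X Y} {G : ∀ i, X i → Fr I M ι} {ε ε' : Prop} {j : ℕ}
  {w : ∀ i, Y i → M → V}

theorem FF.act (h : D.FF G) {i : J} {x : X i} (hx : x ∈ D.U i) : Act V (D.P i) (G i x) :=
  let ⟨_, s1, s2⟩ := h.mix
  act_mix (s2 i x hx) (fun a b => (s1 a b).us.cb i x hx) fun c => (h.dv c).us.cb i x hx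

theorem rb_of_finite [Finite J] (hB : ∀ i, (D.B i).Finite)
    (h : ∀ i, ∀ x ∈ D.U i, RB1 V (D.P i) (G i x)) : D.RB V G := fun l _ => by
  refine ⟨fun i x hx T hT => ?_, fun R => ?_⟩
  · obtain ⟨K, hK⟩ := h i x hx l ‖T‖
    exact (hK T hT le_rfl).1
  · have := fun i => (hB i).to_subtype
    choose K hK using fun z : Σ i, D.B i => h z.1 z.2 (D.sub _ z.2.2) l R
    obtain ⟨L, hL⟩ := (finite_range K).bddAbove
    exact ⟨L, fun i x hx T hT hR u => ((hK ⟨i, x, hx⟩ T hT hR).2 u).trans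
      (mul_le_mul_of_nonneg_right (hL (mem_range_self _)) (norm_nonneg _))⟩

/-- frames that differ from the Sobolev frames by a small drift (weights) -/
theorem rb_of_dr [FiniteDimensional ℝ V] [I.Boundaryless] {d : ℕ → ℝ}
    (h : ∀ i, ∀ x ∈ D.U i, Nk89.Dr (G i x) (D.F i) d) : D.RB V G := fun l _ => by
  have h1 := Nk89.res_unif (I := I) (M := M) (ι := ι) (V := V) D.C d l
  refine ⟨fun i x hx T hT => ?_, fun R => ?_⟩
  · obtain ⟨K, -, hK⟩ := h1 ‖T‖
    exact (hK _ _ (h i x hx) (D.tame i) (Ell97.reg V _) T hT le_rfl).1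
  · obtain ⟨K, -, hK⟩ := h1 R
    exact ⟨K, fun i x hx T hT hR =>
      (hK _ _ (h i x (D.sub i hx)) (D.tame i) (Ell97.reg V _) T hT hR).2⟩

theorem re_of_finite [Finite J] [BoundarylessManifold I M] (hF : D.FF G)
    (h : ∀ i y (A : ι → M → V →L[ℝ] V) (s : M → V), (∀ c, (D.P i).Cb (A c)) →
      (∀ c x, Skew (A c x)) → (D.P i).Cb s → ∃ u, (G i (D.pt i y)).IsRes A s u ∧ (D.P i).Cb u) :
    D.RE V G := ⟨h, fun A s hA hs hu => ub_of_finite fun i => by
  obtain ⟨u, h1, h2⟩ := h i (D.y₀ i) (A i) (s i) (fun c => (hA c).cb i) (hs i) (hu.cb i)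
  rwa [Mp86.res_eq (hF.bump i _) ⟨fun c => (hA c).sm i, hs i⟩ h1]⟩

theorem re_compact [Finite J] [CompactSpace M] [FiniteDimensional ℝ V] [I.Boundaryless]
    (hF : D.FF G) (hG : ∀ i y, ∃ C, (G i (D.pt i y)).Tame C) : D.RE V G :=
  re_of_finite hF fun i y _ _ hA hs h =>
    let ⟨_, hC⟩ := hG i y
    let ⟨u, hu⟩ := exists_res hC (fun c => Cb.sm (hA c)) hs (Cb.sm h)
    ⟨u, hu, Cb_of_compact hu.1⟩

/-- constant families of frames with the same vector fields -/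
theorem ff_fixed {F' : J → Fr I M ι} (he : ∀ i, (F' i).e = (D.F i).e)
    (hd : ∀ a, UB D.P fun i => (F' i).dv a) (hc : ∀ a b k, UB D.P fun i => (F' i).c a b k)
    (hb : ∀ i, Mp86.Bumps I (F' i).e (F' i).dv) {ρ : J → M → ℝ} (hρ : UB D.P ρ)
    (hμ : ∀ i (g : M → ℂ), ∫ x, g x ∂(F' i).μ = ∫ x, ρ i x • g x ∂(D.P i).μ) :
    D.FF fun i _ => F' i := by
  classical
  exact ⟨⟨fun a b _ _ _ => if a = b then 1 else 0, fun a b => Lc.fixed (UB.const _),
    fun i _ _ a x => by simp [he]⟩, fun a => Lc.fixed (hd a), fun a b k => Lc.fixed (hc a b k),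
    fun i _ => hb i, _, US.fixed hρ, fun i _ => hμ i⟩

variable [CompleteSpace V]

theorem A0.of_cs [Finite J] (hj : 4 ≤ j) {b : J → M → V} (h : ∀ i, Sm I (b i))
    (hc : ∀ i, HasCompactSupport (b i)) : D.A0 ε j fun i _ => b i :=
  A0.of_hcs hj (ub_of_finite fun i => Cb_of_hcs (h i) (hc i)) hc
    (let ⟨L, hL⟩ := (finite_range fun i => (D.P i).nrm j (b i)).bddAbove
    ⟨L, fun i => hL (mem_range_self i)⟩)

theorem A0.pure_compact [Finite J] [CompactSpace M] (hj : 4 ≤ j) (h : D.A0 ε j w) :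
    D.A0 ε' j w :=
  h.pure_of_base (A0.of_cs hj h.sz.ub.sm fun _ => HasCompactSupport.of_compactSpace _)

/-- input: coordinates of the Banach model -/
theorem A0.of_coord (hj : 4 ≤ j) {p : J → M → V →L[ℝ] V} {δ : ∀ i, X i → (D.P i).H j (p i)}
    (hδ : UC D.toRg δ) (hs : D.Sz w) (e : ∀ i y, w i y = (D.P i).val j _ (δ i (D.pt i y))) :
    D.A0 ε j w :=
  A0.of_pure hs (hδ.clm (L := fun i => fg (D.P i) j (p i)) ⟨1, fun _ =>
    ContinuousLinearMap.opNorm_le_bound _ zero_le_one fun x => by rw [norm_fg, one_mul]⟩)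
    fun i y x => by rw [vl, val_fg (D.sup i) hj, e]

/-- output: a pure family as a map into the Sobolev space of a bundle -/
theorem A0.out (hj : 4 ≤ j) {q : J → M → V →L[ℝ] V} (hq : UB D.P q)
    (hi : ∀ i x v, q i x (q i x v) = q i x v) (h : D.A0 True j w) :
    ∃ f : ∀ i, X i → (D.P i).H j (q i), UC D.toRg f ∧
      ∀ i y x, (D.P i).val j _ (f i (D.pt i y)) x = q i x (w i y x) := by
  obtain ⟨δ, h1, h2⟩ := h.pure
  obtain ⟨C, hC⟩ := hq
  exact ⟨_, h1.clm (L := fun i => prH (D.P i) j (q i)) ⟨_, fun i =>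
    norm_mulH_le (hC i).1 ((hC i).2 j) (Maps.of_left (hi i))⟩, fun i y x => by
      rw [val_mulH (D.sup i) hj ⟨C, hC i⟩ (Maps.of_left (hi i)), h2]⟩

/-! ### finite families -/

section fin
variable [Finite J]

theorem cbU {f : M → N} (h : ∀ i, (D.P i).Cb f) : D.CbU f := ub_of_finite h

theorem cdU {g : M → ℝ} (h : ∀ i, (D.F i).Cd g) : D.CdU g := fun a =>
  ub_of_finite fun i => (h i).2 a

theorem swU {u : SW M} (h : ∀ i, SW.OK (D.F i) u) : D.SwU u := fun t ht => by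
  cases t with
  | mul f => exact cbU fun i => h i _ ht
  | cl g => exact cdU fun i => h i _ ht
  | _ => trivial

theorem laU {l : List (La M)} (h : ∀ i, ∀ t ∈ l, La.OK (D.F i) t) : ∀ t ∈ l, D.LaU t :=
  fun t ht => by
  cases t with
  | mul f => exact cbU fun i => h i _ ht
  | G => trivial

theorem awU {ξ : AW M} (h : ∀ i, ξ.OK (D.F i)) : D.AwU ξ := by
  refine ⟨?_, laU fun i => (h i).2⟩
  obtain ⟨s, l⟩ := ξ
  cases s with
  | q u v => exact ⟨swU fun i => (h i).1.1, swU fun i => (h i).1.2⟩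
  | cv f g g' => exact ⟨cbU fun i => (h i).1.1, cdU fun i => (h i).1.2.1, cdU fun i => (h i).1.2.2⟩

variable [Nonempty J]

theorem sgU {g : Sg M lam} (h : ∀ i, g.OK (D.F i)) : D.SgU g :=
  ⟨(h (Classical.arbitrary J)).1.continuous, (h (Classical.arbitrary J)).2.1,
    let ⟨L, hL⟩ := (finite_range fun i => ∫ x, ‖g.s x‖ ∂(D.P i).μ).bddAbove
    ⟨L, fun i => hL (mem_range_self i)⟩, swU fun i => (h i).2.2.1, swU fun i => (h i).2.2.2⟩

theorem coU {r : ℕ} {d : Co M lam r} (h : ∀ i, d.OK (D.F i)) : D.CoU d := by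
  cases d with
  | z k => trivial
  | s g L => exact ⟨sgU fun i => (h i).1, fun g' hg => sgU fun i => (h i).2 g' hg⟩

theorem tmU {r n : ℕ} {T : Tm M lam r n} (h : ∀ i, T.OK (D.F i)) : D.TmU T := by
  cases T with
  | lin u => exact swU h
  | anti d s u => exact ⟨coU fun i => (h i).1, cbU fun i => (h i).2.1, swU fun i => (h i).2.2⟩
  | ad g g' ξ => exact ⟨cdU fun i => (h i).1, cdU fun i => (h i).2.1, awU fun i => (h i).2.2⟩
  | adj d s g g' u v l => exact ⟨coU fun i => (h i).1, cbU fun i => (h i).2.1,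
      cdU fun i => (h i).2.2.1, cdU fun i => (h i).2.2.2.1, swU fun i => (h i).2.2.2.2.1,
      swU fun i => (h i).2.2.2.2.2.1, laU fun i => (h i).2.2.2.2.2.2⟩
  | adn f g g' φ L => exact ⟨cbU fun i => (h i).1, cdU fun i => (h i).2.1,
      cdU fun i => (h i).2.2.1, (h (Classical.arbitrary J)).2.2.2.1,
      fun ξ hξ => awU fun i => (h i).2.2.2.2.2 ξ hξ⟩
  | cut k w g => exact sgU h
  | cz k w k' => trivial

end fin

/-- syntactic decay: the term carries a coefficient that lies in `L²_j` uniformly -/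
def Cp (D : Dm I M ι X Y) (j : ℕ) {r n : ℕ} : Tm M lam r n → Prop
  | .lin u => ∃ f l, u = .mul f :: l ∧ D.A0 True j fun _ _ => f
  | .anti _ s _ => D.A0 True j fun _ _ => s
  | .ad _ _ ξ => ∃ f l, ξ.l = .mul f :: l ∧ D.A0 True j fun _ _ => f
  | .adj _ s _ _ _ _ _ => D.A0 True j fun _ _ => s
  | .adn f _ _ _ _ => D.A0 True j fun _ _ => f
  | _ => True

end Dm

namespace CF.OK
open Dm
variable {D : Dm I M ι X Y} {μ : MF M ι lam J} {r n : ℕ} {κ : CF D μ r} {ε : Prop} {j : ℕ}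
  [I.Boundaryless] (h : κ.OK ε j) {T : Tm M lam r n}
include h

theorem pu_of_cp (hT : D.TmU T) (hc : D.Cp j T) : κ.Pu j T := by
  cases T with
  | lin u =>
    obtain ⟨f, l, rfl, hf⟩ := hc
    exact (A0.smul h.lev h.h4 hf (h.sw fun t ht => hT t (List.mem_cons_of_mem _ ht))).imp Or.inl
  | anti d s u => exact (h.js hc hT.2.2).imp Or.inl
  | ad g g' ξ =>
    obtain ⟨s, l'⟩ := ξ
    obtain ⟨f, l, rfl, hf⟩ := hc
    exact (A0.smul h.lev h.h4 hf (h.aw (ξ := ⟨s, l⟩) ⟨hT.2.2.1, fun t ht =>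
      hT.2.2.2 t (List.mem_cons_of_mem _ ht)⟩)).imp Or.inl
  | adj d s g g' u v l => exact (h.js hc hT.2.2.2.2.1).imp Or.inl
  | adn f g g' φ L => exact (A0.smul h.lev h.h4 hc (h.aws hT.2.2.2.2)).imp Or.inl
  | _ => trivial

theorem pu_compact [Finite J] [CompactSpace M] (hT : D.TmU T) : κ.Pu j T := by
  cases T with
  | lin u => exact (h.sw hT).pure_compact h.h4
  | anti d s u => exact (h.js (A0.fixed hT.2.1) hT.2.2).pure_compact h.h4
  | ad g g' ξ => exact (h.aw hT.2.2).pure_compact h.h4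
  | adj d s g g' u v l => exact (h.js (A0.fixed hT.2.1) hT.2.2.2.2.1).pure_compact h.h4
  | adn f g g' φ L => exact ((Lc.fixed hT.1).smul h.h4 (h.aws hT.2.2.2.2)).pure_compact h.h4
  | _ => trivial

end CF.OK

end Crest.Agent.X212.Mon62
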