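import Crest.Agent.X212.Mon62.RE
import Crest.Agent.X212.Mon62.NkE
import Crest.Agent.X212.Map77.Fin
import Crest.Agent.X212.Mod61.Tr

/-! # Row 212, NK-SM: the calculus, locally in the parameter, gives `Ref.Sm` and `Map77.Aff` -/

set_option autoImplicit false
set_option linter.unusedSectionVars false
set_option maxSynthPendingDepth 3
noncomputable section
open scoped Manifold ContDiff Topology InnerProductSpace
open MeasureTheory Set Function Filter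

namespace Crest.Agent.X212.Mon62
open An Sob92 Prm93 Wz78 Mod61 Dm
open Ell97 (UB)

variable {E : Type} [NormedAddCommGroup E] [NormedSpace ℝ E] [FiniteDimensional ℝ E]
  [MeasurableSpace E] [BorelSpace E]
  {HM : Type} [TopologicalSpace HM] {I : ModelWithCorners ℝ E HM} [I.Boundaryless]
  {M : Type} [TopologicalSpace M] [ChartedSpace HM M] [IsManifold I ∞ M]
  [MeasurableSpace M] [T2Space M] [BorelSpace M] [SecondCountableTopology M] {ι : Type} [Fintype ι]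
  {lam : Type} [Fintype lam] {T : Type} [NormedAddCommGroup T] [NormedSpace ℝ T]

section gen
variable {J : Type} {X Y : J → Type} [∀ i, NormedAddCommGroup (X i)] [∀ i, NormedSpace ℝ (X i)]
  {D : Dm I M ι X Y} {ε ε' : Prop} {j l : ℕ}

/-- a family is pure if one member is -/
theorem Dm.A0.pure_of_pt [Finite J] {V : Type} [NormedAddCommGroup V] [InnerProductSpace ℝ V]
    {w : ∀ i, Y i → M → V} (h : D.A0 ε j w) (y₁ : ∀ i, Y i) (a : ∀ i, D.H V j i)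
    (e : ∀ i, D.vl (a i) = w i (y₁ i)) : D.A0 ε' j w := by
  obtain ⟨b, δ, -, -, h3, h4⟩ := h.ex
  have bv : ∀ c : ∀ i, D.H V j i, Bv c := fun c =>
    let ⟨K, hK⟩ := (finite_range fun i => ‖c i‖).bddAbove; ⟨K, fun i => hK (mem_range_self i)⟩
  refine A0.of_pure h.sz (h3.add (UC.const (bv fun i => a i - δ i (D.pt i (y₁ i))))) fun i y x => ?_
  have := congrFun (e i) x
  rw [h4] at this
  simp only [h4, vl, val_add, val_sub, Pi.add_apply, Pi.sub_apply] at this ⊢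
  rw [this]; abel

variable {μ : MF M ι lam J} {r : ℕ} {κ : CF D μ r} {B : J → Base M ι lam}

theorem CF.OK.eqD (h : κ.OK ε j) (hl : 4 ≤ l) (hlj : l + 1 ≤ j) : D.A0 ε l (V := μ.V) fun i y =>
    dir I (κ.F i y).e (μ.ρ i) (κ.W i y) (κ.Φ i y) :=
  A0.fsum Finset.univ fun a _ => ((h.Φ.lower (by omega) hlj).nab h.F hl
    (fun c => (h.mulV c).lower (by omega)) a).app hl (h.ρ a)

theorem CF.OK.eqC (h : κ.OK ε j) (hl : 4 ≤ l) (hlj : l + 1 ≤ j) (hB : UB D.P (μ.p2 B)) :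
    D.A0 False l (V := Fm (ι × ι) μ.A) fun i y x =>
      (μ.m i).p2 (B i) x ((μ.m i).Fg (κ.F i y) (κ.W i y) x) -
        (μ.m i).mu (B i) x (κ.Φ i y x) (κ.Φ i y x) :=
  ((A0.toLp hl fun s => h.Fg hl hlj s).app hl hB).sub hl ((A0.toLp hl fun s : ι × ι =>
    (h.q h.Φ ((h.Φ.app h.h4 (h.ρ s.2)).app h.h4 (h.ρ s.1))).aff.lower hl (by omega)).app hl hB)

end gen

variable {𝔉 : Fam I M ι lam T} {o : Ref 𝔉} {r n m k j : ℕ} {Q' : Set T} {ε ε' : Prop}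

/-! ### restriction of the parameters -/

variable (𝔉) in
/-- the family over `Q ∩ Q'` -/
def res (Q' : Set T) : Fam I M ι lam T := { 𝔉 with Q := 𝔉.Q ∩ Q' }

theorem ok_res (h : 𝔉.OK) (hQ : IsOpen Q') : (res 𝔉 Q').OK :=
  ⟨h.B, h.G0, fun t k => h.G t k.1, h.tame, fun t k => h.tameG t k.1, h.e0, h.P0, h.co, h.cl,
    h.opn.inter hQ, h.Om, h.Om', h.sub, fun t k => h.mix t k.1, fun t k => h.PS t k.1,
    fun t k => h.SP t k.1, fun t k => h.PSi t k.1, fun t k => h.SiP t k.1, fun t k => h.SSi t k.1,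
    fun t k => h.SiS t k.1, fun a b => (h.sS a b).mono inter_subset_left,
    fun a b => (h.sSi a b).mono inter_subset_left, fun a b c => (h.scf a b c).mono inter_subset_left,
    fun a => (h.sla a).mono inter_subset_left, fun a b c => (h.sc a b c).mono inter_subset_left,
    fun a => (h.sdv a).mono inter_subset_left, fun a => (h.sa a).mono inter_subset_left,
    let ⟨ρ, h1, h2⟩ := h.dens; ⟨ρ, h1.mono inter_subset_left, fun t k => h2 t k.1⟩,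
    fun m A0 h1 h2 t k => h.conn m A0 h1 h2 t k.1⟩

variable (o) in
/-- the reference of the restricted family -/
@[reducible] def rres (Q' : Set T) : Ref (res 𝔉 Q') :=
  ⟨o.m, o.A0, o.Φ0, o.ok, o.conn, o.cp, o.cρ, o.cj, o.cA, o.cΦ, o.pos, o.b, o.sb, o.bP⟩

instance [o.B0] : (rres o Q').B0 := ⟨Ref.B0.b0 (o := o)⟩

theorem Hy.res (H : Hy o) (hQ : IsOpen Q') : Hy (rres o Q') :=
  let ⟨χ, c1, c2, l1, l2, l3, l4, l5⟩ := H.loc
  ⟨ok_res H.ok hQ, ⟨χ, c1, c2, fun a b t k s k' => l1 a b t k.1 s k'.1,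
    fun a b c t k s k' => l2 a b c t k.1 s k'.1, fun a t k s k' => l3 a t k.1 s k'.1,
    fun a b c t k s k' => l4 a b c t k.1 s k'.1, fun a t k s k' => l5 a t k.1 s k'.1⟩,
    fun t k => H.bV t k.1, fun t k => H.bA t k.1, fun t k => H.eV t k.1, fun t k => H.eA t k.1⟩

/-- a point of the restricted family -/
@[reducible] def up (y : Pnt (rres o Q') r) : Pnt o r := ⟨y.α, y.φ, y.z, y.t, y.hα, y.hφ, y.ht.1⟩

/-- a point over `Q'` -/
@[reducible] def dn (y : Pnt o r) (h : y.t ∈ Q') : Pnt (rres o Q') r :=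
  ⟨y.α, y.φ, y.z, y.t, y.hα, y.hφ, y.ht, h⟩

/-! ### rows -/

variable (o n m) in
/-- values of the rows -/
abbrev Vl : Type := (M → o.m.V) × (M → Fm (ι × ι) o.m.A) × (Fin n → ℂ) × (Fin m → ℝ)

/-- the rows of a family at a smooth point -/
def vl (τ : T → PtX M ι lam r n m) (y : Pnt o r) : Vl o n m :=
  ((τ y.t).D y.cfg, (τ y.t).C y.cfg, (τ y.t).S y.cfg, (τ y.t).R y.cfg)

/-- the projected rows -/
def pr (u : Vl o n m) : Vl o n m := (fun x => o.Pm x (u.1 x), fun x => o.P2 x (u.2.1 x), u.2.2)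

/-- the values of an element of the Banach space -/
def vY (e : o.Y n m j) : Vl o n m := (𝔉.F0.val j _ e.1, 𝔉.F0.val j _ e.2.1, e.2.2)

/-- rows in the calculus -/
structure Ca (h : 𝔉.OK) (ε : Prop) (hk : 3 ≤ k) (y₀ : Pnt o r) (u : Pnt o r → Vl o n m) : Prop where
  D : (dm h hk y₀).A0 ε (k + 1) (V := o.m.V) fun _ y => (u y).1
  C : (dm h hk y₀).A0 ε (k + 1) (V := Fm (ι × ι) o.m.A) fun _ y => (u y).2.1
  S : (dm h hk y₀).Sc fun _ y => (u y).2.2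

/-- rows in the calculus, locally in the parameter -/
def La (h : 𝔉.OK) (ε : Prop) (u : Pnt o r → Vl o n m) : Prop :=
  ∀ t ∈ 𝔉.Q, ∀ᶠ Q' in (𝓝 t).smallSets, ∀ (hQ : IsOpen Q') k (hk : 3 ≤ k), 7 ≤ k →
    ∀ y₀ : Pnt (rres o Q') r, Ca (ok_res h hQ) ε hk y₀ fun y => u (up y)

variable {h : 𝔉.OK} {u u' : Pnt o r → Vl o n m}

namespace Ca
variable {hk : 3 ≤ k} {y₀ : Pnt o r}

theorem congr (H : Ca h ε hk y₀ u) (e : ∀ y, u' y = u y) : Ca h ε hk y₀ u' := funext e ▸ H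

theorem imp (H : Ca h ε hk y₀ u) (e : ε' → ε) : Ca h ε' hk y₀ u := ⟨H.D.imp e, H.C.imp e, H.S⟩

theorem zero : Ca h ε hk y₀ fun _ => (0 : Vl o n m) := ⟨A0.zero, A0.zero, Sc.const 0⟩

theorem add (H : Ca h ε hk y₀ u) (H' : Ca h ε hk y₀ u') : Ca h ε hk y₀ fun y => u y + u' y :=
  ⟨H.D.add H'.D, H.C.add H'.C, H.S.add H'.S⟩

theorem smul (c : ℝ) (H : Ca h ε hk y₀ u) : Ca h ε hk y₀ fun y => c • u y :=
  ⟨H.D.clm (by omega) (c • .id ℝ _), H.C.clm (by omega) (c • .id ℝ _), H.S.clm (c • .id ℝ _)⟩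

theorem par {c : T → ℝ} (hc : ContDiffOn ℝ ∞ c 𝔉.Q) (H : Ca h True hk y₀ u) :
    Ca h ε hk y₀ fun y => c y.t • u y :=
  ⟨H.D.smulc (sc_par hc), H.C.smulc (sc_par hc),
    (sc_par hc).bil (ContinuousLinearMap.lsmul ℝ ℝ) H.S⟩

theorem pr (H : Ca h ε hk y₀ u) : Ca h ε hk y₀ fun y => pr (u y) :=
  ⟨H.D.app (by omega) (ub_of_finite fun _ => cb_Pm h o),
    H.C.app (by omega) (ub_of_finite fun _ => cb_P2 h o), H.S⟩

theorem pure (H : Ca h ε hk y₀ u) (y : Pnt o r) (e : o.Y n m (k + 1))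
    (h1 : (vY e).1 = (u y).1) (h2 : (vY e).2.1 = (u y).2.1) : Ca h ε' hk y₀ u :=
  have S := (dm h hk y₀).sup ()
  ⟨H.D.pure_of_pt (fun _ => y) (fun _ => fg _ _ _ e.1) fun _ => (val_fg S (by omega) _).trans h1,
    H.C.pure_of_pt (fun _ => y) (fun _ => fg _ _ _ e.2.1)
      fun _ => (val_fg S (by omega) _).trans h2, H.S⟩

theorem out (H : Ca h True hk y₀ u) : ∃ g : o.C r k → o.Y n m (k + 1),
    ContDiffOn ℝ ∞ g (o.U r k) ∧ ∀ y : Pnt o r, vY (g (y.pt k)) = Mon62.pr (u y) := by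
  obtain ⟨γ, g1, g2⟩ := sc_out H.S
  obtain ⟨f, f1, f2⟩ := out_dm (by omega) (cb_Pm h o) (ind_idem _ (pm_idem h)) H.D
  obtain ⟨f', f3, f4⟩ := out_dm (by omega) (cb_P2 h o)
    (by rw [P2_eq]; exact ind_idem _ (Std94.p2_p2 h.B)) H.C
  exact ⟨fun v => (f v, f' v, γ v), f1.prodMk (f3.prodMk g1), fun y =>
    Prod.ext (funext (f2 y)) (Prod.ext (funext (f4 y)) (g2 y))⟩

end Ca

namespace La

theorem mono₂ {u'' : Pnt o r → Vl o n m} {ε'' : Prop} (H : La h ε u) (H' : La h ε' u')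
    (e : ∀ Q' (hQ : IsOpen Q') k (hk : 3 ≤ k) (y₀ : Pnt (rres o Q') r),
      (Ca (ok_res h hQ) ε hk y₀ fun y => u (up y)) → (Ca (ok_res h hQ) ε' hk y₀ fun y => u' (up y)) →
      Ca (ok_res h hQ) ε'' hk y₀ fun y => u'' (up y)) : La h ε'' u'' := fun t ht =>
  ((H t ht).and (H' t ht)).mono fun Q' a hQ k hk h7 y₀ =>
    e Q' hQ k hk y₀ (a.1 hQ k hk h7 y₀) (a.2 hQ k hk h7 y₀)

theorem imp (H : La h ε u) (e : ε' → ε) : La h ε' u := H.mono₂ H fun _ _ _ _ _ a _ => a.imp e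

theorem zero : La h ε fun _ : Pnt o r => (0 : Vl o n m) :=
  fun _ _ => .of_forall fun _ _ _ _ _ _ => Ca.zero

theorem add (H : La h ε u) (H' : La h ε u') : La h ε fun y => u y + u' y :=
  H.mono₂ H' fun _ _ _ _ _ a b => a.add b

theorem smul (c : ℝ) (H : La h ε u) : La h ε fun y => c • u y :=
  H.mono₂ H fun _ _ _ _ _ a _ => a.smul c

theorem par {c : T → ℝ} (hc : ContDiffOn ℝ ∞ c 𝔉.Q) (H : La h True u) :
    La h ε fun y => c y.t • u y :=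
  H.mono₂ H fun _ _ _ _ _ a _ => a.par (hc.mono inter_subset_left)

theorem pr (H : La h ε u) : La h ε fun y => pr (u y) := H.mono₂ H fun _ _ _ _ _ a _ => a.pr

theorem fsum {K : Type*} (s : Finset K) {v : K → Pnt o r → Vl o n m} (H : ∀ i ∈ s, La h ε (v i)) :
    La h ε fun y => ∑ i ∈ s, v i y := by
  classical
  induction s using Finset.induction_on with
  | empty => exact zero
  | insert a s ha ih =>
    simp only [Finset.sum_insert ha]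
    exact (H a (Finset.mem_insert_self a s)).add (ih fun i hi => H i (Finset.mem_insert_of_mem hi))

/-- the class is local -/
theorem loc (H : ∀ t ∈ 𝔉.Q, ∃ v, La h ε v ∧ ∀ᶠ s in 𝓝 t, ∀ y : Pnt o r, y.t = s → u y = v y) :
    La h ε u := fun t ht =>
  let ⟨_, a, b⟩ := H t ht
  ((a t ht).and (eventually_smallSets_forall.2 b)).mono
    fun _ c hQ k hk h7 y₀ => (c.1 hQ k hk h7 y₀).congr fun y => c.2 _ y.ht.2 _ rfl

theorem congr (H : La h ε u) (e : ∀ y, u' y = u y) : La h ε u' := funext e ▸ H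

/-- pure rows -/
theorem pure (H : La h ε u) (hp : ∀ t ∈ 𝔉.Q, ∃ y : Pnt o r, y.t = t ∧ ∀ j, 8 ≤ j →
    ∃ e : o.Y n m j, (vY e).1 = (u y).1 ∧ (vY e).2.1 = (u y).2.1) : La h ε' u := fun t ht =>
  (H t ht).mono fun _ a hQ k hk h7 y₀ =>
    let ⟨y, b, c⟩ := hp y₀.t y₀.ht.1
    let ⟨e, d⟩ := c (k + 1) (by omega)
    (a hQ k hk h7 y₀).pure (dn y (b ▸ y₀.ht.2)) e d.1 d.2

theorem nhd (H : La h True u) (hk : 7 ≤ k) {t : T} (ht : t ∈ 𝔉.Q) : ∃ Q', IsOpen Q' ∧ t ∈ Q' ∧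
    ∃ g : o.C r k → o.Y n m (k + 1), ContDiffOn ℝ ∞ g ((rres o Q').U r k) ∧
      ∀ y : Pnt o r, y.t ∈ Q' → vY (g (y.pt k)) = Mon62.pr (u y) := by
  obtain ⟨Q₀, a, b⟩ := eventually_smallSets.1 (H t ht)
  obtain ⟨Q', c, d, e⟩ := mem_nhds_iff.1 a
  obtain ⟨g, g1, g2⟩ := (b Q' c d k (by omega) hk
    ⟨0, 0, 0, t, zero_mem _, zero_mem _, ht, e⟩).out
  exact ⟨Q', d, e, g, g1, fun y hy => g2 (dn y hy)⟩

/-- **Gluing.** -/
theorem out (H : La h True u) (hk : 7 ≤ k) : ∃ g : o.C r k → o.Y n m (k + 1),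
    ContDiffOn ℝ ∞ g (o.U r k) ∧ ∀ y : Pnt o r, vY (g (y.pt k)) = Mon62.pr (u y) := by
  choose! Q h1 h2 g h3 h4 using fun t => H.nhd hk (t := t)
  refine ⟨fun v => g v.2.2.2 v, fun v hv => ?_, fun y => h4 _ y.ht y (h2 _ y.ht)⟩
  have hO := fun t ht => isOpen_U (o := rres o (Q t)) (r := r) (k := k) (ok_res h (h1 t ht))
  refine (((h3 _ hv).contDiffAt ((hO _ hv).mem_nhds ⟨hv, h2 _ hv⟩)).congr_of_eventuallyEq
    (eventually_of_mem ((hO _ hv).mem_nhds ⟨hv, h2 _ hv⟩) fun w hw => ?_)).contDiffWithinAt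
  refine eqOn_U (o := rres o (Q w.2.2.2 ∩ Q v.2.2.2)) (ok_res h ((h1 _ hw.1).inter (h1 _ hv)))
    (by omega) ((h3 _ hw.1).continuousOn.mono fun _ a => ⟨a.1, a.2.1⟩)
    ((h3 _ hv).continuousOn.mono fun _ a => ⟨a.1, a.2.2⟩) (fun y => ?_) ⟨hw.1, h2 _ hw.1, hw.2⟩
  have e := (h4 _ hw.1 (up y) y.ht.2.1).trans (h4 _ hv (up y) y.ht.2.2).symm
  exact Y_ext h (by omega) (congrArg (·.1) e) (congrArg (·.2.1) e) (congrArg (·.2.2) e)

/-- purity spreads over a connected set of parameters -/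
theorem spread (H : La h ε u) (hQ : IsPreconnected 𝔉.Q) (y₁ : Pnt o r) (hj : 8 ≤ j)
    (e : o.Y n m j) (h1 : vY e = Mon62.pr (u y₁)) (y : Pnt o r) :
    ∃ e : o.Y n m j, vY e = Mon62.pr (u y) := by
  obtain ⟨k, rfl⟩ : ∃ k, j = k + 1 := ⟨j - 1, by omega⟩
  let P : T → T → Prop := fun s t => (∃ y : Pnt o r, y.t = s ∧ ∃ e : o.Y n m (k + 1),
    vY e = Mon62.pr (u y)) → ∀ y : Pnt o r, y.t = t → ∃ e : o.Y n m (k + 1), vY e = Mon62.pr (u y)
  refine hQ.induction₂' P (fun t ht => ?_) (fun s t t' _ a _ b c d => ?_) y₁.ht y.ht ⟨y₁, rfl, e, h1⟩ y rfl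
  · obtain ⟨Q₀, a, b⟩ := eventually_smallSets.1 (H.pr t ht)
    obtain ⟨Q', c, d, e⟩ := mem_nhds_iff.1 a
    have k1 : ∀ s ∈ Q', ∀ s' ∈ Q', P s s' := by
      rintro _ hs _ hs' ⟨y, rfl, e, he⟩ y' rfl
      obtain ⟨g, -, g2⟩ := ((b Q' c d k (by omega) (by omega) (dn y hs)).pure (ε' := True) (dn y hs)
        e (congrArg (·.1) he) (congrArg (·.2.1) he)).out
      refine ⟨g (y'.pt k), (g2 (dn y' hs')).trans (Prod.ext (funext fun x => ?_)
        (Prod.ext (funext fun x => ?_) rfl))⟩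
      · exact ind_idem _ (pm_idem h) x _
      · have := ind_idem 𝔉.Om (Std94.p2_p2 (m := o.m) h.B) x
        rw [← P2_eq] at this
        exact this _
    exact nhdsWithin_le_nhds (eventually_of_mem (d.mem_nhds e) fun s hs => ⟨k1 _ e _ hs, k1 _ hs _ e⟩)
  · exact c ⟨⟨0, 0, 0, t, zero_mem _, zero_mem _, a⟩, rfl, b d _ rfl⟩

end La

/-! ### `Ref.Sm` and `Map77.Aff` -/

variable {τ σ : T → PtX M ι lam r n m}

variable (o) in
/-- the rows lie in the bundles -/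
structure Pj (τ : T → PtX M ι lam r n m) : Prop where
  D : ∀ (y : Pnt o r) x, o.m.pm 𝔉.B x ((τ y.t).D y.cfg x) = (τ y.t).D y.cfg x
  C : ∀ (y : Pnt o r) x, o.m.p2 𝔉.B x ((τ y.t).C y.cfg x) = (τ y.t).C y.cfg x

theorem Pj.zero : Pj o (0 : T → PtX M ι lam r n m) :=
  ⟨fun _ _ => map_zero _, fun _ _ => map_zero _⟩

theorem Pj.add (a : Pj o τ) (b : Pj o σ) : Pj o (τ + σ) :=
  ⟨fun y x => (map_add _ _ _).trans (congrArg₂ (· + ·) (a.D y x) (b.D y x)),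
    fun y x => (map_add _ _ _).trans (congrArg₂ (· + ·) (a.C y x) (b.C y x))⟩

theorem Pj.par (c : T → ℝ) (a : Pj o τ) : Pj o fun t => c t • τ t :=
  ⟨fun y x => (map_smul _ _ _).trans (congrArg (c y.t • ·) (a.D y x)),
    fun y x => (map_smul _ _ _).trans (congrArg (c y.t • ·) (a.C y x))⟩

theorem Pj.neg (a : Pj o τ) : Pj o (-τ) := neg_one_smul ℝ τ ▸ a.par fun _ => -1

theorem Pj.sum {K : Type*} (s : Finset K) {v : K → T → PtX M ι lam r n m} (H : ∀ i ∈ s, Pj o (v i)) :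
    Pj o (∑ i ∈ s, v i) := Finset.sum_induction _ _ (fun _ _ => Pj.add) Pj.zero H

theorem La.vadd (a : La h ε (vl (o := o) τ)) (b : La h ε (vl (o := o) σ)) :
    La h ε (vl (o := o) (τ + σ)) := a.add b

theorem La.vneg (a : La h ε (vl (o := o) τ)) : La h ε (vl (o := o) (-τ)) :=
  neg_one_smul ℝ τ ▸ a.smul (-1)

theorem La.vsum {K : Type*} (s : Finset K) {v : K → T → PtX M ι lam r n m}
    (H : ∀ i ∈ s, La h ε (vl (o := o) (v i))) : La h ε (vl (o := o) (∑ i ∈ s, v i)) :=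
  Finset.sum_induction _ (fun τ => La h ε (vl (o := o) τ)) (fun _ _ => La.vadd) La.zero H

theorem Pj.pr (a : Pj o τ) (y : Pnt o r) : pr (vl τ y) = (𝔉.Om'.indicator ((τ y.t).D y.cfg),
    𝔉.Om.indicator ((τ y.t).C y.cfg), (τ y.t).S y.cfg, (τ y.t).R y.cfg) :=
  Prod.ext (funext fun x => ind_app _ (a.D y x))
    (Prod.ext (funext fun x => by rw [Mon62.pr, P2_eq]; exact ind_app _ (a.C y x)) rfl)

/-- **`Ref.Sm` from the calculus.** -/
theorem La.sm (H : La h True (vl (o := o) τ)) (a : Pj o τ) : o.Sm τ := fun _ hk =>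
  let ⟨g, g1, g2⟩ := H.out hk
  ⟨g, g1, fun y => have e := (g2 y).trans (a.pr y)
    ⟨congrArg (·.1) e, congrArg (·.2.1) e, congrArg (·.2.2.1) e, congrArg (·.2.2.2) e⟩⟩

theorem pj_eq0 (h : 𝔉.OK) : Pj o (𝔉.eq0 r n m) :=
  ⟨Map77.pm_dir h, fun _ x => (map_sub _ _ _).trans
    (congrArg₂ (· - ·) (Std94.p2_p2 h.B x _) (Std94.p2_p2 h.B x _))⟩

/-- the base configurations -/
def cf0 (h : 𝔉.OK) (hk : 3 ≤ k) (y₀ : Pnt o r) : CF (dm h hk y₀) (mf o) r where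
  G _ v := (𝔉.G v.2.2.2).F
  W _ y := o.W y.t 0
  Φ _ _ := o.Φ0 + 0
  z _ y := y.z

theorem Hy.cf0OK [o.B0] (H : Hy o) (hk7 : 7 ≤ k) {hk : 3 ≤ k} (y₀ : Pnt o r) (hj : 8 ≤ j) :
    (cf0 H.ok hk y₀).OK False j := by
  have c := H.cfOK hk7 (hk := hk) y₀
  obtain ⟨χ, c1, c2, l1, l2, l3, -, -⟩ := H.loc
  have h4 : 4 ≤ j := by omega
  have ub : ∀ {N : Type} [NormedAddCommGroup N] [NormedSpace ℝ N] {f : M → N}, 𝔉.F0.Cb f →
      UB (dm H.ok hk y₀).P fun _ => f := fun hf => ub_of_finite fun _ => hf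
  refine ⟨hj, c.F, c.bV, c.bA, c.eV, c.eA, fun a => ?_, fun _ y => skw_W H.ok (Map77.bs y),
    A0.fixed (ub (Cb_add o.cΦ (Cb_const 0))), c.z, c.ρ, c.j, c.pg⟩
  have mul := fun {f g : M → En (Fin o.m.N)} (hf : 𝔉.F0.Cb f) (hg : 𝔉.F0.Cb g) =>
    A0.fixed (j := j) (ub (Cb_clm hsL (Cb_bil (ContinuousLinearMap.mul ℝ _) hf hg)))
  refine (((A0.fsum Finset.univ fun b _ => (lc_dm (H.ok.sS a b) c1 c2 (l1 a b)).smul h4
    (A0.fixed (ub (Cb_clm hsL (o.cA b))))).add (A0.fsum Finset.univ fun b _ =>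
      A0.fsum Finset.univ fun c _ => (lc_dm (H.ok.scf a b c) c1 c2 (l2 a b c)).smul h4
        (mul (o.cρ b) (o.cρ c)))).add ((lc_dm (H.ok.sla a) c1 c2 (l3 a)).smul h4
          (mul (Cb_const o.m.J) o.cp))).congr fun _ y x => ?_
  simp only [cf0, Ref.W, Ref.A_eq, Md.addC, Fam.W0, map_add, map_sum, map_smul, Pi.zero_apply,
    map_zero, PiLp.zero_apply, add_zero]
  rfl

theorem Hy.la_base [o.B0] (H : Hy o) :
    La H.ok False fun y : Pnt o r => vl (𝔉.eq0 r n m) (Map77.bs y) :=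
  fun _ _ => .of_forall fun _ hQ k hk h7 y₀ =>
    have c := (H.res hQ).cf0OK h7 (hk := hk) y₀ (j := k + 2) (by omega)
    ⟨c.eqD (by omega) le_rfl, c.eqC (B := fun _ => 𝔉.B) (by omega) le_rfl (ub_of_finite fun _ =>
      (dat_ref H.ok o).p2 H.ok.B (Std94.pmx o.ok)), Sc.const 0⟩

variable {Fs : T → Fr I M ι}

/-- the rows of `e` at `y` decay -/
def Dc (e : T → PtX M ι lam r n m) (y : Pnt o r) : Prop :=
  𝔉.Om'.indicator ((e y.t).D y.cfg) ∈ Hs 𝔉.F0.toPre o.Pm ∧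
    𝔉.Om.indicator ((e y.t).C y.cfg) ∈ Hs 𝔉.F0.toPre o.P2

open Map77 in
theorem pr_base (h : 𝔉.OK) (a : Pj o τ) (y : Pnt o r) :
    pr (vl (𝔉.eq0 r n m) (bs y) + vl τ y) = (eD n m (bs y) + 𝔉.Om'.indicator (vl τ y).1,
      eC n m (bs y) + 𝔉.Om.indicator (vl τ y).2.1, (vl τ y).2.2) := by
  have e : pr (vl (𝔉.eq0 r n m) (bs y) + vl τ y) = pr (vl (𝔉.eq0 r n m) (bs y)) + pr (vl τ y) :=
    Prod.ext (funext fun _ => map_add _ _ _) (Prod.ext (funext fun _ => map_add _ _ _) rfl)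
  rw [e, a.pr, (pj_eq0 h).pr]
  exact Prod.ext rfl (Prod.ext rfl (zero_add _))

open Map77 in
theorem Dc.ex (hA : Adj 𝔉 Fs) (a : Pj o τ) {y : Pnt o r} (d : Dc (𝔉.eq0 r n m + τ) y) (hj : 8 ≤ j) :
    ∃ e : o.Y n m j, vY e = pr (vl (𝔉.eq0 r n m) (bs y) + vl τ y) := by
  obtain ⟨a1, a2, -⟩ := hA.val_f0 (n := n) (m := m) (k := j) (by omega) y
  obtain ⟨b, b1⟩ := d.1 j (by omega)
  obtain ⟨c, c1⟩ := d.2 j (by omega)
  refine ⟨(b - (f0 o Fs r n m j (y.pt j)).1, c - (f0 o Fs r n m j (y.pt j)).2.1, (τ y.t).S y.cfg,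
    (τ y.t).R y.cfg), ?_⟩
  rw [pr_base hA.toOK a]
  refine Prod.ext ((val_sub _ _).trans ?_) (Prod.ext ((val_sub _ _).trans ?_) rfl)
  · rw [a1, b1, show 𝔉.Om'.indicator (((𝔉.eq0 r n m + τ) y.t).D y.cfg) =
      eD n m y + 𝔉.Om'.indicator (vl τ y).1 from indicator_add' _ _ _]
    abel_nf
  · rw [a2, c1, show 𝔉.Om.indicator (((𝔉.eq0 r n m + τ) y.t).C y.cfg) =
      eC n m y + 𝔉.Om.indicator (vl τ y).2.1 from indicator_add' _ _ _]
    abel_nf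

open Map77 in
theorem Hy.aff0 [o.B0] (H : Hy o) (hA : Adj 𝔉 Fs) (hτ : La H.ok False (vl (o := o) τ)) (a : Pj o τ)
    (hp : ∀ t ∈ 𝔉.Q, ∃ y : Pnt o r, y.t = t ∧ ∀ j, 8 ≤ j →
      ∃ e : o.Y n m j, vY e = pr (vl (𝔉.eq0 r n m) (bs y) + vl τ y)) :
    Aff o Fs r n m (𝔉.eq0 r n m + τ) := hA.aff_of fun j hj => by
  obtain ⟨g, g1, g2⟩ := (((H.la_base.add hτ).pr).pure (ε' := True) fun t ht =>
    let ⟨y, b, c⟩ := hp t ht
    ⟨y, b, fun j hj => let ⟨e, d⟩ := c j hj; ⟨e, congrArg (·.1) d, congrArg (·.2.1) d⟩⟩).out hj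
  refine ⟨g, g1, fun y => ?_⟩
  have e : vY (g (y.pt j)) = pr (vl (𝔉.eq0 r n m) (bs y) + vl τ y) :=
    (g2 y).trans (Prod.ext (funext fun x => ind_idem _ (pm_idem H.ok) x _) (Prod.ext
      (funext fun x => by
        have := ind_idem 𝔉.Om (Std94.p2_p2 (m := o.m) H.ok.B) x
        rw [← P2_eq] at this
        exact this _) rfl))
  rw [pr_base H.ok a] at e
  exact ⟨sub_eq_of_eq_add' (congrArg (·.1) e), sub_eq_of_eq_add' (congrArg (·.2.1) e),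
    congrArg (·.2.2) e⟩

/-- **`Aff` from the calculus**: the equations decay at one point over every parameter -/
theorem Hy.aff [o.B0] (H : Hy o) (hA : Map77.Adj 𝔉 Fs) (hτ : La H.ok False (vl (o := o) τ))
    (a : Pj o τ) (hp : ∀ t ∈ 𝔉.Q, ∃ y : Pnt o r, y.t = t ∧ Dc (𝔉.eq0 r n m + τ) y) :
    Map77.Aff o Fs r n m (𝔉.eq0 r n m + τ) :=
  H.aff0 hA hτ a fun t ht => let ⟨y, b, c⟩ := hp t ht; ⟨y, b, fun _ => c.ex hA a⟩

/-- **`Aff` from the calculus**: connected parameters, decay at one point (e.g. a solution) -/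
theorem Hy.aff1 [o.B0] (H : Hy o) (hA : Map77.Adj 𝔉 Fs) (hτ : La H.ok False (vl (o := o) τ))
    (a : Pj o τ) (hQ : IsPreconnected 𝔉.Q) {y₁ : Pnt o r} (hp : Dc (𝔉.eq0 r n m + τ) y₁) :
    Map77.Aff o Fs r n m (𝔉.eq0 r n m + τ) :=
  H.aff0 hA hτ a fun t ht => ⟨⟨0, 0, 0, t, zero_mem _, zero_mem _, ht⟩, rfl, fun _ hj =>
    let ⟨e, d⟩ := hp.ex hA a hj; (H.la_base.add hτ).spread hQ y₁ hj e d _⟩

end Crest.Agent.X212.Mon62
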