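import Crest.Agent.X212.Ell97.Abs

/-! # Row 212, RESH: the continuity method and interpolation (format free) -/

set_option autoImplicit false
open Finset Function
open scoped RealInnerProductSpace

noncomputable section
namespace Crest.Agent.X212.Mon62

section cont
variable {E₂ E₁ E₀ Z : Type*} [NormedAddCommGroup E₂] [NormedSpace ℝ E₂] [NormedAddCommGroup E₁]
  [NormedSpace ℝ E₁] [NormedAddCommGroup E₀] [NormedSpace ℝ E₀] [NormedAddCommGroup Z]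
  [InnerProductSpace ℝ Z]

/-- a bijection that is bounded below stays onto under small perturbations -/
theorem surj_of_close [CompleteSpace E₂] [CompleteSpace E₀] {L L' : E₂ →L[ℝ] E₀} {K : ℝ}
    (hs : Surjective L) (hb : ∀ u, ‖u‖ ≤ K * ‖L u‖) (hK : 0 ≤ K) (hc : K * ‖L' - L‖ < 1) :
    Surjective L' := by
  have hi : Injective L := (injective_iff_map_eq_zero _).2 fun u hu => by
    have := hb u
    rw [hu, norm_zero, mul_zero] at this
    exact norm_le_zero_iff.1 this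
  let e := ContinuousLinearEquiv.ofBijective L (LinearMap.ker_eq_bot.2 hi)
    (LinearMap.range_eq_top.2 hs)
  have he : ∀ y, L (e.symm y) = y := e.apply_symm_apply
  have hn : ‖(e.symm : E₀ →L[ℝ] E₂)‖ ≤ K :=
    ContinuousLinearMap.opNorm_le_bound _ hK fun y => by
      have := hb (e.symm y)
      rwa [he] at this
  have h1 : ‖-((L' - L).comp (e.symm : E₀ →L[ℝ] E₂))‖ < 1 := by
    rw [norm_neg]
    refine ((L' - L).opNorm_comp_le _).trans_lt (lt_of_le_of_lt ?_ hc)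
    rw [mul_comm K]
    exact mul_le_mul_of_nonneg_left hn (norm_nonneg _)
  intro y
  have h2 := congrArg (fun T : E₀ →L[ℝ] E₀ => T y) (Units.oneSub _ h1).mul_inv
  refine ⟨e.symm ((↑(Units.oneSub _ h1)⁻¹ : E₀ →L[ℝ] E₀) y), ?_⟩
  simp only [Units.val_oneSub, mul_apply_eq_comp, sub_apply,
    one_apply_eq_self, neg_apply, ContinuousLinearMap.comp_apply,
    ContinuousLinearEquiv.coe_coe, he] at h2
  refine Eq.trans ?_ h2
  abel

/-- **Continuity method.** -/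
theorem surj_of_segment [CompleteSpace E₂] [CompleteSpace E₀] {L₀ L₁ : E₂ →L[ℝ] E₀} {K : ℝ}
    (hs : Surjective L₀) (hK : 0 ≤ K)
    (hb : ∀ s ∈ Set.Icc (0 : ℝ) 1, ∀ u, ‖u‖ ≤ K * ‖(L₀ + s • (L₁ - L₀)) u‖) : Surjective L₁ := by
  obtain ⟨n, hn⟩ := exists_nat_gt (K * ‖L₁ - L₀‖)
  have hn0 : (0 : ℝ) < n := lt_of_le_of_lt (mul_nonneg hK (norm_nonneg _)) hn
  have key : ∀ m : ℕ, m ≤ n → Surjective (L₀ + ((m : ℝ) / n) • (L₁ - L₀)) := by
    intro m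
    induction m with
    | zero => intro _; simpa using hs
    | succ m ih =>
      intro hm
      have hm' : (m : ℝ) ≤ n := by exact_mod_cast (by omega : m ≤ n)
      refine surj_of_close (ih (by omega))
        (hb _ ⟨by positivity, (div_le_one hn0).2 hm'⟩) hK ?_
      have : L₀ + (((m + 1 : ℕ) : ℝ) / n) • (L₁ - L₀) - (L₀ + ((m : ℝ) / n) • (L₁ - L₀)) =
          (1 / n : ℝ) • (L₁ - L₀) := by
        rw [add_sub_add_left_eq_sub, ← sub_smul]; congr 1; push_cast; ring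
      rw [this, norm_smul, Real.norm_eq_abs, abs_of_pos (by positivity), mul_left_comm,
        one_div, inv_mul_lt_iff₀ hn0, mul_one]
      exact hn
  simpa [div_self hn0.ne'] using key n le_rfl

/-- coercivity in the bottom space -/
def Coer (j₂ : E₂ →L[ℝ] Z) (j₀ : E₀ →L[ℝ] Z) (c : ℝ) (L : E₂ →L[ℝ] E₀) : Prop :=
  ∀ u, c * ‖j₂ u‖ ^ 2 ≤ ⟪j₀ (L u), j₂ u⟫

variable {j₂ : E₂ →L[ℝ] Z} {j₀ : E₀ →L[ℝ] Z} {c : ℝ} {L L₀ L₁ : E₂ →L[ℝ] E₀}

theorem Coer.segment (h₀ : Coer j₂ j₀ c L₀) (h₁ : Coer j₂ j₀ c L₁) {s : ℝ}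
    (hs : s ∈ Set.Icc (0 : ℝ) 1) : Coer j₂ j₀ c (L₀ + s • (L₁ - L₀)) := fun u => by
  simp only [add_apply, smul_apply,
    sub_apply, map_add, map_smul, map_sub, inner_add_left, real_inner_smul_left,
    inner_sub_left]
  nlinarith [h₀ u, h₁ u, mul_le_mul_of_nonneg_left (h₀ u) (sub_nonneg.2 hs.2),
    mul_le_mul_of_nonneg_left (h₁ u) hs.1]

theorem Coer.le (h : Coer j₂ j₀ c L) (hc : 0 < c) (u : E₂) : ‖j₂ u‖ ≤ c⁻¹ * ‖j₀ (L u)‖ := by
  rw [le_inv_mul_iff₀ hc]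
  rcases (norm_nonneg (j₂ u)).eq_or_lt with h0 | h0
  · rw [← h0, mul_zero]; exact norm_nonneg _
  · have := (h u).trans (real_inner_le_norm _ _)
    rw [sq, ← mul_assoc] at this
    exact le_of_mul_le_mul_right this h0

/-- the a priori bound for a coercive lower order perturbation -/
theorem Coer.bound {i : E₂ →L[ℝ] E₁} (h : Coer j₂ j₀ c L) (hc : 0 < c) {K₀ R C b : ℝ}
    (hK : 0 ≤ K₀) (hR : 0 ≤ R) (hC : 0 ≤ C) (h0 : ∀ u, ‖u‖ ≤ K₀ * ‖L₀ u‖)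
    (hL : ∀ u, ‖L u - L₀ u‖ ≤ R * ‖i u‖) (hb : ∀ f, ‖j₀ f‖ ≤ b * ‖f‖)
    (hi : ∀ u, ‖i u‖ ≤ (2 * (K₀ * R + 1))⁻¹ * ‖u‖ + C * ‖j₂ u‖) (u : E₂) :
    ‖u‖ ≤ 2 * (K₀ + K₀ * R * C * (c⁻¹ * |b|)) * ‖L u‖ := by
  have h1 : ‖L₀ u‖ ≤ ‖L u‖ + R * ‖i u‖ := by
    have := norm_sub_le (L u) (L u - L₀ u)
    rw [sub_sub_cancel] at this
    linarith [hL u]
  have h2 : ‖j₂ u‖ ≤ c⁻¹ * |b| * ‖L u‖ := by
    refine (h.le hc u).trans ?_
    rw [mul_assoc]
    exact mul_le_mul_of_nonneg_left ((hb _).trans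
      (mul_le_mul_of_nonneg_right (le_abs_self b) (norm_nonneg _))) (inv_nonneg.2 hc.le)
  have hKR : 0 ≤ K₀ * R := mul_nonneg hK hR
  have h3 : K₀ * R * (2 * (K₀ * R + 1))⁻¹ ≤ 1 / 2 := by
    rw [mul_inv_le_iff₀ (by positivity)]; linarith
  have h4 := mul_le_mul_of_nonneg_left (hi u) hKR
  have h5 := mul_le_mul_of_nonneg_right h3 (norm_nonneg u)
  have h6 := mul_le_mul_of_nonneg_left h2 (mul_nonneg hKR hC)
  have h7 := mul_le_mul_of_nonneg_left h1 hK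
  nlinarith [h0 u]

/-- **A coercive lower order perturbation of a coercive isomorphism is an isomorphism.** -/
theorem Coer.bij [CompleteSpace E₂] [CompleteSpace E₀] {i : E₂ →L[ℝ] E₁} (h₀ : Coer j₂ j₀ c L₀)
    (h : Coer j₂ j₀ c L) (hc : 0 < c) {K₀ R C b : ℝ} (hK : 0 ≤ K₀) (hR : 0 ≤ R) (hC : 0 ≤ C)
    (hs : Surjective L₀) (h0 : ∀ u, ‖u‖ ≤ K₀ * ‖L₀ u‖)
    (hL : ∀ u, ‖L u - L₀ u‖ ≤ R * ‖i u‖) (hb : ∀ f, ‖j₀ f‖ ≤ b * ‖f‖)
    (hi : ∀ u, ‖i u‖ ≤ (2 * (K₀ * R + 1))⁻¹ * ‖u‖ + C * ‖j₂ u‖) : Bijective L := by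
  refine ⟨(injective_iff_map_eq_zero _).2 fun u hu => ?_, ?_⟩
  · have := h.bound hc hK hR hC h0 hL hb hi u
    rw [hu, norm_zero, mul_zero] at this
    exact norm_le_zero_iff.1 this
  · refine surj_of_segment hs (K := 2 * (K₀ + K₀ * R * C * (c⁻¹ * |b|))) (by positivity)
      fun s hs u => (h₀.segment h hs).bound hc hK hR hC h0 (fun v => ?_) hb hi u
    simp only [add_apply, smul_apply,
      sub_apply, add_sub_cancel_left, norm_smul, Real.norm_eq_abs,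
      abs_of_nonneg hs.1]
    exact (mul_le_of_le_one_left (norm_nonneg _) hs.2).trans (hL v)

theorem isInvertible_of_bij [CompleteSpace E₂] [CompleteSpace E₀] (h : Bijective L) :
    L.IsInvertible :=
  ⟨ContinuousLinearEquiv.ofBijective L (LinearMap.ker_eq_bot.2 h.1) (LinearMap.range_eq_top.2 h.2),
    rfl⟩

theorem apply_inverse (h : L.IsInvertible) (f : E₀) : L (L.inverse f) = f :=
  (h.inverse_apply_eq.1 rfl).symm

theorem inverse_apply (h : L.IsInvertible) (u : E₂) : L.inverse (L u) = u :=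
  h.inverse_apply_eq.2 rfl

theorem norm_inverse_le (h : L.IsInvertible) {K : ℝ} (hK : 0 ≤ K) (hb : ∀ u, ‖u‖ ≤ K * ‖L u‖) :
    ‖L.inverse‖ ≤ K :=
  ContinuousLinearMap.opNorm_le_bound _ hK fun f => by
    have := hb (L.inverse f)
    rwa [apply_inverse h] at this

end cont

section interp
open Ell97

/-- constants of the interpolation inequality -/
def KI (b ε : ℝ) : ℕ → ℝ
  | 0 => 1
  | k + 1 => 1 + (KI b ε k * b) ^ 2 / ε

theorem KI_nn (b : ℝ) {ε : ℝ} (hε : 0 < ε) : ∀ k, 0 ≤ KI b ε k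
  | 0 => zero_le_one
  | k + 1 => by unfold KI; positivity

variable {ι S : Type*} [Fintype ι] [AddCommGroup S] [Module ℝ S] {A : Scl ι S}

/-- **Interpolation**, squared form. `hb` is one integration by parts. -/
theorem interp_sq {b : ℝ} (hb : ∀ u, ∑ a, A.N 0 (A.D a u) ^ 2 ≤ b * A.N 0 u * A.N 2 u) {ε : ℝ}
    (hε : 0 < ε) (k : ℕ) :
    ∀ u, A.N k u ^ 2 ≤ k * ε * A.N (k + 1) u ^ 2 + KI b ε k * A.N 0 u ^ 2 := by
  induction k with
  | zero => intro u; simp [KI]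
  | succ k ih =>
    intro u
    have h1 : ∑ a, A.N k (A.D a u) ^ 2 ≤ k * ε * ∑ a, A.N (k + 1) (A.D a u) ^ 2 +
        KI b ε k * ∑ a, A.N 0 (A.D a u) ^ 2 := by
      rw [mul_sum, mul_sum, ← sum_add_distrib]
      exact sum_le_sum fun a _ => ih _
    have h2 : ∑ a, A.N (k + 1) (A.D a u) ^ 2 ≤ A.N (k + 1 + 1) u ^ 2 := by
      rw [A.Ns (k + 1)]; nlinarith [sq_nonneg (A.N 0 u)]
    have h3 := mul_le_mul_of_nonneg_left (hb u) (KI_nn b hε k)
    have h4 : A.N 2 u ^ 2 ≤ A.N (k + 1 + 1) u ^ 2 :=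
      pow_le_pow_left₀ (A.nn _ _) (A.N_mono (by omega) u) 2
    have h5 : KI b ε k * (b * A.N 0 u * A.N 2 u) ≤
        ε * A.N 2 u ^ 2 + (KI b ε k * b) ^ 2 / ε * A.N 0 u ^ 2 := by
      have h6 : (KI b ε k * b) ^ 2 / ε * A.N 0 u ^ 2 = ε * (KI b ε k * b / ε * A.N 0 u) ^ 2 := by
        field_simp
      have h7 : KI b ε k * (b * A.N 0 u * A.N 2 u) =
          ε * ((KI b ε k * b / ε * A.N 0 u) * A.N 2 u) := by field_simp
      rw [h6, h7, ← mul_add]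
      refine mul_le_mul_of_nonneg_left ?_ hε.le
      nlinarith [sq_nonneg (A.N 2 u - KI b ε k * b / ε * A.N 0 u), sq_nonneg (A.N 2 u),
        sq_nonneg (KI b ε k * b / ε * A.N 0 u)]
    have h8 := mul_le_mul_of_nonneg_left h2 (by positivity : (0 : ℝ) ≤ k * ε)
    have h9 := mul_le_mul_of_nonneg_left h4 hε.le
    rw [A.Ns k, KI]
    push_cast
    nlinarith

/-- the constant of the interpolation inequality `N k ≤ δ N (k+1) + KJ N 0` -/
def KJ (b δ : ℝ) (k : ℕ) : ℝ := √(KI b (δ ^ 2 / (k + 1)) k)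

theorem KJ_nn (b δ : ℝ) (k : ℕ) : 0 ≤ KJ b δ k := Real.sqrt_nonneg _

/-- **Interpolation.** -/
theorem interp {b : ℝ} (hb : ∀ u, ∑ a, A.N 0 (A.D a u) ^ 2 ≤ b * A.N 0 u * A.N 2 u) {δ : ℝ}
    (hδ : 0 < δ) (k : ℕ) (u : S) : A.N k u ≤ δ * A.N (k + 1) u + KJ b δ k * A.N 0 u := by
  have hε : 0 < δ ^ 2 / (k + 1) := by positivity
  have h1 := interp_sq hb hε k u
  have h2 : (k : ℝ) * (δ ^ 2 / (k + 1)) ≤ δ ^ 2 := by
    rw [mul_div_assoc', div_le_iff₀ (by positivity)]; nlinarith [sq_nonneg δ]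
  have h3 : KJ b δ k ^ 2 = KI b (δ ^ 2 / (k + 1)) k := Real.sq_sqrt (KI_nn b hε k)
  have h4 := A.nn (k + 1) u
  have h5 := A.nn 0 u
  have h6 := KJ_nn b δ k
  refine le_of_sq_le' (by positivity) ?_
  have h7 := mul_le_mul_of_nonneg_right h2 (sq_nonneg (A.N (k + 1) u))
  rw [← h3] at h1
  nlinarith [mul_nonneg (mul_nonneg hδ.le h4) (mul_nonneg h6 h5)]

end interp

end Crest.Agent.X212.Mon62
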