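import Crest.Agent.X212.Mon62.Aff
import Crest.Agent.X212.Mp86.Res

/-! # Row 212, WORDH: families of frames, multipliers and the resolvent -/

set_option autoImplicit false
set_option linter.unusedSectionVars false
set_option maxSynthPendingDepth 3
noncomputable section
open scoped Manifold ContDiff Topology InnerProductSpace
open MeasureTheory Set Function Filter

namespace Crest.Agent.X212.Mon62
open An Sob92 Prm93 Wz78
open Ell97 (UB)

variable {E : Type} [NormedAddCommGroup E] [NormedSpace ℝ E] [FiniteDimensional ℝ E]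
  [MeasurableSpace E] [BorelSpace E]
  {HM : Type} [TopologicalSpace HM] {I : ModelWithCorners ℝ E HM}
  {M : Type} [TopologicalSpace M] [ChartedSpace HM M] [IsManifold I ∞ M]
  [MeasurableSpace M] [T2Space M] [BorelSpace M] [SecondCountableTopology M] {ι : Type} [Fintype ι]
  {J : Type} {X Y : J → Type} [∀ i, NormedAddCommGroup (X i)] [∀ i, NormedSpace ℝ (X i)]
  {U V W : Type} [NormedAddCommGroup U] [InnerProductSpace ℝ U]
  [NormedAddCommGroup V] [InnerProductSpace ℝ V] [NormedAddCommGroup W] [InnerProductSpace ℝ W]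

section one
variable {F₀ : Pre I M ι} {F : Fr I M ι} {S : ι → ι → M → ℝ} {j : ℕ} {s : ℝ}

theorem rep_mix (h : Mix F₀ F.toPre S) (hS : ∀ a b, F₀.Cb (S a b)) (j : ℕ) (c : ι) :
    F₀.Rep (∑ b, smulH F₀ j (triv M V) (S c b) ∘L DH F₀ j (triv M V) b) (F.D c) :=
  RepT_congr (RepT_sum Finset.univ fun b _ => RepT_comp (rep_smulH (hS c b)) (rep_DH b))
    fun u => (h.D c u.1).symm

theorem Dt_eq (h : Mix F₀ F.toPre S) (hS : ∀ a b, F₀.Cb (S a b)) (j : ℕ) (c : ι) :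
    Dt V F₀ F j c = ∑ b, smulH F₀ j (triv M V) (S c b) ∘L DH F₀ j (triv M V) b :=
  (rep_mix h hS j c).liftT_eq

theorem act_mix (h : Mix F₀ F.toPre S) (hS : ∀ a b, F₀.Cb (S a b)) (hd : ∀ c, F₀.Cb (F.dv c)) :
    Act V F₀ F := ⟨fun j c => by rw [Dt_eq h hS]; exact rep_mix h hS j c, hd⟩

variable [CompleteSpace V] [I.Boundaryless]

theorem val_Dt (hs : Sup F₀ s) (h : Mix F₀ F.toPre S) (hS : ∀ a b, F₀.Cb (S a b)) (hj : 4 ≤ j)
    (c : ι) (u : HT F₀ V (j + 1)) :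
    F₀.val j _ (Dt V F₀ F j c u) = F.D c (F₀.val (j + 1) _ u) := by
  funext x
  rw [Dt_eq h hS, h.D, _root_.sum_apply, val_sum]
  exact Finset.sum_congr rfl fun b _ => by
    rw [ContinuousLinearMap.comp_apply, val_smulH hs hj (hS c b), (val_DH hs hj u).2]

theorem val_Nb (hs : Sup F₀ s) (h : Mix F₀ F.toPre S) (hS : ∀ a b, F₀.Cb (S a b)) (hj : 4 ≤ j)
    {A : ι → M → V →L[ℝ] V} (hA : ∀ c, F₀.Cb (A c)) (c : ι) (u : HT F₀ V (j + 1)) :
    F₀.val j _ (Nb F₀ F j (F₀.mulH j _ _ (A c)) c u) = nab I F.e A c (F₀.val (j + 1) _ u) := by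
  funext x
  rw [Nb, add_apply, val_add, Pi.add_apply, val_Dt hs h hS hj, ContinuousLinearMap.comp_apply,
    val_mulH hs hj (hA c) (Maps.triv _), val_incl hs hj j.le_succ]
  rfl

theorem val_QQ (hs : Sup F₀ s) (h : Mix F₀ F.toPre S) (hS : ∀ a b, F₀.Cb (S a b))
    (hd : ∀ c, F₀.Cb (F.dv c)) (hj : 4 ≤ j) {A : ι → M → V →L[ℝ] V} (hA : ∀ c, F₀.Cb (A c))
    (u : HT F₀ V (j + 2)) (x : M) :
    F₀.val j _ (QQ F₀ F j (fun c => F₀.mulH j _ _ (A c), fun c => F₀.mulH (j + 1) _ _ (A c)) u) x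
      = F₀.val (j + 2) _ u x + lap I F.e F.dv A (F₀.val (j + 2) _ u) x := by
  rw [QQ, sub_apply, val_sub, Pi.sub_apply, val_incl hs hj (by omega),
    _root_.sum_apply, val_sum, lap, sub_eq_add_neg]
  congr 2
  refine Finset.sum_congr rfl fun c _ => ?_
  rw [ContinuousLinearMap.comp_apply, add_apply, val_add, Pi.add_apply, val_Nb hs h hS hj hA,
    ContinuousLinearMap.comp_apply, val_smulH hs hj (hd c), val_incl hs hj j.le_succ,
    val_Nb hs h hS (by omega) hA]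

end one

namespace Dm
variable (D : Dm I M ι X Y)

/-- coefficient families -/
structure Lc (f : ∀ i, X i → M → ℝ) : Prop where
  us : D.US f
  a0 : ∀ j, 4 ≤ j → D.A0 False j fun i y => f i (D.pt i y)

/-- a family of geometric frames over the Sobolev frames -/
structure FF (G : ∀ i, X i → Fr I M ι) : Prop where
  mix : ∃ S : ι → ι → ∀ i, X i → M → ℝ, (∀ a b, D.Lc (S a b)) ∧
    ∀ i, ∀ x ∈ D.U i, Mix (D.P i) (G i x).toPre fun a b => S a b i x
  dv : ∀ a, D.Lc fun i x => (G i x).dv a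
  c : ∀ a b k, D.Lc fun i x => (G i x).c a b k
  bump : ∀ i y, Mp86.Bumps I (G i (D.pt i y)).e (G i (D.pt i y)).dv
  dens : ∃ ρ : ∀ i, X i → M → ℝ, D.US ρ ∧ ∀ i y (g : M → ℂ), ∫ x, g x ∂(G i (D.pt i y)).μ =
    ∫ x, ρ i (D.pt i y) x • g x ∂(D.P i).μ

variable (V) in
/-- hypothesis: the resolvent on the Sobolev scale -/
def RB (G : ∀ i, X i → Fr I M ι) : Prop := ∀ l, 4 ≤ l →
  (∀ i, ∀ x ∈ D.U i, ∀ T ∈ closure (Adm V (D.P i) l), Bijective (QQ (D.P i) (G i x) l T)) ∧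
  ∀ R, ∃ K, ∀ i, ∀ x ∈ D.B i, ∀ T ∈ closure (Adm V (D.P i) l), ‖T‖ ≤ R →
    ∀ u, ‖u‖ ≤ K * ‖QQ (D.P i) (G i x) l T u‖

variable (V) in
/-- hypothesis: the resolvent on `Cb` functions -/
structure RE (G : ∀ i, X i → Fr I M ι) : Prop where
  ex : ∀ i y (A : ι → M → V →L[ℝ] V) (s : M → V), (∀ c, (D.P i).Cb (A c)) →
    (∀ c x, Skew (A c x)) → (D.P i).Cb s → ∃ u, (G i (D.pt i y)).IsRes A s u ∧ (D.P i).Cb u
  ub : ∀ (A : J → ι → M → V →L[ℝ] V) (s : J → M → V), (∀ c, UB D.P fun i => A i c) →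
    (∀ i c x, Skew (A i c x)) → UB D.P s →
    UB D.P fun i => (G i (D.pt i (D.y₀ i))).res (A i) (s i)

/-- operator valued families acting on the levels `≤ j` -/
structure Mul (j : ℕ) (A : ∀ i, Y i → M → V →L[ℝ] W) : Prop where
  sz : D.Sz A
  op : ∀ l, 4 ≤ l → l ≤ j → ∃ T : ∀ i, X i → D.H V l i →L[ℝ] D.H W l i, UC D.toRg T ∧
    ∀ i y, T i (D.pt i y) = (D.P i).mulH l _ _ (A i y)
  app : ∀ {ε : Prop} {l : ℕ} {w : ∀ i, Y i → M → V}, 4 ≤ l → l ≤ j → D.A0 ε l w →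
    D.A0 ε l fun i y x => A i y x (w i y x)

variable {D} {G : ∀ i, X i → Fr I M ι} {ε : Prop} {j l : ℕ} {w s : ∀ i, Y i → M → V}

theorem Lc.fixed {b : J → M → ℝ} (h : UB D.P b) : D.Lc fun i _ => b i :=
  ⟨US.fixed h, fun _ _ => A0.fixed h⟩

theorem Lc.of_cut {f : ∀ i, X i → M → ℝ} (h : D.US f) {χ : J → M → ℝ}
    (hχ : ∀ j, 4 ≤ j → D.A0 True j fun i _ => χ i)
    (h1 : ∀ i y x, χ i x • (f i (D.pt i y) x - f i (D.pt i (D.y₀ i)) x) =
      f i (D.pt i y) x - f i (D.pt i (D.y₀ i)) x) : D.Lc f :=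
  ⟨h, fun j hj => A0.loc hj h (hχ j hj) h1⟩

variable [CompleteSpace U] [CompleteSpace V] [CompleteSpace W]

theorem A0.smul {ε' : Prop} {k : ℕ} {f : ∀ i, Y i → M → ℝ} (hL : Lev k j l) (hl : 4 ≤ l)
    (hf : D.A0 ε' k f) (h : D.A0 ε j w) : D.A0 (ε' ∨ ε) l fun i y x => f i y x • w i y x :=
  hf.bil (ContinuousLinearMap.lsmul ℝ ℝ) hL hl h

theorem Lc.smul {f : ∀ i, X i → M → ℝ} (hf : D.Lc f) (hj : 4 ≤ j) (h : D.A0 ε j w) :
    D.A0 ε j fun i y x => f i (D.pt i y) x • w i y x :=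
  (A0.smul (Lev.left (by omega) (by omega)) hj (hf.a0 (j + 7) (by omega)) h).imp Or.inr

theorem A0.neg (hj : 4 ≤ j) (h : D.A0 ε j w) : D.A0 ε j fun i y x => -w i y x :=
  h.clm hj (-ContinuousLinearMap.id ℝ V)

theorem A0.sub (hj : 4 ≤ j) (h : D.A0 ε j w) (h' : D.A0 ε j s) :
    D.A0 ε j fun i y x => w i y x - s i y x :=
  (h.add (h'.neg hj)).congr fun _ _ _ => sub_eq_add_neg _ _

/-- integrals with a smooth family of densities -/
theorem A0.integral_us {N N' : Type} [NormedAddCommGroup N] [NormedSpace ℝ N]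
    [NormedAddCommGroup N'] [NormedSpace ℝ N'] [CompleteSpace N'] (β : N →L[ℝ] V →L[ℝ] N')
    (hj : 4 ≤ j) (h : D.A0 ε j w) {ρ : ∀ i, X i → M → ℝ} (hρ : D.US ρ) {σ : J → M → N}
    (hs : ∀ i, Continuous (σ i)) (hc : ∀ i, HasCompactSupport (σ i))
    (hn : ∃ K, ∀ i, ∫ x, ‖σ i x‖ ∂(D.P i).μ ≤ K) :
    D.Sc fun i y => ∫ x, ρ i (D.pt i y) x • β (σ i x) (w i y x) ∂(D.P i).μ := by
  obtain ⟨γ, g1, g2⟩ := (A0.us_smul (ε := True) hj hρ ((h.aff.sub hj (A0.fixed h.sz.ub)).pure_of_base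
    (A0.zero.congr fun _ _ _ => sub_self _))).integral β hj hs hc hn
  obtain ⟨K, hK⟩ := hn
  obtain ⟨C, hC⟩ := h.sz.ub
  have hi : ∀ i {f : M → ℝ} {u : M → V}, Continuous f → Continuous u →
      Integrable (fun x => f x • β (σ i x) (u x)) (D.P i).μ := fun i f u hf hu =>
    (hf.smul ((β.continuous.comp (hs i)).clm_apply hu)).integrable_of_hasCompactSupport
      (hcs_bil_left β u (hc i)).smul_left
  let L : ∀ i, B (D.P i) 0 ℝ →L[ℝ] N' := fun i => LinearMap.mkContinuous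
    { toFun := fun f => ∫ x, B.fn f x • β (σ i x) (w i (D.y₀ i) x) ∂(D.P i).μ
      map_add' := fun f g => by
        rw [← integral_add (hi i f.sm.continuous (hC i).1.continuous)
          (hi i g.sm.continuous (hC i).1.continuous)]
        simp only [map_add, Pi.add_apply, add_smul]
      map_smul' := fun c f => by
        simp only [map_smul, Pi.smul_apply, smul_assoc, integral_smul, RingHom.id_apply] }
    (‖β‖ * K * |C 0|) fun f => by
      refine (norm_integral_le_of_norm_le (((((hs i).norm.integrable_of_hasCompactSupport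
        (hc i).norm).const_mul ‖β‖).mul_const |C 0|).mul_const ‖f‖) (.of_forall fun x => ?_)).trans ?_
      · rw [norm_smul, mul_comm]
        exact mul_le_mul ((β.le_opNorm₂ _ _).trans (mul_le_mul_of_nonneg_left
          (CB_bound (CB_abs ((hC i).2 0)) x) (by positivity))) (CB_bound f.CB x) (norm_nonneg _)
          (by positivity)
      · rw [integral_mul_const, integral_mul_const, integral_const_mul]
        gcongr
        exact hK i
  have hL : Bv L := ⟨_, fun i => LinearMap.mkContinuous_norm_le' _ _⟩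
  refine ⟨_, g1.add ((hρ.uc 0).clm hL), fun i y => ?_⟩
  have c1 := (hρ.sz.sm i y).continuous
  have e : L i (toB (D.P i) 0 (ρ i (D.pt i y))) =
      ∫ x, ρ i (D.pt i y) x • β (σ i x) (w i (D.y₀ i) x) ∂(D.P i).μ := by
    rw [← fn_toB (k := 0) (hρ.cb i _ (D.mem i y)), toB_fn]; rfl
  have e' := g2 i y
  simp only [map_smul] at e'
  beta_reduce
  rw [e, ← e', ← integral_add (hi i (u := fun x => w i y x - w i (D.y₀ i) x) c1
    ((h.sz.sm i y).continuous.sub (hC i).1.continuous))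
    (hi i (u := w i (D.y₀ i)) c1 (hC i).1.continuous)]
  simp only [map_sub, smul_sub, sub_add_cancel]

theorem A0.toMul (β : U →L[ℝ] V →L[ℝ] W) (hj : 7 ≤ j) {a : ∀ i, Y i → M → U} (h : D.A0 ε j a) :
    D.Mul j fun i y x => β (a i y x) :=
  ⟨h.sz.clm β, fun _ hl hlj => h.mult β hj hl hlj,
    fun hl hlj hw => (h.bil β (Lev.left hj hlj) hl hw).imp Or.inr⟩

theorem Mul.fixed {f : J → M → V →L[ℝ] W} (h : UB D.P f) : D.Mul j fun i _ => f i :=
  ⟨Sz.fixed h, fun l _ _ => ⟨_, UC.const (bv_mulH h l), fun _ _ => rfl⟩,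
    fun hl _ hw => hw.app hl h⟩

theorem Mul.add {A A' : ∀ i, Y i → M → V →L[ℝ] W} (h : D.Mul j A) (h' : D.Mul j A') :
    D.Mul j fun i y x => A i y x + A' i y x := by
  refine ⟨h.sz.add h'.sz, fun l hl hlj => ?_, fun hl hlj hw =>
    (h.app hl hlj hw).add (h'.app hl hlj hw)⟩
  obtain ⟨T, h1, h2⟩ := h.op l hl hlj
  obtain ⟨T', k1, k2⟩ := h'.op l hl hlj
  exact ⟨_, h1.add k1, fun i y => by
    rw [h2, k2, ← mulH_add (h.sz.cb i y) (Maps.triv _) (h'.sz.cb i y) (Maps.triv _)]; rfl⟩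

theorem Mul.lower {A : ∀ i, Y i → M → V →L[ℝ] W} (h : D.Mul j A) (hl : l ≤ j) : D.Mul l A :=
  ⟨h.sz, fun k h4 hk => h.op k h4 (hk.trans hl), fun h4 hk hw => h.app h4 (hk.trans hl) hw⟩

variable [I.Boundaryless]

theorem A0.dG (hF : D.FF G) (hj : 4 ≤ j) (h : D.A0 ε (j + 1) w) (a : ι) :
    D.A0 ε j fun i y => (G i (D.pt i y)).D a (w i y) := by
  obtain ⟨S, h1, h2⟩ := hF.mix
  exact (A0.fsum Finset.univ fun b _ => (h1 a b).smul hj (h.dD hj b)).congr fun i y x =>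
    congrFun ((h2 i _ (D.mem i y)).D a _) x

theorem A0.nab (hF : D.FF G) (hj : 4 ≤ j) {A : ∀ i, Y i → ι → M → V →L[ℝ] V}
    (hA : ∀ c, D.Mul j fun i y => A i y c) (h : D.A0 ε (j + 1) w) (a : ι) :
    D.A0 ε j fun i y => nab I (G i (D.pt i y)).e (A i y) a (w i y) :=
  (h.dG hF hj a).add ((hA a).app hj le_rfl (h.lower hj j.le_succ))

theorem A0.lap (hF : D.FF G) (hj : 4 ≤ j) {A : ∀ i, Y i → ι → M → V →L[ℝ] V}
    (hA : ∀ c, D.Mul (j + 1) fun i y => A i y c) (h : D.A0 ε (j + 2) w) :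
    D.A0 ε j fun i y => lap I (G i (D.pt i y)).e (G i (D.pt i y)).dv (A i y) (w i y) :=
  have h1 := fun a => h.nab hF (by omega) hA a
  (A0.fsum Finset.univ fun a _ => ((h1 a).nab hF hj (fun c => (hA c).lower j.le_succ) a).add
    ((hF.dv a).smul hj ((h1 a).lower hj j.le_succ))).neg hj

omit [CompleteSpace V] [I.Boundaryless] in
theorem uc_QQ (hF : D.FF G) {T : ∀ i, X i → Mu (D.P i) V l}
    (h1 : ∀ c, UC D.toRg fun i x => (T i x).1 c) (h2 : ∀ c, UC D.toRg fun i x => (T i x).2 c) :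
    UC D.toRg fun i x => QQ (D.P i) (G i x) l (T i x) := by
  obtain ⟨S, s1, s2⟩ := hF.mix
  have hD : ∀ j c, UC D.toRg fun i x => Dt V (D.P i) (G i x) j c := fun j c =>
    (UC.sum fun b => ((s1 c b).us.smulH j).comp (UC.const (bv_DH j b))).congr fun i x hx =>
      Dt_eq (s2 i x hx) (fun a b => (s1 a b).us.cb i x hx) j c
  exact (UC.const (bv_ic (by omega))).sub (UC.sum fun c =>
    (((hD l c).add ((h1 c).comp (UC.const (bv_ic l.le_succ)))).add
      (((hF.dv c).us.smulH l).comp (UC.const (bv_ic l.le_succ)))).comp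
      ((hD (l + 1) c).add ((h2 c).comp (UC.const (bv_ic (l + 1).le_succ)))))

/-- the resolvent operator of a family of connections -/
theorem exists_inv (hF : D.FF G) (hB : D.RB V G) (hl : 4 ≤ l)
    {A : ∀ i, Y i → ι → M → V →L[ℝ] V} (hA : ∀ c, D.Mul (l + 1) fun i y => A i y c)
    (hs : ∀ i y c x, Skew (A i y c x)) :
    ∃ R : ∀ i, X i → D.H V l i →L[ℝ] D.H V (l + 2) i, UC D.toRg R ∧ ∀ i y f x,
      D.vl (R i (D.pt i y) f) x + Wz78.lap I (G i (D.pt i y)).e (G i (D.pt i y)).dv (A i y)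
        (D.vl (R i (D.pt i y) f)) x = D.vl f x := by
  choose T₁ a1 a2 using fun c => (hA c).op l hl l.le_succ
  choose T₂ b1 b2 using fun c => (hA c).op (l + 1) (by omega) le_rfl
  let T : ∀ i, X i → Mu (D.P i) V l := fun i x => (fun c => T₁ c i x, fun c => T₂ c i x)
  have hT : ∀ i y, T i (D.pt i y) = (fun c => (D.P i).mulH l _ _ (A i y c),
      fun c => (D.P i).mulH (l + 1) _ _ (A i y c)) := fun i y => by simp only [T, a2, b2]
  have hc : ∀ i, ∀ x ∈ D.U i, T i x ∈ closure (Adm V (D.P i) l) := fun i x hx => by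
    have c1 : ContinuousAt (T i) x := (continuousAt_pi.2 fun c => ((a1 c).sm.diff hx).continuousAt).prodMk
      (continuousAt_pi.2 fun c => ((b1 c).sm.diff hx).continuousAt)
    refine c1.continuousWithinAt.mem_closure (D.dns i hx) ?_
    rintro _ ⟨y, rfl⟩
    rw [hT]
    exact ⟨A i y, fun c => (hA c).sz.sm i y, hs i y,
      fun c => rep_mulH ((hA c).sz.cb i y) (Maps.triv _),
      fun c => rep_mulH ((hA c).sz.cb i y) (Maps.triv _)⟩
  have hi : ∀ i, ∀ x ∈ D.U i, (QQ (D.P i) (G i x) l (T i x)).IsInvertible := fun i x hx =>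
    isInvertible_of_bij ((hB l hl).1 i x hx _ (hc i x hx))
  have hb : ∃ R, ∀ i, ∀ x ∈ D.B i, ‖T i x‖ ≤ R := by
    choose K₁ n1 k1 using fun c => (a1 c).bd0.nn
    choose K₂ n2 k2 using fun c => (b1 c).bd0.nn
    have p1 := Finset.sum_nonneg fun c (_ : c ∈ Finset.univ) => n1 c
    have p2 := Finset.sum_nonneg fun c (_ : c ∈ Finset.univ) => n2 c
    refine ⟨∑ c, K₁ c + ∑ c, K₂ c, fun i x hx => max_le ?_ ?_⟩
    · exact (pi_norm_le_iff_of_nonneg (by positivity)).2 fun c => (k1 c i x hx).trans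
        ((Finset.single_le_sum (fun c _ => n1 c) (Finset.mem_univ c)).trans (by linarith))
    · exact (pi_norm_le_iff_of_nonneg (by positivity)).2 fun c => (k2 c i x hx).trans
        ((Finset.single_le_sum (fun c _ => n2 c) (Finset.mem_univ c)).trans (by linarith))
  obtain ⟨R, hR⟩ := hb
  obtain ⟨K, hK⟩ := (hB l hl).2 R
  obtain ⟨S, s1, s2⟩ := hF.mix
  refine ⟨_, (uc_QQ hF (T := T) a1 b1).inverse hi ⟨|K|, fun i x hx =>
    norm_inverse_le (hi i x (D.sub i hx)) (abs_nonneg K) fun u =>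
      (hK i x hx _ (hc i x (D.sub i hx)) (hR i x hx) u).trans
        (mul_le_mul_of_nonneg_right (le_abs_self K) (norm_nonneg _))⟩, fun i y f x => ?_⟩
  have hx := D.mem i y
  rw [vl, ← val_QQ (D.sup i) (s2 i _ hx) (fun a b => (s1 a b).us.cb i _ hx)
    (fun c => (hF.dv c).us.cb i _ hx) hl (fun c => (hA c).sz.cb i y), ← hT,
    apply_inverse (hi i _ hx)]

omit [CompleteSpace V] [I.Boundaryless] in
theorem sz_res [BoundarylessManifold I M] (hF : D.FF G) (hE : D.RE V G)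
    {A : ∀ i, Y i → ι → M → V →L[ℝ] V} (hA : ∀ c, D.Sz fun i y => A i y c)
    (hs : ∀ i y c x, Skew (A i y c x)) (h : D.Sz s) :
    (D.Sz fun i y => (G i (D.pt i y)).res (A i y) (s i y)) ∧
      ∀ i y, (G i (D.pt i y)).IsRes (A i y) (s i y) ((G i (D.pt i y)).res (A i y) (s i y)) := by
  have h1 := fun i y => hE.ex i y (A i y) (s i y) (fun c => (hA c).cb i y) (hs i y) (h.cb i y)
  refine ⟨⟨fun i y => ?_, hE.ub _ _ (fun c => (hA c).ub) (fun i => hs i _) h.ub⟩, fun i y =>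
    Mp86.res_spec ((h1 i y).imp fun _ h => h.1)⟩
  obtain ⟨u, h2, h3⟩ := h1 i y
  rwa [Mp86.res_eq (hF.bump i y) ⟨fun c => (hA c).sm i y, hs i y⟩ h2]

/-- **The resolvent gains two derivatives.** -/
theorem A0.res (hF : D.FF G) (hB : D.RB V G) (hE : D.RE V G) (hl : 4 ≤ l)
    {A : ∀ i, Y i → ι → M → V →L[ℝ] V} (hA : ∀ c, D.Mul (l + 1) fun i y => A i y c)
    (hs : ∀ i y c x, Skew (A i y c x)) (h : D.A0 ε l s) :
    D.A0 ε (l + 2) fun i y => (G i (D.pt i y)).res (A i y) (s i y) := by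
  obtain ⟨z1, z2⟩ := sz_res hF hE (fun c => (hA c).sz) hs h.sz
  obtain ⟨R, r1, r2⟩ := exists_inv hF hB hl hA hs
  have key : ∀ u : J → M → V, UB D.P u → (ε → ∀ i x, u i x = 0) → (D.A0 True l fun i y x =>
      s i y x - (u i x + Wz78.lap I (G i (D.pt i y)).e (G i (D.pt i y)).dv (A i y) (u i) x)) →
      D.A0 ε (l + 2) fun i y => (G i (D.pt i y)).res (A i y) (s i y) := by
    intro u hu h0 hp
    obtain ⟨δ, d1, d2⟩ := hp.pure
    refine ⟨z1, u, _, hu, h0, r1.app d1, fun i y x => ?_⟩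
    obtain ⟨e1, ⟨C, e2⟩, e3⟩ := z2 i y
    obtain ⟨C', hu⟩ := hu
    have mc := Mp86.Mc.mc (⟨fun c => (hA c).sz.sm i y, hs i y⟩ : Mp86.Mc I (A i y))
    have vf := Mp86.vf (G i (D.pt i y)).toPre
    refine eq_add_of_sub_eq' (Mp86.eq_of_bdd (hF.bump i y) finite_empty (fun h => absurd h
      not_nonempty_empty) (C := C + C' 0 + √|D.C 0| * ‖R i (D.pt i y) (δ i (D.pt i y))‖)
      (u := fun x => (G i (D.pt i y)).res (A i y) (s i y) x - u i x) vf
      (fun _ h => h.elim) (fun _ h => h.elim) (fun x _ => mc x)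
      (fun x _ => Mp86.cm2 (e1.sub (hu i).1) x)
      (fun x _ => contMDiff_val (n := 2) (D.sup i) (by omega) _ x) (fun x _ => ?_)
      (fun x _ => ?_) x (notMem_empty x))
    · exact (norm_sub_le _ _).trans (add_le_add ((norm_sub_le _ _).trans (add_le_add (e2 x)
        (CB_bound ((hu i).2 0) x))) (norm_val_le (D.sup i) (by omega) _ x))
    · rw [Mp86.LA_sub (vf x) (mc x).sm (Mp86.cm2 e1 x) (Mp86.cm2 (hu i).1 x), Mp86.LA_eq_lap,
        Mp86.LA_eq_lap, Mp86.LA_eq_lap, sub_neg_eq_add _ (Wz78.lap _ _ _ _ (Pre.val _ _ _ _) _),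
        r2, ← congrFun (d2 i y) x, ← e3 x]
      abel
  by_cases e : ε
  · refine key (fun _ _ => 0) (UB.const 0) (fun _ _ _ => rfl) ((h.imp fun _ => e).congr
      fun i y x => ?_)
    rw [show (fun _ => 0 : M → V) = 0 from rfl, Mp86.lap_zero, add_zero, sub_zero]
  · have h1 := A0.fixed (j := l + 2) z1.ub
    refine key _ z1.ub (fun h => absurd h e) ((h.aff.sub hl ((h1.lower hl (by omega)).add
      (h1.lap hF hl hA))).pure_of_base (A0.zero.congr fun i _ x => ?_))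
    exact sub_eq_zero.2 ((z2 i _).2.2 x).symm

end Dm

end Crest.Agent.X212.Mon62
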