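import Crest.Agent.X212.Rsp69.Cyc
import Crest.Agent.X212.Gl67.Jet

/-! # Row 212, LOC: window bounds and weighted norms -/

set_option autoImplicit false
set_option linter.unusedSectionVars false
noncomputable section
open scoped Manifold ContDiff Topology InnerProductSpace ENNReal
open MeasureTheory Set Function Filter Real

namespace Crest.Agent.X212.Mon62.Lz
open An Sob92 Wz78 Rsp69 Rsp69.Cx
open Gl67 (J N_le N_mono N_supp N_eq N_congr J_nonneg J_succ)

/-- the weight `exp (-c (sg t - b))` above the height `b` -/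
def rw (c sg b t : ℝ) : ℝ := exp (-(c * max (sg * t - b) 0))

section rw
variable {c c' sg b s t : ℝ}

theorem rw_pos : 0 < rw c sg b t := exp_pos _

theorem rw_le (hc : 0 ≤ c) : rw c sg b t ≤ exp (-(c * (sg * t - b))) :=
  exp_le_exp.2 (neg_le_neg (mul_le_mul_of_nonneg_left (le_max_left _ _) hc))

theorem rw_le_one (hc : 0 ≤ c) : rw c sg b t ≤ 1 :=
  exp_le_one_iff.2 (neg_nonpos.2 (mul_nonneg hc (le_max_right _ _)))

theorem rw_mul : rw c sg b t * rw c' sg b t = rw (c + c') sg b t := by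
  rw [rw, rw, rw, ← exp_add]; ring_nf

theorem sg_abs (h : sg = 1 ∨ sg = -1) (s : ℝ) : |sg * s| = |s| := by rcases h with rfl | rfl <;> simp

theorem rw_lip (h : sg = 1 ∨ sg = -1) (hc : 0 ≤ c) (h' : c ≤ c') :
    rw c sg b s ≤ exp (c' * |s - t|) * rw c sg b t := by
  rw [rw, rw, ← exp_add, exp_le_exp]
  have h1 := abs_max_sub_max_le_abs (sg * t - b) (sg * s - b) 0
  rw [sub_sub_sub_cancel_right, ← mul_sub, sg_abs h, abs_sub_comm t] at h1
  nlinarith [le_abs_self (max (sg * t - b) 0 - max (sg * s - b) 0), abs_nonneg (s - t)]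

end rw

variable {E : Type} [NormedAddCommGroup E] [NormedSpace ℝ E] [FiniteDimensional ℝ E]
  [MeasurableSpace E] [BorelSpace E]
  {HM : Type} [TopologicalSpace HM] {I : ModelWithCorners ℝ E HM} [I.Boundaryless]
  {M : Type} [TopologicalSpace M] [ChartedSpace HM M] [IsManifold I ∞ M]
  [MeasurableSpace M] [T2Space M] [BorelSpace M] [SecondCountableTopology M]
  {ι : Type} [Fintype ι] {𝒟 : Type*} {X : Cx I M ι 𝒟}
  {N : 𝒟 → Type} [∀ d, NormedAddCommGroup (N d)] [∀ d, NormedSpace ℝ (N d)]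
  {w : 𝒟 → ℝ → ℝ} {g : 𝒟 → M → ℝ} {L K δ c sg b : ℝ} {k : ℕ} {u : ∀ d, M → N d}

theorem N_n2 {V : Type} [NormedAddCommGroup V] [NormedSpace ℝ V] {F : Pre I M ι} {v : M → V}
    (h : Sm I v) (h' : HasCompactSupport v) : Gl67.N F 0 univ k v = ENNReal.ofReal (N2 F k v) :=
  N_eq (Nk89.WtP.refl F) (FL_of_hcs k h h')

/-- **weighted bounds give bounds on the windows** -/
theorem hk_of_N (hL : 0 ≤ L) (hK : 0 ≤ K) (hw : ∀ R, ∃ c, 0 ≤ c ∧ ∀ᶠ d in X.l, ∀ t, 0 ≤ w d t ∧
      ∀ x ∈ X.bd L d, |X.τ d x - t| ≤ R → 1 ≤ c * w d t ^ 2 * exp (2 * g d x)) (k : ℕ) :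
    ∀ {u : ∀ d, M → N d}, (∀ᶠ d in X.l, (∀ x ∈ X.bd L d, SA I (u d) x) ∧
      Gl67.N (X.F d).toPre (g d) (X.bd L d) k (u d) ≤ ENNReal.ofReal K) → X.Hk w k u := by
  induction k with
  | zero =>
    intro u h
    refine ⟨L, hL, fun R hR => ?_⟩
    obtain ⟨c, c0, hc⟩ := hw R
    refine ⟨c * K, by positivity, ?_⟩
    filter_upwards [lw_in, ev_fst h, ev_fst hc, ev_fst X.sτ, (bk_η' R 0).sa,
      W_vol (R := R) (by linarith)] with z hz h hc hτ hη hv
    have s : Sm I fun x => X.η R z x • u z.1 x := sm_cut (fun x => hη x trivial)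
      fun x hx => h.1 x (W_bd hz (ts_η hτ.1 hx))
    have t : tsupport (fun x => X.η R z x • u z.1 x) ⊆ X.W R z :=
      (tsupport_smul_subset_left _ _).trans (ts_η hτ.1)
    have c' := hv.1.of_isClosed_subset (isClosed_tsupport _) t
    have w0 := (hc z.2).1
    refine ⟨w0, s, c', (ENNReal.ofReal_le_ofReal_iff (by positivity)).1 ?_⟩
    rw [← N_n2 s c', N_supp t, mul_right_comm, ENNReal.ofReal_mul (by positivity)]
    refine (N_le hv.1.measurableSet (by positivity) fun x hx => ?_).trans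
      (mul_le_mul_right ((N_mono (W_bd hz)).trans h.2) _)
    have h1 := (hc z.2).2 x (W_bd hz hx) hx
    have h2 : ‖X.η R z x • u z.1 x‖ ^ 2 ≤ ‖u z.1 x‖ ^ 2 := by
      rw [norm_smul, mul_pow, Real.norm_eq_abs, sq_abs]
      exact mul_le_of_le_one_left (sq_nonneg _) (pow_le_one₀ wc_mem.1 wc_mem.2)
    simp only [J, Pi.zero_apply, mul_zero, exp_zero, one_mul, ← mul_assoc]
    exact h2.trans (le_mul_of_one_le_left (sq_nonneg _) h1)
  | succ k ih =>
    intro u h
    have m : ∀ {d} {v : M → N d} {j}, (∀ x, J (X.F d).toPre j v x ≤ J (X.F d).toPre (k + 1) (u d) x) →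
        Gl67.N (X.F d).toPre (g d) (X.bd L d) j v ≤
          Gl67.N (X.F d).toPre (g d) (X.bd L d) (k + 1) (u d) := fun h => lintegral_mono fun x =>
      ENNReal.ofReal_le_ofReal (mul_le_mul_of_nonneg_left (h x) (exp_pos _).le)
    exact (ih (h.mono fun d h => ⟨h.1, (m fun _ => J_succ k _).trans h.2⟩)).succ fun a =>
      ih (h.mono fun d h => ⟨fun x hx => dv_smoothAt ((X.F d).sm a x) (h.1 x hx), (m fun x =>
        (Finset.single_le_sum (f := fun a => J (X.F d).toPre k ((X.F d).D a (u d)) x)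
          (fun _ _ => J_nonneg k _) (Finset.mem_univ a)).trans
          (le_add_of_nonneg_left (sq_nonneg _))).trans h.2⟩)

/-- **exponential bounds on the windows give small weighted norms** -/
theorem N_of_hk (hs : sg = 1 ∨ sg = -1) (h0 : 0 ≤ δ) (hδ : δ < c)
    (hb : ∀ᶠ d in X.l, ∀ L t, b + L ≤ sg * t → t ∈ X.In L d) (h : X.Hk (fun _ => rw c sg b) k u)
    {ε : ℝ≥0∞} (hε : 0 < ε) : ∃ a : ℝ, ∀ᶠ d in X.l, Gl67.N (X.F d).toPre
      (fun x => δ * (sg * X.τ d x)) {x | a < sg * X.τ d x} k (u d) ≤ ε := by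
  obtain ⟨L, hL, h⟩ := h
  obtain ⟨K, hK, h⟩ := h 3 (by norm_num)
  have s2 : sg * sg = 1 := by rcases hs with rfl | rfl <;> simp
  let f : ℕ → ℝ≥0∞ := fun n => ENNReal.ofReal (exp (2 * δ + 2 * c * b) * K * exp (-(2 * (c - δ))) ^ n)
  have hf : ∑' n, f n ≠ ⊤ := ((summable_geometric_of_lt_one (exp_pos _).le
    (exp_lt_one_iff.2 (by linarith))).mul_left _).tsum_ofReal_ne_top
  obtain ⟨a, a1, a2⟩ := (((ENNReal.tendsto_sum_nat_add f hf).eventually (ge_mem_nhds hε)).and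
    (tendsto_natCast_atTop_atTop.eventually_ge_atTop (b + (L + 3)))).exists
  refine ⟨a, ?_⟩
  filter_upwards [ev_lw.1 h, hb, X.sτ] with d h hb hτ
  have ct : Continuous fun x => sg * X.τ d x := continuous_const.mul hτ.1.continuous
  let A : ℕ → Set M := fun n => (fun x => sg * X.τ d x) ⁻¹' Icc (n : ℝ) (n + 1)
  refine le_trans ?_ a1
  refine (N_mono (B := ⋃ n, A (n + a)) fun x hx => mem_iUnion.2 ⟨⌊sg * X.τ d x - a⌋₊, ?_⟩).trans
    ((lintegral_iUnion_le _ _).trans (ENNReal.tsum_le_tsum fun n => ?_))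
  · have := Nat.floor_le (sub_pos.2 (show (a : ℝ) < _ from hx)).le
    have := Nat.lt_floor_add_one (sg * X.τ d x - a)
    simp only [A, mem_preimage, mem_Icc, Nat.cast_add]
    constructor <;> linarith
  obtain ⟨m, hm⟩ : ∃ m, m = n + a := ⟨_, rfl⟩
  have m1 : b + (L + 3) ≤ sg * (sg * m) := by
    rw [← mul_assoc, s2, one_mul, hm, Nat.cast_add]; linarith [n.cast_nonneg (α := ℝ)]
  obtain ⟨-, h1, h2, h3⟩ := h _ (hb _ _ m1)
  have mA : MeasurableSet (A m) := (isClosed_Icc.preimage ct).measurableSet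
  rw [← hm]
  refine (N_congr (v := fun x => X.η 3 (d, sg * m) x • u d x) mA fun x hx => ?_).trans_le
    ((Gl67.N_wt (g' := 0) (c := δ * (m + 1)) mA fun x hx => ?_).trans ?_)
  · refine (η_ev (X := X) (z := (d, sg * m)) (R := 1) (R' := 3) hτ.1 ?_ (by norm_num)).mono
      fun y hy => by simp [hy]
    show |X.τ d x - sg * m| ≤ 1
    rw [← sg_abs hs, mul_sub, ← mul_assoc, s2, one_mul, abs_le]
    constructor <;> linarith [hx.1, hx.2]
  · simpa using mul_le_mul_of_nonneg_left hx.2 h0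
  · refine (mul_le_mul_right ((N_mono (subset_univ _)).trans (N_n2 h1 h2).le) _).trans ?_
    rw [← ENNReal.ofReal_mul (exp_pos _).le]
    refine ENNReal.ofReal_le_ofReal ((mul_le_mul_of_nonneg_left (h3.trans (mul_le_mul_of_nonneg_left
      (pow_le_pow_left₀ rw_pos.le (rw_le (by linarith)) 2) hK)) (exp_pos _).le).trans_eq ?_)
    rw [← exp_nat_mul, ← exp_nat_mul, mul_left_comm, mul_comm _ K, mul_assoc K, ← exp_add, ← exp_add,
      ← mul_assoc sg, s2]
    congr 2
    push_cast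
    ring

end Crest.Agent.X212.Mon62.Lz
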