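import Crest.Agent.X212.Mon62.Lz1
import Crest.Agent.X212.Nk89.End

/-! # Row 212, LOC: two families of configurations which are close to the same limit -/

set_option autoImplicit false
set_option linter.unusedSectionVars false
set_option maxSynthPendingDepth 3
noncomputable section
open scoped Manifold ContDiff Topology InnerProductSpace ENNReal
open MeasureTheory Set Function Filter Real

namespace Crest.Agent.X212.Mon62.Lz
open An Sob92 Wz78 Rsp69 Rsp69.Cx Rsp69.Tw Rsp69.NP Cyf70 Dgr80 Nd18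
open Nk89 (NE)

section u
variable {E : Type} [NormedAddCommGroup E] [NormedSpace ℝ E] [FiniteDimensional ℝ E]
  [MeasurableSpace E] [BorelSpace E]
  {HM : Type} [TopologicalSpace HM] {I : ModelWithCorners ℝ E HM} [I.Boundaryless]
  {M : Type} [TopologicalSpace M] [ChartedSpace HM M] [IsManifold I ∞ M]
  [MeasurableSpace M] [T2Space M] [BorelSpace M] [SecondCountableTopology M]
  {ι : Type} [Fintype ι] {𝒟 : Type*} {lam : Type} [Fintype lam] {X : Cx I M ι 𝒟} {T : Tw X lam}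
  {P Q : Type} [NormedAddCommGroup P] [NormedSpace ℝ P] [NormedAddCommGroup Q] [NormedSpace ℝ Q]
  {u v : T.Sc fun _ => P}

theorem uBil {R : Type} [NormedAddCommGroup R] [NormedSpace ℝ R] (B : P →L[ℝ] Q →L[ℝ] R)
    (h : T.U u) {v : T.Sc fun _ => Q} (h' : T.U v) :
    T.U (N := fun _ => R) fun d i x => B (u d i x) (v d i x) := h.bil (B := fun _ => B) (.const _) h'

theorem uApp {A : T.Sc fun _ => P →L[ℝ] Q} (h : T.U A) (h' : T.U u) :
    T.U (N := fun _ => Q) fun d i x => A d i x (u d i x) := uBil (.id ℝ _) h h'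

theorem uClm (L : P →L[ℝ] Q) (h : T.U u) : T.U (N := fun _ => Q) fun d i x => L (u d i x) :=
  uApp (.const (.const _)) h

theorem uSmul {f : T.Fn} (h : T.U f) (h' : T.U u) :
    T.U (N := fun _ => P) fun d i x => f d i x • u d i x := uBil (.lsmul ℝ ℝ) h h'

theorem uSub (h : T.U u) (h' : T.U v) : T.U (N := fun _ => P) fun d i x => u d i x - v d i x := by
  simpa [sub_eq_add_neg] using h.add (uClm (-.id ℝ P) h')

theorem uSum {α : Type} (s : Finset α) {u : α → T.Sc fun _ => P} (h : ∀ a, T.U (u a)) :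
    T.U (N := fun _ => P) fun d i x => ∑ a ∈ s, u a d i x := by
  classical
  induction s using Finset.induction_on with
  | empty => simpa using U.const (T := T) (c := fun _ => (0 : P)) (.const _)
  | insert a s ha ih => simpa only [Finset.sum_insert ha] using (h a).add ih

theorem uCB {C : ℝ} {k : ℕ} (h : ∀ d i, (T.F d i).CB k (u d i) C) : T.U u :=
  ⟨|C|, abs_nonneg _, .of_forall fun d i => CB_bound (CB_abs (h d i))⟩

theorem el_true {k : ℕ} (h : T.EL k u) (e : X.Ev fun d x => u d false (T.ψ d false x) = 0) :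
    X.Hk (N := fun _ => P) T.ρ k fun d x => u d true (T.ψ d true x) :=
  h.d.congr (e.mono fun _ _ e => (congrArg _ e).trans (sub_zero _))

theorem pg_congr {M' : Type} {n : ℕ} {J : En (Fin n)} {p ρ j p' ρ' j'} {x : M} {y : M'}
    (hp : p x = p' y) (hρ : ∀ a, ρ a x = ρ' a y) (hj : j x = j' y) :
    (⟨n, J, p, ρ, j⟩ : Md M ι lam).pg x = (⟨n, J, p', ρ', j'⟩ : Md M' ι lam).pg y := by
  have : (⟨n, J, p, ρ, j⟩ : Md M ι lam).gS x = (⟨n, J, p', ρ', j'⟩ : Md M' ι lam).gS y :=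
    Submodule.ext fun ξ => by simp only [Md.gS, Submodule.mem_mk, AddSubmonoid.mem_mk,
      AddSubsemigroup.mem_mk, mem_ofPred_eq, hp, hρ, hj]
  unfold Md.pg
  congr 1

end u

variable {E3 : Type} [NormedAddCommGroup E3] [NormedSpace ℝ E3] [FiniteDimensional ℝ E3]
  [MeasurableSpace E3] [BorelSpace E3]
  {H3 : Type} [TopologicalSpace H3] {I3 : ModelWithCorners ℝ E3 H3} [I3.Boundaryless]
  {Y : Type} [TopologicalSpace Y] [ChartedSpace H3 Y] [IsManifold I3 ∞ Y] [T2Space Y]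
  [MeasurableSpace Y] [BorelSpace Y] [SecondCountableTopology Y] [CompactSpace Y]
  {κ : Type} [Fintype κ] {lam : Type} [Fintype lam] {D : YD I3 Y κ lam} {𝒟 : Type}
  {n₀ : ℕ} {J : En (Fin n₀)}

section sq
variable {P : NP D 𝒟} {c : P.tw.CF n₀} {N : ND Y lam} {n : ℕ} (H : NH c N n)
  (hz : ∀ d, N.ew (P.K d false) (c.c d false) = 0)
include H hz

/-- the energy is quadratic -/
theorem ew_sq : P.cx.Hk (N := fun _ => ℝ) (fun d t => P.ρ d t * P.ρ d t) 4 fun d x =>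
    N.ew (P.K d true) (c.c d true) (P.tw.ψ d true x) := by
  have χ : ∀ {j}, P.tw.EC (N := fun _ => ℝ) j fun d i => (P.K d i).χ4 :=
    P.cut (c := 4) (by norm_num)
  have z := fun d i x (hx : x ∉ (P.K d i).dp 1) => show (P.K d i).χ4 x = 0 from
    ct_zero fun e => hx (Dp_mono (by norm_num) e)
  have a1 := fun k => (H.o.cvY χ z P.dτ (P.cdx (H.nd.sy k))).el.of_le H.h7
  have a2 := χ.el.smul le_rfl le_rfl (H.o.ntΦ (k := 7) H.o.hn P.dτ)
  have a3 : P.cx.Ev fun d x => (∀ k, (c.c d false).sd (P.tw.F d false) (.cv (P.K d false).χ4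
      (P.K d false).τ ((P.K d false).ext (N.y k))) (P.tw.ψ d false x) = 0) ∧
      (P.K d false).χ4 (P.tw.ψ d false x) • nt (P.tw.F d false) (c.W d false) (P.K d false).τ
        (c.Φ d false) (P.tw.ψ d false x) = 0 := (P.dp 5).mono fun d x hx => by
    have e1 := congrFun (hz d) (P.tw.ψ d false x)
    have e2 : (P.K d false).χ4 (P.tw.ψ d false x) = 1 := ct_one (by
      rw [(hx false).2.2.1]; norm_num; exact (hx false).2.1)
    rw [ND.ew, e2, one_mul, Dgr80.ew, Pi.zero_apply,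
      add_eq_zero_iff_of_nonneg (by positivity) (sq_nonneg _),
      Finset.sum_eq_zero_iff_of_nonneg fun _ _ => sq_nonneg _] at e1
    exact ⟨fun k => by simpa using e1.1 k (Finset.mem_univ k), by simpa using e1.2⟩
  have q : ∀ {V : Type} [NormedAddCommGroup V] [InnerProductSpace ℝ V] {u : 𝒟 → Y × ℝ → V},
      P.cx.Hk (N := fun _ => V) P.ρ 7 u → P.cx.Hk (N := fun _ => ℝ)
        (fun d t => P.ρ d t * P.ρ d t) 4 fun d x => ‖u d x‖ ^ 2 := fun hu =>
    (Hk.bil (k := 4) (B := fun _ => innerSL ℝ) (.const _) hu hu (by norm_num) (by norm_num)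
      (by norm_num)).congr' fun _ _ => real_inner_self_eq_norm_sq _
  have b1 := fun k => el_true (P := HS (Fin n₀)) (a1 k) (a3.mono fun _ _ h => h.1 k)
  have b2 := el_true a2 (a3.mono fun _ _ h => h.2)
  have c2 := q (V := Eu (Fin n₀)) b2
  have c1 := Hk.sum Finset.univ c2 fun k _ => q (V := HS (Fin n₀)) (b1 k)
  have c3 := Hk.smulR le_rfl (by norm_num) ((χ (j := 7)).el.b true) (c1.add c2)
  exact c3.congr' fun _ _ => rfl

/-- the non-gradient terms are quadratic -/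
theorem q2_sq (lw : ∀ᶠ d in P.l, ∀ s t, P.ρ d t ≤ 1 ∧
      P.ρ d s * P.ρ d s ≤ exp (P.γ / 8 * |s - t|) * (P.ρ d t * P.ρ d t)) {T : YT Y} (hT : T.OK I3) :
    (P.cx.Hk (N := c.SV) (fun d t => P.ρ d t * P.ρ d t) n fun d x =>
      (N.q2 (n := 0) (P.K d true) T).D (c.c d true) (P.tw.ψ d true x)) ∧
    P.cx.Hk (N := c.S2) (fun d t => P.ρ d t * P.ρ d t) n fun d x =>
      (N.q2 (n := 0) (P.K d true) T).C (c.c d true) (P.tw.ψ d true x) := by
  have b3 := ew_sq H hz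
  let P' : NP D 𝒟 := { P with
    ρ := fun d t => P.ρ d t * P.ρ d t
    lw := (lw.and P.lw).mono fun d h s t => ⟨mul_pos (h.2 s t).1 (h.2 s t).1, (h.1 s t).2⟩
    off := P.off.mono fun d h => ⟨fun a ha => one_le_mul_of_one_le_of_one_le (h.1 a ha) (h.1 a ha),
      fun a ha => one_le_mul_of_one_le_of_one_le (h.2 a ha) (h.2 a ha)⟩ }
  have χ := fun {j} => P.cut (k := j) (c := 4) (by norm_num)
  have z := fun d i x (hx : x ∉ (P.K d i).dp 1) => show (P.K d i).χ4 x = 0 from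
    ct_zero fun e => hx (Dp_mono (by norm_num) e)
  have h1 := χ.mul H.h7 (EC.sum Finset.univ fun k _ =>
    have := H.o.cvY χ z P.dτ (P.cdx (H.nd.sy k)); this.inner H.h7 this)
  simp only [real_inner_self_eq_norm_sq] at h1
  obtain ⟨b₀, b4⟩ := (WK.of_EC H.nd.δ0 h1 fun d i x hx => mul_eq_zero_of_left (z d i x hx) _).add
    H.nd.δ0 H.ew
  replace b4 : P'.WK N.δ fun d i => N.ew (P.K d i) (c.c d i) :=
    ⟨b₀, b4.mono fun d h i => by convert h i using 1; exact funext fun x => mul_add ..⟩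
  have b5 : P'.tw.EL (N := fun _ => ℝ) 4 fun d i => N.ew (P.K d i) (c.c d i) :=
    ⟨fun i => by
      cases i
      exacts [(lw_one.zero 4).congr' fun d _ => (congrFun (hz d) _).symm, b3.wt (c := 1)
        ((lw.and P.lw).mono fun d h t => ⟨zero_le_one, (mul_le_one₀ (h.1 t t).1 (h.2 t t).1.le
          (h.1 t t).1).trans (by simp)⟩)],
      b3.congr' fun d _ => ((congrArg _ (congrFun (hz d) _)).trans (sub_zero _)).symm⟩
  have b6 := el_true ((win (P := P') (k := n) H.γ b5 b4 0).comp (contDiff_nr.comp contDiff_nr)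
    H.o.hn).el (.of_ev (.of_forall fun d x => by simp [P', hz, wn]))
  have b7 := ((P.cut (c := 3) (by norm_num)).mul H.h7
    (H.tc (C := T.C) (by cases T <;> exact hT.1.1))).el
  have b8 : P.cx.Hk (N := fun _ => ℝ) (fun d t => P.ρ d t * P.ρ d t) n fun d x =>
      N.oc (P.K d true) T (c.c d true) (P.tw.ψ d true x) :=
    (Hk.bilL H.h7 le_rfl (B := fun _ => ContinuousLinearMap.mul ℝ ℝ) (.const _) b6 (b7.b true)).congr'
      fun d x => by
        rw [ND.oc, (P.K d true).cut_τ (by norm_num), ContinuousLinearMap.mul_apply', mul_left_comm]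
        rfl
  have e1 := Hk.bilL H.h7 le_rfl (B := fun _ => ContinuousLinearMap.lsmul ℝ ℝ) (.const _) b8
    ((EL.nrm (P := Eu (Fin n₀)) H.o.hn (H.tD (n := 0) hT)).b true)
  have e2 := Hk.bilL H.h7 le_rfl (B := fun _ => ContinuousLinearMap.lsmul ℝ ℝ) (.const _) b8
    ((EL.nrm (P := Fm (Option κ × Option κ) (HS (Fin n₀))) H.o.hn (H.tC (n := 0) hT)).b true)
  exact ⟨e1, e2⟩

end sq

variable (D n₀ 𝒟) in
/-- a neck and a family of configurations -/
structure Si (J : En (Fin n₀)) : Type 1 where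
  S : Rsp69.Mf (Option κ) lam
  K : Nk D S.B S.G
  p : S.M → En (Fin n₀)
  ρ : Option κ → S.M → En (Fin n₀)
  j : S.M → CL (Eu lam) (En (Fin n₀))
  W : 𝒟 → Option κ → S.M → En (Fin n₀)
  Φ : 𝒟 → S.M → Eu (Fin n₀)

variable (Y κ lam n₀) in
/-- the limit -/
structure Rf where
  p : Y → En (Fin n₀)
  ρ : Option κ → Y → En (Fin n₀)
  j : Y → CL (Eu lam) (En (Fin n₀))
  W : Option κ → Y → En (Fin n₀)
  Φ : Y → Eu (Fin n₀)

/-- the configurations -/
abbrev Si.c (s : Si D 𝒟 n₀ J) (d : 𝒟) : Cfg s.S.M (Option κ) lam 0 :=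
  ⟨⟨n₀, J, s.p, s.ρ, s.j⟩, s.W d, s.Φ d, 0⟩

/-- bounded, and close to `β` above the height `b` -/
structure Si.OK (s : Si D 𝒟 n₀ J) (β : Rf Y κ lam n₀) (C : ℕ → ℝ) (n : ℕ) (δ sg b : ℝ) : Prop where
  vol : s.S.G.F.IsVol
  tame : s.S.G.F.Tame C
  sub : ∀ L t, b + L ≤ sg * t → t ∈ Dp s.K.p s.K.q L
  gd : ∀ d, Gd s.S.B s.S.G (s.c d)
  lit : ∀ z : Y × ℝ, b < sg * z.2 → s.p (s.K.ψ z) = β.p z.1 ∧ (∀ a, s.ρ a (s.K.ψ z) = β.ρ a z.1) ∧
    s.j (s.K.ψ z) = β.j z.1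
  bd : ∃ C, ∀ d, (∀ a, s.S.G.F.CB 1 (s.W d a) C) ∧ s.S.G.F.CB 1 (s.Φ d) C
  cl : ∃ K, 0 ≤ K ∧ ∀ d,
    (∀ a, NE D δ sg b n (fun z => s.W d a (s.K.ψ z) - β.W a z.1) ≤ ENNReal.ofReal K) ∧
      NE D δ sg b n (fun z => s.Φ d (s.K.ψ z) - β.Φ z.1) ≤ ENNReal.ofReal K

variable (D) in
/-- the hypotheses on the band -/
structure Bn (β : Rf Y κ lam n₀) (C : ℕ → ℝ) (δ sg : ℝ) : Prop where
  hD : D.OK
  tz : D.Z.Tame C
  cs : ∀ a, D.Z.CBs (D.Z.D a Prod.snd) C
  hs : sg = 1 ∨ sg = -1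
  δ0 : 0 < δ
  W : ∀ a, Sm I3 (β.W a)
  Φ : Sm I3 β.Φ

theorem mem_bn {sg b L t : ℝ} (hs : sg = 1 ∨ sg = -1) :
    t ∈ Dp (if sg = 1 then some b else none) (if sg = 1 then none else some (-b)) L ↔
      b + L ≤ sg * t := by
  rcases hs with rfl | rfl
  · simp [Dp]
  · simp only [Dp, show ¬(-1 : ℝ) = 1 by norm_num, if_false, Option.mem_def, mem_ofPred_eq]
    simp only [reduceCtorEq, IsEmpty.forall_iff, implies_true, Option.some.injEq, forall_eq',
      true_and]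
    constructor <;> intro <;> linarith

variable {β : Rf Y κ lam n₀} {C : ℕ → ℝ} {n k : ℕ} {δ sg b c : ℝ} {N : ND Y lam}

variable (𝒟 b) in
/-- the band -/
@[reducible] def Bn.cx (B : Bn D β C δ sg) : Cx (IC I3) (Y × ℝ) (Option κ) 𝒟 where
  l := ⊤
  F _ := D.Z
  τ _ := Prod.snd
  p _ := if sg = 1 then some b else none
  q _ := if sg = 1 then none else some (-b)
  C := C
  v R := Nka63.vY D * (2 * |R|)
  tame := .of_forall fun _ => B.tz
  sτ := .of_forall fun _ => ⟨contMDiff_snd, B.cs⟩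
  vol := .of_forall fun _ t R _ => slab D t R

namespace Bn
variable (B : Bn D β C δ sg) {V : Type} [NormedAddCommGroup V] [NormedSpace ℝ V]
include B

theorem ev {P : 𝒟 → Y × ℝ → Prop} (h : ∀ d z, b < sg * z.2 → P d z) : (B.cx 𝒟 b).Ev P :=
  ⟨1, zero_le_one, .of_forall fun d z hz => h d z ((lt_add_one b).trans_le ((mem_bn B.hs).1 hz))⟩

theorem ne {u : 𝒟 → Y × ℝ → V} (hc : δ < c)
    (h : (B.cx 𝒟 b).Hk (N := fun _ => V) (fun _ => rw c sg b) k u) {ε : ℝ≥0∞} (hε : 0 < ε) :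
    ∃ a, ∀ d, NE D δ sg a k (u d) ≤ ε :=
  N_of_hk B.hs B.δ0.le hc (.of_forall fun _ _ _ => (mem_bn B.hs).2) h hε

theorem hk {u : 𝒟 → Y × ℝ → V} {K : ℝ} (hK : 0 ≤ K)
    (h1 : ∀ d z, b < sg * z.2 → SA (IC I3) (u d) z) (h2 : ∀ d, NE D δ sg b k (u d) ≤ ENNReal.ofReal K) :
    (B.cx 𝒟 b).Hk (N := fun _ => V) (fun _ => rw δ sg b) k u := by
  have m : ∀ d, ∀ z ∈ (B.cx 𝒟 b).bd 1 d, b < sg * z.2 := fun d z hz =>
    (lt_add_one b).trans_le ((mem_bn B.hs).1 hz)
  refine hk_of_N (g := fun _ (z : Y × ℝ) => δ * (sg * z.2)) zero_le_one hK (fun R => ⟨exp (2 * δ * (R - b)),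
    (exp_pos _).le, .of_forall fun d t => ⟨rw_pos.le, fun z hz e => ?_⟩⟩) k
    (.of_forall fun d => ⟨fun z hz => h1 d z (m d z hz), (Gl67.N_mono (m d)).trans (h2 d)⟩)
  have h3 := rw_lip (b := b) (s := z.2) (t := t) B.hs B.δ0.le le_rfl
  rw [rw, max_eq_left (sub_nonneg.2 (m d z hz).le), rw, ← exp_add, exp_le_exp] at h3
  rw [rw, ← exp_nat_mul, ← exp_add, ← exp_add, one_le_exp_iff]
  have := mul_le_mul_of_nonneg_left (show |z.2 - t| ≤ R from e) B.δ0.le
  push_cast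
  nlinarith

theorem wt {u : 𝒟 → Y × ℝ → V} {c' : ℝ} (hc : c' ≤ c)
    (h : (B.cx 𝒟 b).Hk (N := fun _ => V) (fun _ => rw c sg b) k u) :
    (B.cx 𝒟 b).Hk (N := fun _ => V) (fun _ => rw c' sg b) k u :=
  h.wt (c := 1) (.of_forall fun _ t => ⟨rw_pos.le, by
    rw [one_mul]
    exact exp_le_exp.2 (neg_le_neg (mul_le_mul_of_nonneg_right hc (le_max_right _ _)))⟩)

theorem one {u : 𝒟 → Y × ℝ → V} (hc : 0 ≤ c)
    (h : (B.cx 𝒟 b).Hk (N := fun _ => V) (fun _ => rw c sg b) k u) :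
    (B.cx 𝒟 b).Hk (N := fun _ => V) 1 k u :=
  h.wt (c := 1) (.of_forall fun _ t => ⟨zero_le_one, (rw_le_one hc).trans (by simp)⟩)

theorem fst {f : Y → V} (h : Sm I3 f) : (B.cx 𝒟 b).Hk (N := fun _ => V) 1 k fun _ z => f z.1 :=
  let ⟨_, h⟩ := Cht98.Cb_fst D.F.toPre (Cb_of_compact h)
  Hk.of_CBs (.of_forall fun _ => h)

theorem cl {s : Si D 𝒟 n₀ J} (h : s.OK β C n δ sg b) :
    (∀ a, (B.cx 𝒟 b).Hk (N := fun _ => En (Fin n₀)) (fun _ => rw δ sg b) n
      fun d z => s.W d a (s.K.ψ z) - β.W a z.1) ∧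
    (B.cx 𝒟 b).Hk (N := fun _ => Eu (Fin n₀)) (fun _ => rw δ sg b) n
      fun d z => s.Φ d (s.K.ψ z) - β.Φ z.1 := by
  obtain ⟨K, hK, e⟩ := h.cl
  have m : ∀ z : Y × ℝ, b < sg * z.2 → ContMDiffAt (IC I3) s.S.I ∞ s.K.ψ z := fun z hz =>
    iso_smAt s.K.iso (s.K.mem_src.2 (Dp_sub (sub_pos.2 hz) (h.sub _ _ (by linarith))))
  exact ⟨fun a => B.hk hK (fun d z hz => ((Cb.sm ((h.gd d).W a) _).comp z (m z hz)).sub
      ((B.W a _).comp z contMDiffAt_fst)) fun d => (e d).1 a,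
    B.hk hK (fun d z hz => ((Cb.sm (h.gd d).Φ _).comp z (m z hz)).sub
      ((B.Φ _).comp z contMDiffAt_fst)) fun d => (e d).2⟩

variable {s : Bool → Si D 𝒟 n₀ J} (h : ∀ i, (s i).OK β C n δ sg b) (hN : N.OK D) (c0 : 0 ≤ c)
  (c1 : c ≤ N.δ / 4)

/-- the pair of necks -/
@[reducible] def np : NP D 𝒟 where
  l := ⊤
  p _ := if sg = 1 then some b else none
  q _ := if sg = 1 then none else some (-b)
  C := C
  S _ i := (s i).S
  K _ i := (s i).K
  γ := 2 * N.δ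
  ρ _ := rw c sg b
  hD := B.hD
  tz := B.tz
  cs := B.cs
  tame := .of_forall fun _ i => ⟨(h i).vol, (h i).tame⟩
  sub := .of_forall fun _ i L _ e => (h i).sub L _ ((mem_bn B.hs).1 e)
  γ0 := by linarith [hN.δ0]
  γ1 := by linarith [hN.δ1]
  lw := .of_forall fun _ _ _ => ⟨rw_pos, rw_lip B.hs c0 (by linarith)⟩
  off := .of_forall fun _ => by rcases B.hs with rfl | rfl <;> norm_num [rw] <;> simp

/-- the pair of configurations -/
@[reducible] def cf : (B.np h hN c0 c1).tw.CF n₀ :=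
  ⟨fun _ _ => 0, fun _ => J, fun _ i => (s i).p, fun _ i => (s i).ρ, fun _ i => (s i).j,
    fun d i => (s i).W d, fun d i => (s i).Φ d, fun _ _ => 0⟩

theorem fix {u : ∀ i, (s i).S.M → V} (hu : ∀ (_ : 𝒟) i, (s i).S.G.F.Cb (u i))
    (e : ∀ z : Y × ℝ, b < sg * z.2 → u true ((s true).K.ψ z) = u false ((s false).K.ψ z)) :
    (B.np h hN c0 c1).tw.EC (N := fun _ => V) k fun _ => u := by
  rcases isEmpty_or_nonempty 𝒟 with _ | ⟨⟨d⟩⟩
  · exact .fixed (C := 0) (.of_forall isEmptyElim) (B.ev fun _ => e)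
  · choose A hA using hu d
    exact .fixed (C := fun k => max (A true k) (A false k)) (.of_forall fun _ i =>
      Ell97.CBs_mono (hA i) fun _ => by cases i <;> simp) (B.ev fun _ => e)

/-- **the hypotheses of the engine** -/
theorem nh (hn : 8 ≤ n) (hW : ∀ a, (B.cx 𝒟 b).Hk (N := fun _ => En (Fin n₀)) (fun _ => rw c sg b) n
      fun d z => (s true).W d a ((s true).K.ψ z) - (s false).W d a ((s false).K.ψ z))
    (hΦ : (B.cx 𝒟 b).Hk (N := fun _ => Eu (Fin n₀)) (fun _ => rw c sg b) n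
      fun d z => (s true).Φ d ((s true).K.ψ z) - (s false).Φ d ((s false).K.ψ z)) :
    NH (B.cf h hN c0 c1) N n := by
  let P := B.np h hN c0 c1
  let κ' := B.cf h hN c0 c1
  choose A hA using fun i => (h i).bd
  have a1 : ∀ i, A i ≤ max (A true) (A false) := fun i => by cases i <;> simp
  have l := fun i => (h i).lit
  have gd : ∀ᶠ d in P.cx.l, ∀ i, Gd (P.tw.S d i).B (P.tw.S d i).G (κ'.c d i) :=
    .of_forall fun d i => (h i).gd d
  have eW : ∀ a, P.tw.EL n fun d i => κ'.W d i a := fun a => ⟨fun i =>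
    ((B.one B.δ0.le ((B.cl (h i)).1 a)).add (B.fst (B.W a))).congr' fun _ _ => sub_add_cancel .., hW a⟩
  have pg : P.tw.EC (N := fun _ => En (Fin n₀ × Fin n₀)) n fun d i => (κ'.m d i).pg :=
    B.fix h hN c0 c1 (V := En (Fin n₀ × Fin n₀)) (u := fun i =>
      (⟨n₀, J, (s i).p, (s i).ρ, (s i).j⟩ : Md _ (Option κ) lam).pg)
      (fun d i => ((h i).gd d).pg) fun z hz => pg_congr
      ((l _ z hz).1.trans (l _ z hz).1.symm) (fun a => ((l _ z hz).2.1 a).trans ((l _ z hz).2.1 a).symm)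
      ((l _ z hz).2.2.trans (l _ z hz).2.2.symm)
  have uW : ∀ a, P.tw.U fun d i => κ'.W d i a := fun a =>
    uCB fun d i => CB_mono ((hA i d).1 a) (a1 i)
  have uD : ∀ a a', P.tw.U fun d i => (P.tw.F d i).D a (κ'.W d i a') := fun a a' =>
    uCB fun d i => CB_D (CB_mono ((hA i d).1 a') (a1 i)) a
  have uΦ : P.tw.U κ'.Φ := uCB fun d i => CB_mono (hA i d).2 (a1 i)
  have uP : ∀ a, P.tw.U fun d i => (P.tw.F d i).D a (κ'.Φ d i) := fun a =>
    uCB fun d i => CB_D (CB_mono (hA i d).2 (a1 i)) a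
  have eng : P.tw.Eng (V := κ'.SA) (fun d i => (P.tw.F d i).Cb) n κ'.A :=
    ⟨hn, fun a => (eW a).clm (L := fun _ => adcL) (.const _), gd.mono fun _ h i => cls_cb (h i).pp.toOk⟩
  have χ := P.cut (k := n) (c := 4) (by norm_num)
  refine ⟨⟨hn, gd, .const ‖J‖, eW, ⟨gd.mono fun _ h i => (h i).Φ, uΦ, fun i =>
      ((B.one B.δ0.le (B.cl (h i)).2).add (B.fst B.Φ)).congr' fun _ _ => sub_add_cancel .., hΦ⟩,
    fun a => B.fix h hN c0 c1 (u := fun i => (s i).ρ a) (fun d i => ((h i).gd d).ρ a) fun z hz =>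
      ((l _ z hz).2.1 a).trans ((l _ z hz).2.1 a).symm,
    B.fix h hN c0 c1 (fun d i => ((h i).gd d).j) fun z hz => (l _ z hz).2.2.trans (l _ z hz).2.2.symm,
    pg, fun φ hφ _ => ?_⟩, hN, le_rfl, (B.fix h hN c0 c1 (fun d i => ((h i).gd d).p) fun z hz =>
      (l _ z hz).1.trans (l _ z hz).1.symm).el, ?_⟩
  · have m := fun a a' => uBil (ContinuousLinearMap.mul ℝ _) (uW a) (uW a')
    have e := eng.resU (s := κ'.fg φ) (uSum _ fun t => uSmul (hφ t).u (uApp pg.u (uClm hsL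
      (uSub ((uSub (uD t.1 t.2) (uD t.2 t.1)).add (uSub (m t.1 t.2) (m t.2 t.1)))
        (uSum _ fun l => uSmul (EC.c (k := 0) t.1 t.2 l).u (uW l))))))
    exact ⟨e.hk (.of_forall fun _ _ => Mp86.sm_res _ _ _), eng.resU e⟩
  · have e := uSmul χ.u (uSum Finset.univ fun a => uSmul (P.dτ (k := 0) a).u
      ((uP a).add (uApp (uW a) uΦ)))
    obtain ⟨K, -, e⟩ := uSmul χ.u (uBil (innerSL ℝ) e e)
    refine ⟨_, e.mono fun d e i => .of_bd _ hN.δ0 ?_ (fun x hx => mul_eq_zero_of_left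
      (ct_zero fun e => hx (Dp_mono (by norm_num) e)) _) fun x =>
        (congrArg _ (congrArg _ (real_inner_self_eq_norm_sq _).symm)).trans_le (e i x)⟩
    have c := (Cb.sm ((s i).K.cb_cut (d := 4) (by norm_num))).continuous
    have g := (h i).gd d
    exact (c.mul ((c.smul (Cb.sm (Cb_sum _ fun a _ => Cb_smul ((s i).K.cd_τ.2 a)
      (Cb_add (Cb_D g.Φ a) (Cb_app (g.W a) g.Φ)))).continuous).norm.pow 2)).aestronglyMeasurable

include h hN

/-- **the gradient terms of configurations which agree on the band** -/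
theorem q1 (hn : 8 ≤ n) (e : ∀ d (z : Y × ℝ), b < sg * z.2 →
      (∀ a, (s true).W d a ((s true).K.ψ z) = (s false).W d a ((s false).K.ψ z)) ∧
      (s true).Φ d ((s true).K.ψ z) = (s false).Φ d ((s false).K.ψ z)) :
    ((B.cx 𝒟 b).Hk (N := fun _ => Eu (Fin n₀)) (fun _ => rw (N.δ / 4) sg b) n fun d z =>
      (N.q1 (n := 0) (s true).K).D ((s true).c d) ((s true).K.ψ z) -
        (N.q1 (n := 0) (s false).K).D ((s false).c d) ((s false).K.ψ z)) ∧
    (B.cx 𝒟 b).Hk (N := fun _ => Fm (Option κ × Option κ) (HS (Fin n₀)))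
      (fun _ => rw (N.δ / 4) sg b) n fun d z =>
      (N.q1 (n := 0) (s true).K).C ((s true).c d) ((s true).K.ψ z) -
        (N.q1 (n := 0) (s false).K).C ((s false).c d) ((s false).K.ψ z) := by
  have c0 : 0 ≤ N.δ / 4 := by linarith [hN.δ0]
  have w := (B.np h hN c0 le_rfl).tw.lw
  have H := B.nh h hN c0 le_rfl hn
    (fun a => (w.zero n).congr (B.ev fun d z hz => (sub_eq_zero.2 ((e d z hz).1 a)).symm))
    ((w.zero n).congr (B.ev fun d z hz => (sub_eq_zero.2 (e d z hz).2).symm))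
  exact ⟨(H.q1D (nc H.o)).d, (H.q1C (nc H.o)).d⟩

/-- **the non-gradient terms decay quadratically** -/
theorem q2 (hn : 8 ≤ n) (hδ : 8 * δ ≤ N.δ) (e : ∀ d (z : Y × ℝ), b < sg * z.2 →
      (∀ a, (s false).W d a ((s false).K.ψ z) = β.W a z.1) ∧
      (s false).Φ d ((s false).K.ψ z) = β.Φ z.1)
    (hz : ∀ d, N.ew (s false).K ((s false).c d) = 0) {T : YT Y} (hT : T.OK I3) :
    ((B.cx 𝒟 b).Hk (N := fun _ => Eu (Fin n₀)) (fun _ => rw (δ + δ) sg b) n fun d z =>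
      (N.q2 (n := 0) (s true).K T).D ((s true).c d) ((s true).K.ψ z)) ∧
    (B.cx 𝒟 b).Hk (N := fun _ => Fm (Option κ × Option κ) (HS (Fin n₀)))
      (fun _ => rw (δ + δ) sg b) n fun d z =>
      (N.q2 (n := 0) (s true).K T).C ((s true).c d) ((s true).K.ψ z) := by
  have d0 := B.δ0
  have H := B.nh h hN d0.le (show δ ≤ N.δ / 4 by linarith) hn
    (fun a => ((B.cl (h true)).1 a).congr (B.ev fun d z hz => by rw [(e d z hz).1]))
    ((B.cl (h true)).2.congr (B.ev fun d z hz => by rw [(e d z hz).2]))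
  have k := q2_sq H hz (.of_forall fun d s t => ⟨rw_le_one d0.le, by
    simp only [rw_mul]; exact rw_lip B.hs (by linarith) (by linarith)⟩) hT
  simp only [rw_mul] at k
  exact k

end Bn

end Crest.Agent.X212.Mon62.Lz
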