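import Crest.Agent.X212.Mon62.Lz2
import Crest.Agent.X212.Mon62.NkU
import Crest.Agent.X212.Bki64.Frz
import Crest.Agent.X212.End14.Cyl

/-! # Row 212, LOC: the configurations of a chart on an end -/

set_option autoImplicit false
set_option linter.unusedSectionVars false
set_option maxSynthPendingDepth 3
noncomputable section
open scoped Manifold ContDiff Topology InnerProductSpace ENNReal
open MeasureTheory Set Function Filter Real

namespace Crest.Agent.X212.Mon62.Lz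
open An Sob92 Wz78 Rsp69 Rsp69.Cx Cyf70 Dgr80 Nd18 Mod61 Nk89 Prm93 Eqv71 Cyc79

variable {E : Type} [NormedAddCommGroup E] [NormedSpace ℝ E] [FiniteDimensional ℝ E]
  [MeasurableSpace E] [BorelSpace E]
  {HM : Type} [TopologicalSpace HM] {I : ModelWithCorners ℝ E HM} [I.Boundaryless]
  {M : Type} [TopologicalSpace M] [ChartedSpace HM M] [IsManifold I ∞ M]
  [MeasurableSpace M] [T2Space M] [BorelSpace M] [SecondCountableTopology M]
  {lam : Type} [Fintype lam] {r n m : ℕ}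

/-! ### the neck terms do not see `z` (as in `Gb50/Zer`) -/

section noz
variable {ι : Type} [Fintype ι] (F : Fr I M ι) (c : Cfg M ι lam r)

theorem la_noz : (noz c).la F = c.la F := funext fun t => by cases t <;> rfl
theorem lt_noz : (noz c).lt F = c.lt F := funext fun t => by cases t <;> rfl
theorem laS_noz : laS (noz c) = laS c := funext fun t => by cases t <;> rfl
theorem ltS_noz : ltS F (noz c) = ltS F c := funext fun t => by cases t <;> rfl
theorem pk_noz : Dgr80.pk (noz c) = Dgr80.pk c := funext fun t => by cases t <;> rfl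
theorem nw_noz : nw F (noz c) = nw F c := by funext u; unfold nw; rw [lt_noz]; rfl
theorem swA_noz : swA F (noz c) = swA F c := by funext u l; unfold swA; rw [ltS_noz]; rfl
theorem swP_noz : swP F (noz c) = swP F c := by funext u l; unfold swP; rw [ltS_noz]; rfl
theorem bf_noz : bf F (noz c) = bf F c := by funext f f'; unfold bf; rw [la_noz]; rfl
theorem gh_noz : Cyc79.gh F (Nd18.noz c) = Cyc79.gh F c := by
  funext f f' w w' l x; unfold Cyc79.gh; rw [bf_noz]; rfl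
theorem sw_noz : (noz c).sw F = c.sw F := by funext u; unfold Cfg.sw; rw [lt_noz]; rfl
theorem sd_noz : (noz c).sd F = c.sd F := by
  funext u
  cases u
  · unfold Cfg.sd; rw [sw_noz]; rfl
  · rfl
theorem aw_noz : (noz c).aw F = c.aw F := by funext u; unfold Cfg.aw; rw [la_noz, sd_noz]; rfl

theorem lin_noz (B : Base M ι lam) (u : SW M) :
    (noz c).tD (n := 0) B F (.lin u) = c.tD (n := n) B F (.lin u) :=
  congrArg (fun (f : SW M → M → c.m.V) x => c.m.pm B x (f u x)) (sw_noz F c)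
theorem ad_noz (B : Base M ι lam) (g h : M → ℝ) (u : AW M) :
    (noz c).tC (n := 0) B F (.ad g h u) = c.tC (n := n) B F (.ad g h u) :=
  congrArg (fun (f : AW M → M → c.m.A) x => c.m.p2 B x
    (WithLp.toLp 2 fun s => (F.D s.1 g x * F.D s.2 h x) • f u x)) (aw_noz F c)

theorem sz_cy (d : Cy M) (w : List (An.La M)) :
    ((d.sed F).wd F w).s (noz c) = ((d.sed F).wd F w).s c ∧
    ((d.sed F).wd F w).sA (noz c) = ((d.sed F).wd F w).sA c ∧
    ((d.sed F).wd F w).sP (noz c) = ((d.sed F).wd F w).sP c := by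
  have h1 : (d.sed F).s (noz c) = (d.sed F).s c := by
    funext x; simp only [Cy.sed, Cy.al, Cy.be, bf_noz]; rfl
  have h2 : (d.sed F).sA (noz c) = (d.sed F).sA c := by
    funext l x; simp only [Cy.sed, gh_noz]; rfl
  exact ⟨by simp only [Sed.wd, la_noz, h1]; rfl,
    by funext l x; simp only [Sed.wd, laS_noz, h1, h2]; rfl, rfl⟩

/-- densities which do not see `z` -/
def DZ (d₀ : Den M ι lam 0) (d : Den M ι lam r) : Prop :=
  d₀.h (noz c) = d.h c ∧ d₀.gA (noz c) = d.gA c ∧ d₀.gP (noz c) = d.gP c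

theorem dz_sw (χ : M → ℝ) (T : Pk M lam) (u v : SW M) :
    DZ c (dcut χ (Den.sw F T u v)) (dcut χ (Den.sw F T u v)) := by
  refine ⟨?_, ?_, ?_⟩ <;> simp only [dcut, Den.sw, pk_noz, nw_noz, swA_noz, swP_noz] <;> rfl

end noz

variable {κ : Type} [Fintype κ]

section nk
variable {E3 : Type} [NormedAddCommGroup E3] [NormedSpace ℝ E3] [FiniteDimensional ℝ E3]
  [MeasurableSpace E3] [BorelSpace E3]
  {H3 : Type} [TopologicalSpace H3] {I3 : ModelWithCorners ℝ E3 H3} [I3.Boundaryless]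
  {Y : Type} [TopologicalSpace Y] [ChartedSpace H3 Y] [IsManifold I3 ∞ Y] [T2Space Y]
  [MeasurableSpace Y] [BorelSpace Y] [SecondCountableTopology Y] [CompactSpace Y]
  {D : YD I3 Y κ lam} (N : ND Y lam)
  {B : Base M (Option κ) lam} {G : Geo I M (Option κ) lam} (K : Nk D B G)
  (c : Cfg M (Option κ) lam r)

theorem dz_dg (j : N.J) : DZ c ((N.dg K).d j) ((N.dg K).d j) := by
  rcases j with j | j | j
  · show DZ c (K.den (N.d0 j)) (K.den (N.d0 j))
    cases N.d0 j with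
    | sw u v => exact dz_sw _ _ _ _ _ _
    | cy d w d' w' =>
      have a := sz_cy G.F c (K.cyc d) (w.map K.la)
      have b := sz_cy G.F c (K.cyc d') (w'.map K.la)
      refine ⟨?_, ?_, ?_⟩ <;>
        simp only [Nk.den, dcut, Den.sed, a.1, b.1, a.2.1, b.2.1, a.2.2, b.2.2] <;> rfl
  · exact dz_sw _ _ _ _ _ _
  · exact dz_sw _ _ _ _ _ _

theorem q1_noz (x : M) :
    (N.q1 K : Pt _ _ _ 0 0).D (noz c) x = (N.q1 K : Pt _ _ _ r n).D c x ∧
    (N.q1 K : Pt _ _ _ 0 0).C (noz c) x = (N.q1 K : Pt _ _ _ r n).C c x := by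
  have e : (N.dg K).Iv G.F (noz c) = (N.dg K).Iv G.F c :=
    funext fun t => funext fun j => congrArg (wn _ _ _ · t) (dz_dg N K c j).1
  have b : ∀ j, (N.dg K).β G.F (noz c) j = (N.dg K).β G.F c j := fun j => by
    unfold DG.β DG.co; rw [e]; rfl
  have g : (N.dg K).gA G.F (noz c) x = (N.dg K).gA G.F c x := by
    simp only [DG.gA, b, (dz_dg N K c _).2.1]; rfl
  have g' : (N.dg K).gP G.F (noz c) x = (N.dg K).gP G.F c x := by
    simp only [DG.gP, b, (dz_dg N K c _).2.2]; rfl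
  simp only [ND.q1, DG.q1, g, g']
  exact ⟨rfl, rfl⟩

theorem t_noz (T : YT Y) : (noz c).tD B G.F (N.tm K (noz c) 0 T) = c.tD B G.F (N.tm K c n T) ∧
      (noz c).tC B G.F (N.tm K (noz c) 0 T) = c.tC B G.F (N.tm K c n T) := by
  have a : Dgr80.tl G.F K.τ N.δ (noz c) ∘ N.tl K = Dgr80.tl G.F K.τ N.δ c ∘ N.tl K :=
    funext fun t => by cases t <;> rfl
  have b : Dgr80.ta G.F K.τ N.δ (noz c) ∘ N.ta K = Dgr80.ta G.F K.τ N.δ c ∘ N.ta K :=
    funext fun t => by cases t <;> rfl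
  cases T <;> simp only [ND.tm, TT.tm, List.map_map, a, b]
  exacts [⟨lin_noz _ _ _ _, rfl⟩, ⟨rfl, ad_noz _ _ _ _ _ _⟩, ⟨rfl, ad_noz _ _ _ _ _ _⟩]

theorem q2_noz (T : YT Y) (x : M) :
    (N.q2 K T : Pt _ _ _ 0 0).D (noz c) x = (N.q2 K T : Pt _ _ _ r n).D c x ∧
    (N.q2 K T : Pt _ _ _ 0 0).C (noz c) x = (N.q2 K T : Pt _ _ _ r n).C c x := by
  have e := t_noz (n := n) N K c T
  have o : N.oc K T (noz c) x = N.oc K T c x := rfl
  simp only [ND.q2, o, e.1, e.2]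
  exact ⟨rfl, rfl⟩

end nk

/-! ### uniform bounds -/

section u1
variable {ι 𝒟 : Type} [Fintype ι] {F : Pre I M ι} {P Q : Type} [NormedAddCommGroup P]
  [NormedSpace ℝ P] [NormedAddCommGroup Q] [NormedSpace ℝ Q] {f g : 𝒟 → M → P}

variable (F f) in
/-- uniformly bounded in `C¹` -/
def U1 : Prop := ∃ C, ∀ d, Sm I (f d) ∧ F.CB 1 (f d) C

theorem U1.fix {f : M → P} (h : F.Cb f) : U1 F fun _ : 𝒟 => f :=
  let ⟨_, h⟩ := h; ⟨_, fun _ => ⟨h.1, h.2 1⟩⟩

theorem U1.add (h : U1 F f) (h' : U1 F g) : U1 F fun d x => f d x + g d x :=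
  let ⟨_, h⟩ := h; let ⟨_, h'⟩ := h'
  ⟨_, fun d => ⟨(h d).1.add (h' d).1, CB_add (h d).1 (h' d).1 (h d).2 (h' d).2⟩⟩

theorem U1.clm (L : P →L[ℝ] Q) (h : U1 F f) : U1 F fun d x => L (f d x) :=
  let ⟨_, h⟩ := h; ⟨_, fun d => ⟨L.contMDiff.comp (h d).1, CB_clm L (h d).1 (h d).2⟩⟩

theorem U1.smul {s : M → ℝ} (hs : F.Cb s) (h : U1 F f) : U1 F fun d x => s x • f d x :=
  let ⟨_, h⟩ := h; let ⟨_, hs⟩ := hs
  ⟨_, fun d => ⟨hs.1.smul (h d).1, CB_bil (.lsmul ℝ ℝ) hs.1 (h d).1 (hs.2 1) (h d).2⟩⟩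

theorem U1.sum {α : Type} (s : Finset α) {f : α → 𝒟 → M → P} (h : ∀ a, U1 F (f a)) :
    U1 F fun d x => ∑ a ∈ s, f a d x := by
  classical
  induction s using Finset.induction_on with
  | empty => simpa using U1.fix (Cb_const (0 : P))
  | insert a s ha ih => simpa only [Finset.sum_insert ha] using (h a).add ih

theorem U1.mix {F' : Pre I M ι} {A : ι → ι → M → ℝ} (hA : Mix F F' A) (hb : ∀ a b, F.Cb (A a b))
    (h : U1 F f) : U1 F' f :=
  let ⟨_, h⟩ := h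
  let ⟨_, hC⟩ := Cb_unif (f := fun s : ι × ι => A s.1 s.2) fun s => hb s.1 s.2
  ⟨_, fun d => ⟨(h d).1, hA.CB (fun a b => (hC (a, b)).1) 1 (fun a b => (hC (a, b)).2 1) (h d).1
    (h d).2⟩⟩

theorem J_clm (L : P →L[ℝ] Q) (x : M) : ∀ (k : ℕ) {u : M → P}, Sm I u →
    Gl67.J F k (fun y => L (u y)) x ≤ ‖L‖ ^ 2 * Gl67.J F k u x
  | 0, _, _ => (pow_le_pow_left₀ (norm_nonneg _) (L.le_opNorm _) 2).trans_eq (mul_pow ..)
  | k + 1, u, hu => by
    rw [Gl67.J, Gl67.J, mul_add, Finset.mul_sum]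
    refine add_le_add (J_clm L x 0 hu) (Finset.sum_le_sum fun a _ => ?_)
    rw [show F.D a (fun y => L (u y)) = fun y => L (F.D a u y) from
      funext fun y => dv_clm L ((hu y).mdifferentiableAt (by simp))]
    exact J_clm L x k (F.sm_D hu a)

end u1

/-! ### the sides -/

variable {T : Type} [NormedAddCommGroup T] [NormedSpace ℝ T] {𝔉 : Fam I M (Option κ) lam T}
  {o : Ref 𝔉} {P : End 𝔉} {ψ : M → ℝ} {δ R b ρ : ℝ} {t : T} {k : ℕ} {𝒟 : Type}

/-- a family of points of a chart -/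
@[reducible] def si (K : Nk P.D 𝔉.B (𝔉.G t)) (y : 𝒟 → Pnt o r) : Si P.D 𝒟 o.m.N o.m.J :=
  ⟨⟨𝔉.B, 𝔉.G t⟩, K, o.m.p, o.m.ρ, o.m.j, fun d => (y d).cfg.W, fun d => (y d).cfg.Φ⟩

section ok
variable (h : 𝔉.OK) (hP : P.OK ψ δ R) (hw : WtP 𝔉.G0.F.toPre 𝔉.F0.toPre ψ) (hb : R ≤ b)
include h hP hw hb

theorem ne_le {V W : Type} [NormedAddCommGroup V] [InnerProductSpace ℝ V] [FiniteDimensional ℝ V]
    [NormedAddCommGroup W] [NormedSpace ℝ W] (L : V →L[ℝ] W) {p : M → V →L[ℝ] V} (hk : 4 ≤ k)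
    {w : 𝔉.F0.H k p} (hρ : ‖w‖ ≤ ρ) {u : M → V} (e : 𝔉.F0.val k p w = u) (hu : Sm I u)
    {v : P.Y.M × ℝ → W} (hv : ∀ z ∈ P.H b, v z = L (u (P.K.ψ z))) :
    Nk89.NE P.D δ P.sg b k v ≤ ENNReal.ofReal (‖L‖ ^ 2 * ρ ^ 2) := by
  have op := P.isOpen_H b
  have i := Is.FL_norm k (e ▸ Is.val h.sup hk w) hu
  refine (Gl67.N_congr (v := (fun x => L (u x)) ∘ P.K.ψ) op.measurableSet fun z hz =>
    (op.eventually_mem hz).mono hv).trans_le ((Gl67.N_iso P.K.iso hw.sm.continuous op.measurableSet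
      (P.isOpen_U b).measurableSet (fun z hz => hP.src (hb.trans hz.le)) (fun _ hx => hx.1)
      (fun z hz => ⟨hP.ψ_mem hb, fun e => show b < _ from P.K.tm_ψ z hz ▸ e.2⟩) (fun z hz => ?_)
      (L.contMDiff.comp hu)).trans_le ((Gl67.N_mono (subset_univ _)).trans
      ((Gl67.N_le (g' := ψ) (j := k) (v := u) .univ (sq_nonneg ‖L‖) fun x _ => ?_).trans ?_)))
  · rw [hP.wt _ (hP.ψ_mem le_rfl (hb.trans_lt hz)), hP.tm (hb.trans hz.le)]
  · exact (mul_le_mul_of_nonneg_left (J_clm L x k hu) (exp_pos _).le).trans_eq (mul_left_comm ..)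
  · rw [Gl67.N_eq hw i.1, ← ENNReal.ofReal_mul (sq_nonneg _), ← nrm_sq, ← i.2]
    exact ENNReal.ofReal_le_ofReal (by gcongr)

omit h hw in
theorem dp_of {L s : ℝ} (e : b + L ≤ P.sg * s) : s ∈ Dp P.K.p P.K.q L := by
  have i := hP.inf
  rcases P.sg_cases with e' | e' <;> rw [e'] at e i
  · exact ⟨fun a ha => by linarith [(i R (by simp)).1 a ha], fun a ha => by
      linarith [(i (max R a) (by simp)).2 a ha, le_max_right R a]⟩
  · exact ⟨fun a ha => by linarith [(i (min (-R) a) (by linarith [min_le_left (-R) a])).1 a ha, min_le_right (-R) a],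
      fun a ha => by linarith [(i (-R) (by simp)).2 a ha]⟩

theorem si_ok (ht : t ∈ 𝔉.Q) {K : Nk P.D 𝔉.B (𝔉.G t)} (S : Same K P.K) {y : 𝒟 → Pnt o r}
    (hy : ∀ d, (y d).t = t ∧ ‖(y d).pt k‖ ≤ ρ) (hk : 4 ≤ k) {β : Rf P.Y.M κ lam o.m.N}
    (l : ∀ z ∈ P.H b, o.m.p (P.K.ψ z) = β.p z.1 ∧ (∀ a, o.m.ρ a (P.K.ψ z) = β.ρ a z.1) ∧
      o.m.j (P.K.ψ z) = β.j z.1 ∧ (∀ a, o.W t 0 a (P.K.ψ z) = β.W a z.1) ∧
      o.Φ0 (P.K.ψ z) = β.Φ z.1) {C : ℕ → ℝ} (hC : (𝔉.G t).F.Tame C) :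
    (si K y).OK β C (k + 1) δ P.sg b := by
  have eψ : ∀ z ∈ P.H b, K.ψ z = P.K.ψ z := fun z hz => S.ψ z (S.src ▸ hP.src (hb.trans hz.le))
  have s1 := fun a c => (h.sS a c).cb t ht
  have mx : ∀ {V : Type} [NormedAddCommGroup V] [NormedSpace ℝ V] {f : M → V},
      𝔉.F0.Cb f → (𝔉.G t).F.Cb f := (h.mix t ht).Cb s1
  have n1 := fun d => (norm_fst_le _).trans (hy d).2
  have n2 := fun d => (norm_fst_le _).trans ((norm_snd_le _).trans (hy d).2)
  let L : Option κ → Fm (Option κ) o.m.A →L[ℝ] En (Fin o.m.N) := fun a => opL ∘L Grp76.pj o.m.A a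
  have eW : ∀ d a, (y d).cfg.W a = fun x => o.W t 0 a x + ∑ c, 𝔉.S t x a c • L c ((y d).α x) :=
    fun d a => funext fun x => by
      simp only [Pnt.cfg, W_apply, (hy d).1, Pi.zero_apply, PiLp.zero_apply, map_zero, smul_zero,
        Finset.sum_const_zero, add_zero]
      rfl
  have w0 : ∀ a, 𝔉.F0.Cb (o.W t 0 a) := fun a => by
    have := Cb_clm (Map77.oa a) (Map77.cb_uy h (pt0 o 0 ht))
    simp only [Map77.uy, Map77.oa_base] at this
    exact this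
  have uα : U1 𝔉.F0.toPre fun d => (y d).α := ⟨_, fun d => ⟨Prm93.Cb.sm ((y d).cα h),
    CB_mono ((y d).val_α (k := k) (by omega) ▸ CB_val h.sup 1 (by omega) _)
      (mul_le_mul_of_nonneg_left (n1 d) (sqrt_nonneg _))⟩⟩
  have uφ : U1 𝔉.F0.toPre fun d => (y d).φ := ⟨_, fun d => ⟨Prm93.Cb.sm ((y d).cφ h),
    CB_mono ((y d).val_φ (k := k) (by omega) ▸ CB_val h.sup 1 (by omega) _)
      (mul_le_mul_of_nonneg_left (n2 d) (sqrt_nonneg _))⟩⟩
  choose A hA using fun a => ((U1.fix (w0 a)).add (U1.sum Finset.univ fun c =>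
    (uα.clm (L c)).smul (s1 a c))).mix (h.mix t ht) s1
  obtain ⟨A', hA'⟩ := ((U1.fix o.cΦ).add uφ).mix (h.mix t ht) s1
  obtain ⟨A₀, h0⟩ := Finite.bddAbove_range A
  have p := fun a => mul_nonneg (sq_nonneg ‖L a‖) (sq_nonneg ρ)
  have p1 := Finset.sum_nonneg fun a (_ : a ∈ Finset.univ) => p a
  have p2 := mul_nonneg (sq_nonneg ‖ContinuousLinearMap.id ℝ o.m.V‖) (sq_nonneg ρ)
  refine ⟨(h.G t ht).vol, hC, fun L s e => S.p ▸ S.q ▸ dp_of hP hb e, fun d => ?_,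
    fun z hz => by rw [eψ z hz]; exact ⟨(l z hz).1, (l z hz).2.1, (l z hz).2.2.1⟩,
    ⟨max A₀ A', fun d => ⟨fun a => ?_, CB_mono (hA' d).2 (le_max_right _ _)⟩⟩,
    ⟨_, add_nonneg p1 p2, fun d => ⟨fun a => ?_, ?_⟩⟩⟩
  · have a : Ad0 (y d).cfg 𝔉.B (𝔉.G t) := (hy d).1 ▸ (y d).ad0 h
    exact ⟨⟨h.B, h.G t ht, o.ok, a.conn, ⟨C, hC⟩, fun a => mx (eW d a ▸ Cb_add (w0 a) (Cb_sum _
      fun c _ => Cb_smul (s1 a c) (Cb_clm (L c) ((y d).cα h)))),
      mx ((h.dat o).pg h.B (Std94.pmx o.ok))⟩, ⟨o.ok, a.conn, a.sm, a.pos, .inl rfl⟩,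
      mx (Cb_add o.cΦ ((y d).cφ h)), mx o.cp, fun a => mx (o.cρ a), mx o.cj⟩
  · exact (congrArg (fun f => (𝔉.G t).F.CB 1 f _) (eW d a)).mpr
      (CB_mono (hA a d).2 ((h0 ⟨a, rfl⟩).trans (le_max_left _ _)))
  · refine (ne_le h hP hw hb (L a) (by omega) (n1 d) ((y d).val_α (by omega))
      (Prm93.Cb.sm ((y d).cα h)) fun z hz => ?_).trans (ENNReal.ofReal_le_ofReal
        ((Finset.single_le_sum (fun a _ => p a) (Finset.mem_univ a)).trans (le_add_of_nonneg_right p2)))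
    have u := hP.ψ_mem le_rfl (hb.trans_lt hz)
    show o.W (y d).t _ a (K.ψ z) - _ = _
    rw [eψ z hz, (hy d).1, End14.W_end hP h ht _ u ((y d).pα h _), ← (l z hz).2.2.2.1,
      End14.W0_end h hP ht u, add_sub_cancel_left]
    rfl
  · refine (ne_le h hP hw hb (.id ℝ _) (by omega) (n2 d) ((y d).val_φ (by omega))
      (Prm93.Cb.sm ((y d).cφ h)) fun z hz => ?_).trans
        (ENNReal.ofReal_le_ofReal (le_add_of_nonneg_left p1))
    show o.Φ0 (K.ψ z) + (y d).φ (K.ψ z) - _ = _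
    rw [eψ z hz, ← (l z hz).2.2.2.2, add_sub_cancel_left]
    rfl

end ok

end Crest.Agent.X212.Mon62.Lz
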