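import Crest.Agent.X212.Mon62.Wrd
import Crest.Agent.X212.Sob92.Nem

/-! # Row 212, NK-SM: Nemytskii operators in several variables, with uniform bounds -/

set_option autoImplicit false
set_option linter.unusedSectionVars false
set_option maxSynthPendingDepth 3
noncomputable section
open scoped Manifold ContDiff Topology InnerProductSpace
open MeasureTheory Set Function Filter

namespace Crest.Agent.X212.Mon62
open An Sob92 Prm93 Wz78
open Ell97 (UB)

section ug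
variable {J : Type} {X Z Z' : J → Type} [∀ i, NormedAddCommGroup (X i)] [∀ i, NormedSpace ℝ (X i)]
  [∀ i, NormedAddCommGroup (Z i)] [∀ i, NormedSpace ℝ (Z i)]
  [∀ i, NormedAddCommGroup (Z' i)] [∀ i, NormedSpace ℝ (Z' i)]

variable (X) in
/-- closed balls -/
def cbl (R : ℝ) : Rg X :=
  ⟨fun _ => univ, fun _ => {x | ‖x‖ ≤ R}, fun _ => isOpen_univ, fun _ => subset_univ _⟩

/-- smooth, with all derivatives uniformly bounded on balls -/
def UG (g : ∀ i, X i → Z i) : Prop := ∀ R, UC (cbl X R) g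

variable {g : ∀ i, X i → Z i}

theorem UG.cd (h : UG g) (i : J) : ContDiff ℝ ∞ (g i) := contDiffOn_univ.1 ((h 0).sm i)

theorem UG.fderiv (h : UG g) : UG fun i => fderiv ℝ (g i) := fun R => (h R).fderiv

theorem UG.id : UG (X := X) fun _ x => x := fun R => UC.id ⟨R, fun _ _ h => h⟩

theorem bn_gb (R : ℝ) (n : ℕ) : ∀ {Z : J → Type} [∀ i, NormedAddCommGroup (Z i)]
    [∀ i, NormedSpace ℝ (Z i)] {g : ∀ i, X i → Z i}, Bn (cbl X R).B n g →
      ∃ G, 0 ≤ G ∧ ∀ i, GB R G (n + 1) (g i) := by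
  induction n with
  | zero => exact fun h => let ⟨K, h0, hK⟩ := Bd.nn h; ⟨K, h0, fun i => ⟨hK i, trivial⟩⟩
  | succ n ih =>
    intro Z _ _ g h
    obtain ⟨K, h0, hK⟩ := h.1.nn
    obtain ⟨G, h1, hG⟩ := ih h.2
    exact ⟨K + G, by positivity, fun i => ⟨fun x hx => (hK i x hx).trans (by linarith),
      GB.mono le_rfl (by linarith) _ (hG i)⟩⟩

theorem UG.gb (h : UG g) (R : ℝ) (n : ℕ) : ∃ G, 0 ≤ G ∧ ∀ i, GB R G (n + 1) (g i) :=
  bn_gb R n ((h R).bd n)

theorem UG.cmp {T : J → Type} [∀ i, NormedAddCommGroup (T i)] [∀ i, NormedSpace ℝ (T i)]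
    {R : Rg T} {f : ∀ i, T i → X i} (h : UG g) (hf : UC R f) : UC R fun i x => g i (f i x) :=
  let ⟨K, hK⟩ := hf.bd0; (h K).cmp hf (fun _ _ _ => mem_univ _) hK

theorem UG.fixed {N N' : Type} [NormedAddCommGroup N] [NormedSpace ℝ N] [FiniteDimensional ℝ N]
    [NormedAddCommGroup N'] [NormedSpace ℝ N'] {φ : N → N'} (h : ContDiff ℝ ∞ φ) :
    UG fun _ : J => φ := fun R =>
  have := FiniteDimensional.proper_real N
  (UG.id R).cmp_fixed isOpen_univ (isCompact_closedBall 0 R) (subset_univ _) h.contDiffOn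
    (fun _ _ _ => mem_univ _) fun _ _ hx => mem_closedBall_zero_iff.2 hx

theorem uc_fst {R : ℝ} : UC (cbl (fun i => X i × Z i) R) fun _ z => z.1 :=
  (UG.id R).clm (L := fun i => ContinuousLinearMap.fst ℝ (X i) (Z i))
    ⟨1, fun _ => ContinuousLinearMap.norm_fst_le _ _ _⟩

theorem uc_snd {R : ℝ} : UC (cbl (fun i => X i × Z i) R) fun _ z => z.2 :=
  (UG.id R).clm (L := fun i => ContinuousLinearMap.snd ℝ (X i) (Z i))
    ⟨1, fun _ => ContinuousLinearMap.norm_snd_le _ _ _⟩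

theorem Bv.comp {Z'' : J → Type} [∀ i, NormedAddCommGroup (Z'' i)] [∀ i, NormedSpace ℝ (Z'' i)]
    {A : ∀ i, Z' i →L[ℝ] Z'' i} {A' : ∀ i, Z i →L[ℝ] Z' i} (h : Bv A) (h' : Bv A') :
    Bv fun i => A i ∘L A' i :=
  let ⟨K, h0, hK⟩ := h.nn; let ⟨K', _, hK'⟩ := h'.nn
  ⟨K * K', fun i => ((A i).opNorm_comp_le _).trans (mul_le_mul (hK i) (hK' i) (norm_nonneg _) h0)⟩

theorem Bv.add {c d : ∀ i, Z i} (h : Bv c) (h' : Bv d) : Bv fun i => c i + d i :=
  let ⟨K, hK⟩ := h; let ⟨K', hK'⟩ := h'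
  ⟨K + K', fun i => (norm_add_le _ _).trans (add_le_add (hK i) (hK' i))⟩

theorem Bv.flip {β : ∀ i, X i →L[ℝ] Z i →L[ℝ] Z' i} (h : Bv β) : Bv fun i => (β i).flip :=
  h.of_le fun i => (β i).opNorm_flip.le

/-- classes of maps whose derivatives are built from maps of the class -/
theorem uc_rec {A α : Type*} [Fintype α] {R : Rg X} {f : A → ∀ i, X i → Z i}
    (hs : ∀ a, R.Sm (f a)) (hb : ∀ a, Bd R.B (f a)) {d : A → α → A}
    {L : α → ∀ i, Z i →L[ℝ] X i →L[ℝ] Z i} (hL : ∀ c, Bv (L c)) {u : A → ∀ i, X i → X i →L[ℝ] Z i}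
    (hu : ∀ a, UC R (u a)) (e : ∀ a i, ∀ x ∈ R.U i,
      _root_.fderiv ℝ (f a i) x = ∑ c, L c i (f (d a c) i x) + u a i x) (a : A) : UC R (f a) := by
  classical
  have key : ∀ n a, Bn R.B n (f a) := fun n => by
    induction n with
    | zero => exact hb
    | succ n ih =>
      intro a
      have h2 : ∀ s : Finset α, (R.Sm fun i x => ∑ c ∈ s, L c i (f (d a c) i x)) ∧
          Bn R.B n fun i x => ∑ c ∈ s, L c i (f (d a c) i x) := fun s => by
        induction s using Finset.induction_on with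
        | empty => simpa using ⟨UC.zero.sm, UC.zero.bd n⟩
        | insert c s hc ih' =>
          have h3 : R.Sm fun i x => L c i (f (d a c) i x) := fun i =>
            (L c i).contDiff.comp_contDiffOn (hs _ i)
          simp only [Finset.sum_insert hc]
          exact ⟨fun i => (h3 i).add (ih'.1 i),
            Bn.add n h3 ih'.1 (Bn.clm n (hL c) (hs _) (ih _)) ih'.2⟩
      exact ⟨hb a, (Bn.add n (h2 _).1 (hu a).sm (h2 _).2 ((hu a).bd n)).congr n (e a)⟩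
  exact ⟨hs a, fun n => key n a⟩

section pre
variable {A C Y Q : Type} [NormedAddCommGroup A] [NormedSpace ℝ A] [NormedAddCommGroup C]
  [NormedSpace ℝ C] [NormedAddCommGroup Y] [NormedSpace ℝ Y] [NormedAddCommGroup Q]
  [NormedSpace ℝ Q]

theorem norm_pre1 (L : Q →L[ℝ] A →L[ℝ] Y) : ‖pre1 A C Y ∘L L‖ ≤ ‖L‖ :=
  ContinuousLinearMap.opNorm_le_bound₂ _ (norm_nonneg _) fun q v => (L.le_opNorm₂ q v.1).trans
    (mul_le_mul_of_nonneg_left (norm_fst_le v) (by positivity))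

theorem norm_pre2 (L : Q →L[ℝ] C →L[ℝ] Y) : ‖pre2 A C Y ∘L L‖ ≤ ‖L‖ :=
  ContinuousLinearMap.opNorm_le_bound₂ _ (norm_nonneg _) fun q v => (L.le_opNorm₂ q v.2).trans
    (mul_le_mul_of_nonneg_left (norm_snd_le v) (by positivity))

end pre

end ug

variable {E : Type} [NormedAddCommGroup E] [NormedSpace ℝ E] [FiniteDimensional ℝ E]
  [MeasurableSpace E] [BorelSpace E]
  {HM : Type} [TopologicalSpace HM] {I : ModelWithCorners ℝ E HM}
  {M : Type} [TopologicalSpace M] [ChartedSpace HM M] [IsManifold I ∞ M]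
  [MeasurableSpace M] [T2Space M] [BorelSpace M] [SecondCountableTopology M] {ι : Type} [Fintype ι]
  {k : ℕ}

section one
variable {F : Pre I M ι} {T N : Type} [NormedAddCommGroup T] [NormedSpace ℝ T]
  [NormedAddCommGroup N] [NormedSpace ℝ N] {g : T → N}

/-- smooth, with all derivatives bounded on balls -/
structure GA (g : T → N) : Prop where
  cd : ContDiff ℝ ∞ g
  gb : ∀ R n, ∃ G, 0 ≤ G ∧ GB R G (n + 1) g

theorem GA.fderiv (h : GA g) : GA (fderiv ℝ g) :=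
  ⟨sm_fderiv h.cd, fun R n => let ⟨G, h0, hG⟩ := h.gb R (n + 1); ⟨G, h0, hG.2⟩⟩

theorem GA.cb (h : GA g) {f : M → T} (hf : F.Cb f) : F.Cb fun x => g (f x) := by
  obtain ⟨C, hf, hC⟩ := hf
  choose G hG using fun k => h.gb (C k) k
  exact ⟨_, Sob92.sm_comp h.cd hf, fun k => Sob92.CB_comp (hG k).1 hf h.cd (hG k).2 (hC k)⟩

theorem GA.fn (h : GA g) (f : B F k T) : B.fn (nemB F k g f) = fun x => g (B.fn f x) :=
  fn_toB (h.cb f.cb)

theorem GA.norm_le (h : GA g) {R G : ℝ} (hG : 0 ≤ G) (h' : GB R G (k + 1) g) {f : B F k T}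
    (hf : ‖f‖ ≤ R) : ‖nemB F k g f‖ ≤ cC R (k + 1) * G :=
  (B.norm_le (mul_nonneg (cC_nonneg R _) hG)).2 <| by
    rw [h.fn]; exact Sob92.CB_comp hG f.sm h.cd h' (CB_mono f.CB hf)

variable [I.Boundaryless]

theorem GA.weak (h : GA g) (w : Wd ι k) (x : M) (f δ : B F k T) :
    HasDerivAt (fun t : ℝ => evw w x (nemB F k g (f + t • δ)))
      (evw w x (B.bil (ContinuousLinearMap.id ℝ (T →L[ℝ] N)) (nemB F k (_root_.fderiv ℝ g) f) δ))
      0 := by
  have hg := h.cd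
  have js : JS I univ fun (t : ℝ) y => g (B.fn f y + t • B.fn δ y) := fun t _ y =>
    hg.contMDiff.contMDiffAt.comp (t, y) ((JAt.of_fixed (f.sm y)).add
      (contMDiffAt_fst.smul (JAt.of_fixed (δ.sm y))))
  have h1 := (JS.Dw (F := F) w.1 js 0 trivial x).hasFDerivAt
  rw [JS.pd_Dw w.1 (mem_univ _) js] at h1
  have h2 := congrFun (Dw_clm (F := F) (ContinuousLinearMap.apply ℝ N (1 : ℝ)) w.1
    (js.pd.sm (t := 0) (mem_univ _))) x
  have h3 : (fun y => ContinuousLinearMap.apply ℝ N (1 : ℝ)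
      (pd (fun (t : ℝ) y => g (B.fn f y + t • B.fn δ y)) 0 y)) =
      fun y => _root_.fderiv ℝ g (B.fn f y) (B.fn δ y) := funext fun y => by
    have a1 : HasDerivAt (fun t : ℝ => B.fn f y + t • B.fn δ y) (B.fn δ y) 0 := by
      simpa using ((hasDerivAt_id' (0 : ℝ)).smul_const (B.fn δ y)).const_add (B.fn f y)
    have a2 := (hg.differentiable (by simp) _).hasFDerivAt.comp_hasDerivAt_of_eq 0 a1
      (y := B.fn f y) (by simp)
    exact a2.deriv
  rw [h3] at h2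
  have h4 := h1.hasDerivAt
  rw [← ContinuousLinearMap.apply_apply (𝕜 := ℝ) (1 : ℝ), ← h2] at h4
  convert h4 using 1
  · funext t
    change F.Dw w.1 (B.fn _) x = _
    rw [h.fn]; rfl
  · change F.Dw w.1 (B.fn _) x = _
    rw [B.fn_bil, h.fderiv.fn]; rfl

theorem GA.weak' (h : GA g) : ∀ ℓ ∈ {ℓ : B F k N →L[ℝ] ℝ | ∃ w x,
    ∃ φ : N →L[ℝ] ℝ, ‖φ‖ ≤ 1 ∧ ℓ = φ ∘L evw w x}, ∀ f δ : B F k T,
    HasDerivAt (fun t : ℝ => ℓ (nemB F k g (f + t • δ)))
      (ℓ (B.bil (ContinuousLinearMap.id ℝ (T →L[ℝ] N)) (nemB F k (_root_.fderiv ℝ g) f) δ)) 0 := by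
  rintro _ ⟨w, x, φ, -, rfl⟩ f δ
  exact φ.hasFDerivAt.comp_hasDerivAt 0 (h.weak w x f δ)

theorem GA.cont (h : GA g) : Continuous (nemB F k g) :=
  norming_B.continuous (A := fun f => B.bil (ContinuousLinearMap.id ℝ (T →L[ℝ] N))
    (nemB F k (_root_.fderiv ℝ g) f)) h.weak' fun R => by
    obtain ⟨G, hG, h'⟩ := h.fderiv.gb R k
    exact ⟨_, fun f hf => ContinuousLinearMap.le_opNorm_of_le _ (h.fderiv.norm_le hG h' hf)⟩

theorem GA.der (h : GA g) (f : B F k T) : HasFDerivAt (nemB F k g)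
    (B.bil (ContinuousLinearMap.id ℝ (T →L[ℝ] N)) (nemB F k (_root_.fderiv ℝ g) f)) f :=
  norming_B.hasFDerivAt (A := fun f => B.bil (ContinuousLinearMap.id ℝ (T →L[ℝ] N))
    (nemB F k (_root_.fderiv ℝ g) f)) h.weak' ((B.bil _).continuous.comp h.fderiv.cont).continuousAt

theorem GA.nemB (h : GA g) : ContDiff ℝ ∞ (nemB F k g) := by
  have key : ∀ (n : ℕ) {N : Type} [NormedAddCommGroup N] [NormedSpace ℝ N] {g : T → N},
      GA g → ContDiff ℝ n (Sob92.nemB F k g) := by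
    intro n
    induction n with
    | zero => exact fun h => contDiff_zero.2 h.cont
    | succ n ih =>
      intro N _ _ g h
      exact contDiff_succ_iff_hasFDerivAt.2 ⟨_, (B.bil _).contDiff.comp (ih h.fderiv), h.der⟩
  exact contDiff_infty.2 fun n => key n h

end one

variable {J : Type} {X Y T Z Z' Z'' : J → Type} [∀ i, NormedAddCommGroup (X i)]
  [∀ i, NormedSpace ℝ (X i)] [∀ i, NormedAddCommGroup (T i)] [∀ i, NormedSpace ℝ (T i)]
  [∀ i, NormedAddCommGroup (Z i)] [∀ i, NormedSpace ℝ (Z i)]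
  [∀ i, NormedAddCommGroup (Z' i)] [∀ i, NormedSpace ℝ (Z' i)]
  [∀ i, NormedAddCommGroup (Z'' i)] [∀ i, NormedSpace ℝ (Z'' i)] {F : J → Pre I M ι}

theorem UG.ga {g : ∀ i, T i → Z i} (h : UG g) (i : J) : GA (g i) :=
  ⟨h.cd i, fun R n => let ⟨G, h0, hG⟩ := h.gb R n; ⟨G, h0, hG i⟩⟩

theorem bv_Bbil {β : ∀ i, Z i →L[ℝ] Z' i →L[ℝ] Z'' i} (h : Bv β) :
    Bv fun i => (B.bil (β i) : B (F i) k (Z i) →L[ℝ] B (F i) k (Z' i) →L[ℝ] B (F i) k (Z'' i)) :=
  let ⟨K, h0, hK⟩ := h.nn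
  ⟨2 ^ (k + 1) * K, fun i => (LinearMap.mkContinuous₂_norm_le _ (by positivity) _).trans
    (mul_le_mul_of_nonneg_left (hK i) (by positivity))⟩

theorem bv_Bconst : Bv fun i => (B.const : Z i →L[ℝ] B (F i) k (Z i)) :=
  ⟨1, fun _ => LinearMap.mkContinuous_norm_le _ zero_le_one _⟩

theorem bv_Bclm {L : ∀ i, Z i →L[ℝ] Z' i} (h : Bv L) :
    Bv fun i => (B.clm (L i) : B (F i) k (Z i) →L[ℝ] B (F i) k (Z' i)) :=
  h.of_le fun i => ContinuousLinearMap.opNorm_le_bound _ (norm_nonneg _) fun f =>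
    (B.norm_le (by positivity)).2 (CB_clm (L i) f.sm f.CB)

variable [I.Boundaryless]

/-- **Nemytskii operators on bounded functions** -/
theorem UG.nemB {g : ∀ i, T i → Z i} (h : UG g) : UG fun i => nemB (F i) k (g i) := fun R => by
  have h0 : ∀ {Z : J → Type} [∀ i, NormedAddCommGroup (Z i)] [∀ i, NormedSpace ℝ (Z i)]
      {g : ∀ i, T i → Z i}, UG g →
      Bd (cbl (fun i => B (F i) k (T i)) R).B fun i => Sob92.nemB (F i) k (g i) := fun h =>
    let ⟨G, h0, hG⟩ := h.gb R k; ⟨_, fun i _ hf => (h.ga i).norm_le h0 (hG i) hf⟩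
  have key : ∀ (n : ℕ) {Z : J → Type} [∀ i, NormedAddCommGroup (Z i)] [∀ i, NormedSpace ℝ (Z i)]
      {g : ∀ i, T i → Z i}, UG g →
      Bn (cbl (fun i => B (F i) k (T i)) R).B n fun i => Sob92.nemB (F i) k (g i) := fun n => by
    induction n with
    | zero => exact h0
    | succ n ih =>
      intro Z _ _ g h
      have h1 : Bv fun i => (B.bil (ContinuousLinearMap.id ℝ (T i →L[ℝ] Z i)) :
          B (F i) k _ →L[ℝ] B (F i) k _ →L[ℝ] B (F i) k _) := bv_Bbil bv_id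
      have h2 : (cbl (fun i => B (F i) k (T i)) R).Sm fun i =>
          Sob92.nemB (F i) k (_root_.fderiv ℝ (g i)) := fun i => (h.fderiv.ga i).nemB.contDiffOn
      exact ⟨h0 h, (Bn.clm n h1 h2 (ih h.fderiv)).congr n fun i f _ => ((h.ga i).der f).fderiv⟩
  exact ⟨fun i => (h.ga i).nemB.contDiffOn, fun n => key n h⟩

namespace Dm
variable {D : Dm I M ι X Y} {V W : Type} [NormedAddCommGroup V] [InnerProductSpace ℝ V]
  [NormedAddCommGroup W] [InnerProductSpace ℝ W] [CompleteSpace V] [CompleteSpace W]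
  {N N' : Type} [NormedAddCommGroup N] [NormedSpace ℝ N] [FiniteDimensional ℝ N]
  [NormedAddCommGroup N'] [NormedSpace ℝ N']

theorem bv_nT (hk : 8 ≤ k) (L : V →L[ℝ] N) (a : Fin (Module.finrank ℝ N)) :
    Bv fun i => nT W (D.F i) k (triv M V) L a := by
  obtain ⟨K1, -, h1⟩ := ((bv_mulB (D := D) (V := W) (W := W) k).comp
    (bv_clm k (ContinuousLinearMap.lsmul ℝ ℝ ∘L crd N a))).flip.nn
  obtain ⟨K2, -, h2⟩ := (bv_bilH (D := D) (Lev.self (by omega : 7 ≤ k))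
    (ContinuousLinearMap.smulRightL ℝ V W (crd N a ∘L L))).nn
  exact ⟨K1 + K2, fun i => (norm_add_le _ _).trans
    (add_le_add ((norm_pre1 _).trans (h1 i)) ((norm_pre2 _).trans (h2 i)))⟩

theorem bv_nU (L : V →L[ℝ] N) : Bv fun i => nU W (D.F i) k (triv M V) L := by
  obtain ⟨K, -, h⟩ := ((bv_mulB (D := D) (V := V) (W := W) k).comp
    (bv_clm k ((ContinuousLinearMap.compL ℝ V N W).flip L))).nn
  exact ⟨K, fun i => (norm_pre2 _).trans (h i)⟩

theorem bd_nem (hk : 8 ≤ k) (L : V →L[ℝ] N) {g : N → W} (hg : ContDiff ℝ ∞ g) (R : ℝ) :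
    ∃ K, ∀ i z, ‖z‖ ≤ R → ‖nem (D.F i) k (triv M V) L g z‖ ≤ K := by
  set R' := |R| + ‖L‖ * |R| + 1
  obtain ⟨G, hG, h⟩ := exists_GB (R' + √|D.C 0| * R') (k + 2) hg
  refine ⟨√(cM ι (D.C 0) R' k) * G * (‖L‖ * |R|), fun i z hz => ?_⟩
  have hz : ‖z‖ ≤ |R| := le_trans hz (le_abs_self R)
  have a1 := (norm_fst_le z).trans hz
  have a2 : ‖L‖ * ‖z.2‖ ≤ ‖L‖ * |R| :=
    mul_le_mul_of_nonneg_left ((norm_snd_le z).trans hz) (norm_nonneg L)
  have : 0 ≤ ‖L‖ * |R| := by positivity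
  have := abs_nonneg R
  exact (nem_spec (D.sup i) hk hg hG h z (by simp only [R']; linarith)
    (by simp only [R']; linarith)).2.trans (by gcongr)

/-- **Nemytskii operators on Sobolev spaces** -/
theorem ug_nem (hk : 8 ≤ k) (L : V →L[ℝ] N) {g : N → W} (hg : ContDiff ℝ ∞ g) :
    UG (X := fun i => B (D.P i) k N × D.H V k i) (Z := D.H W k)
      fun i => nem (D.F i) k (triv M V) L g := fun R =>
  uc_rec (A := {g : N → W // ContDiff ℝ ∞ g}) (Z := D.H W k) (R := cbl _ R)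
    (f := fun g i => nem (D.F i) k (triv M V) L g.1)
    (fun g i => (contDiff_nem (D.sup i) hk g.2).contDiffOn) (fun g => bd_nem (D := D) hk L g.2 R)
    (d := fun g a => ⟨pdg g.1 a, sm_pdg g.2 a⟩) (bv_nT hk L)
    (fun g => (((UG.fixed (sm_fderiv g.2)).nemB (F := D.P) (k := k)).cmp
      (uc_fst (Z := D.H V k) (R := R))).clm (bv_nU L))
    (fun g i z _ => (hasFDerivAt_nem (D.sup i) hk g.2 z).fderiv) ⟨g, hg⟩

omit [I.Boundaryless] in
theorem ub_nem {F : J → Pre I M ι} {g : N → N'} (hg : ContDiff ℝ ∞ g) {u : J → M → N}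
    (hu : UB F u) : UB F fun i x => g (u i x) := by
  obtain ⟨C, hu⟩ := hu
  choose G hG using fun k => exists_GB (C k) (k + 1) hg
  exact ⟨_, fun i => ⟨Sob92.sm_comp hg (hu i).1, fun k =>
    Sob92.CB_comp (hG k).1 (hu i).1 hg (hG k).2 ((hu i).2 k)⟩⟩

/-- smooth functions of several variables -/
theorem A0.compV {ε : Prop} {j : ℕ} (hj : 8 ≤ j) (L : V →L[ℝ] N) {g : N → W}
    (hg : ContDiff ℝ ∞ g) {w : ∀ i, Y i → M → V} (hw : D.A0 ε j w) :
    D.A0 False j fun i y x => g (L (w i y x)) := by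
  obtain ⟨b, δ, h1, -, h3, h4⟩ := hw.ex
  have h2 := h1.clm L
  refine ⟨⟨fun i y => Cb_nem hg (Cb_clm L (hw.sz.cb i y)), ub_nem hg (hw.sz.ub.clm L)⟩, _, _,
    ub_nem hg h2, False.elim, (ug_nem hj L hg).cmp (((US.fixed h2).uc j).prod h3),
    fun i y x => ?_⟩
  rw [vl, val_nem (D.sup i) hj hg, fn_toB (h2.cb i), h4, map_add, add_sub_cancel]

/-- smooth functions of finitely many real families -/
theorem A0.compF {α : Type} [Fintype α] {j : ℕ} (hj : 8 ≤ j) {g : (α → ℝ) → W}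
    (hg : ContDiff ℝ ∞ g) {w : α → ∀ i, Y i → M → ℝ} (hw : ∀ a, D.A0 False j (w a)) :
    D.A0 False j fun i y x => g fun a => w a i y x :=
  (A0.toLp (by omega) hw).compV hj (PiLp.continuousLinearEquiv 2 ℝ fun _ : α => ℝ) hg

theorem US.comp {f : ∀ i, X i → M → N} (h : D.US f) {g : N → N'} (hg : ContDiff ℝ ∞ g) :
    D.US fun i x z => g (f i x z) :=
  ⟨fun i x hx => Cb_nem hg (h.cb i x hx), fun k =>
    (((UG.fixed hg).nemB (F := D.P) (k := k)).cmp (h.uc k)).congr fun i x hx => by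
      rw [Sob92.nemB, fn_toB (h.cb i x hx)]⟩

end Dm

end Crest.Agent.X212.Mon62
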