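import Crest.Agent.X212.Mon62.NkW
import Crest.Agent.X212.Nka63.B

/-! # Row 212, NK-SM: the neck terms `q1`, `q2` extend smoothly to the Banach model -/

set_option autoImplicit false
set_option linter.unusedSectionVars false
set_option maxSynthPendingDepth 3
noncomputable section
open scoped Manifold ContDiff Topology InnerProductSpace
open MeasureTheory Set Function Filter

namespace Crest.Agent.X212.Mon62
open An Sob92 Prm93 Wz78 Dgr80 Nd18 Dm
open Ell97 (UB)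
open Cyc79 (Cy)

theorem contDiff_nr : ContDiff ℝ ∞ fun t : ℝ => t / √(1 + t ^ 2) :=
  contDiff_id.div ((contDiff_const.add (contDiff_id.pow 2)).sqrt fun _ => by positivity)
    fun _ => by positivity

theorem contDiff_iq : ContDiff ℝ ∞ fun t : ℝ => (√(1 + t ^ 2))⁻¹ :=
  ((contDiff_const.add (contDiff_id.pow 2)).sqrt fun _ => by positivity).inv fun _ => by positivity

theorem contDiff_out {C : YTC} (h : ContDiff ℝ ∞ C.k) : ContDiff ℝ ∞ C.out.k :=
  (contDiff_nr.comp (contDiff_apply ℝ ℝ (0 : Fin (C.m + 1)))).mul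
    (h.comp (contDiff_pi.2 fun i => contDiff_apply ℝ ℝ i.succ))

variable {E3 : Type} [NormedAddCommGroup E3] [NormedSpace ℝ E3] [FiniteDimensional ℝ E3]
  [MeasurableSpace E3] [BorelSpace E3]
  {H3 : Type} [TopologicalSpace H3] {I3 : ModelWithCorners ℝ E3 H3} [I3.Boundaryless]
  {Y : Type} [TopologicalSpace Y] [ChartedSpace H3 Y] [IsManifold I3 ∞ Y] [T2Space Y]
  [MeasurableSpace Y] [BorelSpace Y] [SecondCountableTopology Y] [CompactSpace Y]
  {κ : Type} [Fintype κ] {lam : Type} [Fintype lam]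
  {E : Type} [NormedAddCommGroup E] [NormedSpace ℝ E] [FiniteDimensional ℝ E]
  [MeasurableSpace E] [BorelSpace E]
  {HM : Type} [TopologicalSpace HM] {I : ModelWithCorners ℝ E HM} [I.Boundaryless]
  {M : Type} [TopologicalSpace M] [ChartedSpace HM M] [IsManifold I ∞ M] [MeasurableSpace M]
  [T2Space M] [BorelSpace M] [SecondCountableTopology M] {DY : YD I3 Y κ lam}

theorem contDiff_cx (N : ND Y lam) : ContDiff ℝ ∞ N.cx :=
  (contDiff_pi.2 fun _ => contDiff_apply ℝ ℝ _).prodMk (contDiff_pi.2 fun j =>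
    Complex.equivRealProdCLM.symm.contDiff.comp
      ((contDiff_apply ℝ ℝ (Sum.inr (Sum.inl j) : N.J)).prodMk (contDiff_apply ℝ ℝ _)))

/-- convolution in time as a window integral -/
theorem cv_eq {B : Base M (Option κ) lam} {G : Geo I M (Option κ) lam} (K : Nk DY B G) (δ : ℝ)
    (g : ℝ → ℝ) (x : M) : cv δ (fun t => K.cut 3 t * g t) (K.τ x) * K.χ x = (Nka63.vY DY)⁻¹ *
      wn G.F.μ K.τ δ (fun z => K.cut 3 (K.τ z) * g (K.τ z)) (K.τ x + 0) * K.χ x := by
  by_cases h : K.χ x = 0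
  · simp [h]
  have : Nonempty Y := ⟨(K.ψ.symm x).1⟩
  have := openPos DY.F.toPre
  have h0 : Nka63.vY DY ≠ 0 :=
    (ENNReal.toReal_pos (isOpen_univ.measure_pos _ univ_nonempty).ne' (measure_ne_top _ _)).ne'
  have h1 : ∀ s, K.cut 3 s * K.cut 1 s = K.cut 3 s := fun s => by
    by_cases e : s ∈ Dp K.p K.q 3
    · rw [show K.cut 1 s = 1 from ct_one (Dp_mono (by norm_num) e), mul_one]
    · rw [show K.cut 3 s = 0 from ct_zero e, zero_mul]
  have h2 := Nka63.integral_time_χ K fun s => b δ (s - K.τ x) * (K.cut 3 s * g s)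
  have h3 : ∀ s, b δ (s - K.τ x) * (K.cut 3 s * g s) * K.cut 1 s =
      b δ (s - K.τ x) * (K.cut 3 s * g s) := fun s => by
    linear_combination (b δ (s - K.τ x) * g s) * h1 s
  simp only [Nka63.χ_eq K, h3] at h2
  rw [wn, add_zero]
  simp only [smul_eq_mul]
  rw [h2, inv_mul_cancel_left₀ h0, cv]
  congr 2
  funext t
  rw [← b_neg, neg_sub, mul_comm]

variable {J : Type} {X Q : J → Type} [∀ i, NormedAddCommGroup (X i)] [∀ i, NormedSpace ℝ (X i)]
  {D : Dm I M (Option κ) X Q} {μ : MF M (Option κ) lam J} {r n : ℕ} {c : CF D μ r}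
  {B : J → Base M (Option κ) lam} {a : ∀ i, Q i → Option κ → M → En lam}
  (K : ∀ i y, Nk DY (B i) ⟨c.F i y, a i y⟩) (δ : ℝ) (j : ℕ)

/-- moments of the square of a pure family -/
theorem Dm.A0.moment {ι : Type} [Fintype ι] {D : Dm I M ι X Q} {V : Type} [NormedAddCommGroup V]
    [InnerProductSpace ℝ V] [CompleteSpace V] {l : ℕ} {u : ∀ i, Q i → M → V} (hu : D.A0 True l u)
    (hl : 7 ≤ l) {ρ g : ∀ i, X i → M → ℝ} (hρ : D.US ρ) (hg : D.US g) {f : ∀ i, Q i → M → ℝ}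
    (hf : D.A0 False l f) : (D.Sc fun i y =>
      ∫ x, ρ i (D.pt i y) x * (g i (D.pt i y) x * (f i y x * ‖u i y x‖ ^ 2)) ∂(D.P i).μ) ∧
      ∀ i y, Integrable (fun x =>
        ρ i (D.pt i y) x * (g i (D.pt i y) x * (f i y x * ‖u i y x‖ ^ 2))) (D.P i).μ := by
  have h4 : 4 ≤ l := by omega
  have hv := (((A0.smul (Lev.self hl) h4 hf hu).imp (ε' := True) Or.inr).us_smul (ε := True) h4
    hg).us_smul (ε := True) h4 hρ
  have m : ∀ {w : ∀ i, Q i → M → V}, D.A0 True l w → ∀ i y, MemLp (w i y) 2 (D.P i).μ :=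
    fun hw i y => let ⟨_, _, e⟩ := hw.pure; e i y ▸ (Is.val (D.sup i) h4 _).memLp
  have h1 := hv.pair h4 h4 hu
  have h2 := fun i y => ((m hv i y).norm.integrable_mul (m hu i y).norm).mono'
    ((m hv i y).1.inner (𝕜 := ℝ) (m hu i y).1) (.of_forall fun _ => norm_inner_le_norm _ _)
  simp only [real_inner_smul_left, real_inner_self_eq_norm_sq] at h1 h2
  exact ⟨h1, h2⟩

abbrev MF.pp {ι : Type} [Fintype ι] (μ : MF M ι lam J) (B : J → Base M ι lam) (i : J) :
    M → CL μ.V μ.V := (μ.m i).pp (B i)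

/-- the hypotheses on a family of necks -/
structure NH : Prop where
  ext : ∀ f : Y → ℝ, Sm I3 f → D.A0 False (j + 1) fun i y => (K i y).ext f
  exl : ∀ s : Y → Eu lam, Sm I3 s → D.A0 False j fun i y => (K i y).ext s
  dτ : c.Cd j fun i y => (K i y).τ
  cut : ∀ d, 1 ≤ d → D.A0 False j fun i y x => (K i y).cut d ((K i y).tm x)
  win : ∃ θ : ∀ i, Q i → M → ℝ, (∀ i y, ∀ x ∈ (K i y).dp 1, θ i y x = 1) ∧
    ∀ (s : ℝ) ε (w : ∀ i, Q i → M → ℝ), D.A0 ε 4 w → (∀ i y, ∀ x ∉ (K i y).dp 1, w i y x = 0) →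
      D.A0 ε j fun i y x => θ i y x * wn (c.F i y).μ (K i y).τ δ (w i y) ((K i y).τ x + s)

/-- hypothesis (row CYC-SM): the cyclic seeds -/
def NC : Prop := ∀ d : Cy Y, d.OK DY.F → c.SedS j fun i y => ((K i y).cyc d).sed (c.F i y)

namespace NH
variable {K δ j} (h : NH K δ j) {ε : Prop} (o : c.OK ε j)
include h o

theorem ex {f : Y → ℝ} (hf : Sm I3 f) : D.A0 False j fun i y => (K i y).ext f :=
  (h.ext f hf).lower o.h4 j.le_succ

theorem cdx {f : Y → ℝ} (hf : Sm I3 f) : c.Cd j fun i y => (K i y).ext f :=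
  (h.ext f hf).dG o.F o.h4

theorem cd : ∀ {g : Option (Y → ℝ)}, OF I3 g → c.Cd j fun i y => (K i y).fn g
  | none, _ => h.dτ
  | some f, hg => h.cdx o (hg f rfl)

theorem lt : ∀ {t : YL Y}, t.OK I3 → c.LtY j fun i y => (K i y).lt t
  | .mul _, ht => .mul (h.ex o ht)
  | .cl _, ht => .cl (h.cd o ht)
  | .im, _ => .im
  | .G, _ => .G

theorem la : ∀ {t : La Y}, laOK I3 t → D.LaY j fun i y => (K i y).la t
  | .mul _, ht => .mul (h.ex o ht)
  | .G, _ => .G

theorem sw {u : List (YL Y)} (hu : ∀ t ∈ u, YL.OK I3 t) :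
    Fa (c.LtY j) fun i y => u.map (K i y).lt := .list fun t ht => h.lt o (hu t ht)

theorem las {u : List (La Y)} (hu : ∀ t ∈ u, laOK I3 t) :
    Fa (D.LaY j) fun i y => u.map (K i y).la := .list fun t ht => h.la o (hu t ht)

variable {N : ND Y lam}

/-- the densities are cut-off densities of the calculus -/
theorem den (hN : N.OK DY) (hC : NC K j) (k : N.J) : ∃ d, c.DenS j d ∧
    ∀ i y, (N.dg (K i y)).d k = dcut (K i y).χ (d i y) := by
  rcases k with k | k | k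
  · have := hN.d0 k
    cases e : N.d0 k with
    | sw u v =>
      rw [e] at this
      exact ⟨_, o.denSw o.pk_one (h.sw o this.1) (h.sw o this.2), fun i y => by
        simp only [ND.dg, Sum.elim_inl, e]; rfl⟩
    | cy d w d' w' =>
      rw [e] at this
      exact ⟨_, .sed o.h7 (o.sedWd (hC d this.1) (h.las o this.2.1))
        (o.sedWd (hC d' this.2.2.1) (h.las o this.2.2.2)), fun i y => by
        simp only [ND.dg, Sum.elim_inl, e]; rfl⟩
  · obtain ⟨h1, h2, h3⟩ := hN.d2 k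
    exact ⟨_, o.denSw (o.pk_re (h.exl _ h1)) (h.sw o h2) (h.sw o h3), fun _ _ => rfl⟩
  · obtain ⟨h1, h2, h3⟩ := hN.d2 k
    exact ⟨_, o.denSw (o.pk_im (h.exl _ h1)) (h.sw o h2) (h.sw o h3), fun _ _ => rfl⟩

/-- smooth functions of finitely many windows, cut off -/
theorem fwin {α : Type} [Fintype α] {g : (α → ℝ) → ℝ} (hg : ContDiff ℝ ∞ g) (s : α → ℝ)
    {w : α → ∀ i, Q i → M → ℝ} (hw : ∀ k, D.A0 False 4 (w k))
    (h0 : ∀ k i y, ∀ x ∉ (K i y).dp 1, w k i y x = 0) {d : ℝ} (hd : 1 ≤ d) :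
    D.A0 False j fun i y x => (K i y).cut d ((K i y).tm x) *
      g fun k => wn (c.F i y).μ (K i y).τ δ (w k i y) ((K i y).τ x + s k) := by
  obtain ⟨θ, h1, h2⟩ := h.win
  refine (((h.cut d hd).mul o.h7
    (A0.compF o.hj hg fun k => h2 (s k) _ _ (hw k) (h0 k))).aff).congr fun i y x => ?_
  by_cases e : x ∈ (K i y).dp 1
  · simp only [h1 i y x e, one_mul]
  · rw [show (K i y).cut d ((K i y).tm x) = 0 from ct_zero fun e' => e (Dp_mono hd e'), zero_mul,
      zero_mul]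

end NH

namespace NH
variable {K j} {N : ND Y lam} (h : NH K N.δ j) {ε : Prop} (o : c.OK ε j)
include h o

theorem β (hN : N.OK DY) (hC : NC K j) (k : N.J) : D.A0 False j fun i y x =>
    (N.dg (K i y)).β (c.F i y) (c.c i y) k ((K i y).τ x) * (K i y).χ x := by
  choose d d1 d2 using h.den o hN hC
  have sm : ContDiff ℝ ∞ fun v => fderiv ℝ (fun x => N.φ (N.cx x)) v (Pi.single k 1) :=
    (sm_fderiv (hN.sm.comp (contDiff_cx N))).clm_apply contDiff_const
  have h1 := h.fwin o sm (fun _ => 0) (w := fun k i y => ((N.dg (K i y)).d k).h (c.c i y))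
    (fun k => (((h.cut 1 le_rfl).mul o.h7 (d1 k).h).aff.lower le_rfl o.h4).congr fun i y x => by
      rw [d2]; rfl)
    (fun k i y x hx => by rw [d2]; exact mul_eq_zero_of_left ((K i y).χ_zero hx) _)
    (d := 3) (by norm_num)
  have h2 := h.fwin o ((contDiff_const (c := (Nka63.vY DY)⁻¹)).mul (contDiff_apply ℝ ℝ ()))
    (fun _ => 0) (fun _ => h1.lower le_rfl o.h4) (fun _ i y x hx => mul_eq_zero_of_left
      (ct_zero fun e => hx (Dp_mono (by norm_num) e)) _) le_rfl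
  refine h2.congr fun i y x => (cv_eq (K i y) N.δ _ x).trans ?_
  simp only [add_zero, (K i y).cut_τ (show (1 : ℝ) ≤ 3 by norm_num), mul_comm _ ((K i y).χ x)]
  rfl

theorem gA (hN : N.OK DY) (hC : NC K j) : D.A0 False j (V := Fm (Option κ) μ.A) fun i y =>
    (N.dg (K i y)).gA (c.F i y) (c.c i y) := A0.fsum Finset.univ fun k _ =>
  let ⟨_, d1, d2⟩ := h.den o hN hC k
  (d1.gA _ _ (h.β o hN hC k)).congr fun i y x => by rw [d2]; rfl

theorem gP (hN : N.OK DY) (hC : NC K j) : D.A0 False j (V := μ.V) fun i y =>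
    (N.dg (K i y)).gP (c.F i y) (c.c i y) := A0.fsum Finset.univ fun k _ =>
  let ⟨_, d1, d2⟩ := h.den o hN hC k
  (d1.gP _ _ (h.β o hN hC k)).congr fun i y x => by rw [d2]; rfl

/-- the Dirac row of `q1`; pure if `dτ` is pure -/
theorem q1D (hN : N.OK DY) (hC : NC K j) (hB : UB D.P (μ.pp B)) {ε' : Prop}
    (hτ : ∀ e, D.A0 ε' j fun i y => (c.F i y).D e (K i y).τ) :
    D.A0 ε' j (V := μ.V) fun i y => (N.q1 (n := n) (K i y)).D (c.c i y) :=
  (A0.fsum Finset.univ fun e _ => (A0.smul o.lev o.h4 (hτ e)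
    (((h.gP o hN hC).app o.h4 hB).app o.h4 (o.ρ e))).imp Or.inl).neg o.h4

/-- the curvature row of `q1` -/
theorem q1C (hN : N.OK DY) (hC : NC K j) (hB : UB D.P (μ.p2 B)) {ε' : Prop}
    (hτ : ∀ e, D.A0 ε' j fun i y => (c.F i y).D e (K i y).τ) :
    D.A0 ε' j (V := Fm (Option κ × Option κ) μ.A) fun i y =>
      (N.q1 (n := n) (K i y)).C (c.c i y) :=
  ((A0.toLp o.h4 fun s => (A0.smul o.lev o.h4 (hτ s.1) ((h.gA o hN hC).clm o.h4
    (PiLp.proj 2 (fun _ : Option κ => μ.A) s.2))).imp Or.inl).app o.h4 hB).clm o.h4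
      ((-8 : ℝ) • ContinuousLinearMap.id ℝ _)

omit h in
theorem l7 {l : ℕ} (hl : l + 1 = j) : 7 ≤ l := by have := o.hj; omega

theorem χ4 {l : ℕ} (hl : l + 1 = j) : D.A0 False l fun i y => (K i y).χ4 :=
  have := o.hj; (h.cut 4 (by norm_num)).lower (by omega) (by omega)

theorem xA {l : ℕ} (hl : l + 1 = j) : D.A0 False l (V := Fm (Option κ) μ.A) fun i y x =>
    (K i y).χ4 x • xA (c.F i y) (c.c i y) (K i y).τ x :=
  have h7 := l7 o hl
  (A0.smul (Lev.self h7) (by omega) (h.χ4 o hl) (A0.toLp (by omega) fun e =>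
    A0.fsum Finset.univ fun k _ => A0.smul (Lev.left o.h7 (by omega)) (by omega) (h.dτ k)
      (o.Fg (by omega) hl.le (k, e)))).aff

theorem xP {l : ℕ} (hl : l + 1 = j) : D.A0 ε l (V := μ.V) fun i y x =>
    (K i y).χ4 x • xP (c.F i y) (c.c i y) (K i y).τ x :=
  have h7 := l7 o hl
  (A0.smul (Lev.self h7) (by omega) (h.χ4 o hl) (o.ntΦ hl h.dτ)).imp Or.inr

theorem uA {l : ℕ} (hl : l + 1 = j) {ε' : Prop} (hA : D.A0 ε' l (V := Fm (Option κ) μ.A)
    fun i y x => (K i y).χ4 x • Dgr80.xA (c.F i y) (c.c i y) (K i y).τ x) {f : Y → ℝ}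
    (hf : Sm I3 f) : D.A0 ε' l (V := μ.A) fun i y =>
      (c.c i y).sd (c.F i y) (.cv (K i y).χ4 (K i y).τ ((K i y).ext f)) := by
  have h7 := l7 o hl
  have h4 : 4 ≤ l := by omega
  have h1 := A0.fsum Finset.univ fun e _ => (A0.smul (Lev.left o.h7 (by omega)) h4
    (h.cdx o hf e) (hA.clm h4 (PiLp.proj 2 (fun _ : Option κ => μ.A) e))).imp Or.inr
  refine (o.resA h4 hl.le ((o.resA h4 hl.le (h1.congr fun i y x => ?_)).lower h4
    (by omega))).lower h4 (by omega)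
  rw [Fintype.sum_prod_type, Finset.sum_comm]
  refine Finset.sum_congr rfl fun e _ => ?_
  simp only [PiLp.proj_apply, PiLp.smul_apply, Dgr80.xA, Finset.smul_sum, smul_smul]
  exact Finset.sum_congr rfl fun k _ => by rw [mul_comm, mul_comm]

/-- the smoothed energy density (one level lower); pure if the time derivative is pure -/
theorem ew' (hy : ∀ i, Sm I3 (N.y i)) {l : ℕ} (hl : l + 1 = j) {ε' : Prop}
    (hA : D.A0 ε' l (V := Fm (Option κ) μ.A)
      fun i y x => (K i y).χ4 x • Dgr80.xA (c.F i y) (c.c i y) (K i y).τ x)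
    (hP : D.A0 ε' l (V := μ.V)
      fun i y x => (K i y).χ4 x • Dgr80.xP (c.F i y) (c.c i y) (K i y).τ x) :
    D.A0 ε' l fun i y => N.ew (K i y) (c.c i y) :=
  have h7 := l7 o hl
  ((h.χ4 o hl).mul h7 ((A0.fsum Finset.univ fun k _ => (h.uA o hl hA (hy k)).sq h7).add
    (hP.sq h7))).imp Or.inr

theorem ew (hy : ∀ i, Sm I3 (N.y i)) {l : ℕ} (hl : l + 1 = j) :
    D.A0 False l fun i y => N.ew (K i y) (c.c i y) := h.ew' o hy hl (h.xA o hl) (h.xP o hl).aff

/-- **MS-ROW**: moments of the smoothed energy -/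
theorem row (hy : ∀ i, Sm I3 (N.y i)) {l : ℕ} (hl : l + 1 = j)
    (hA : D.A0 True l (V := Fm (Option κ) μ.A)
      fun i y x => (K i y).χ4 x • Dgr80.xA (c.F i y) (c.c i y) (K i y).τ x)
    (hP : D.A0 True l (V := μ.V)
      fun i y x => (K i y).χ4 x • Dgr80.xP (c.F i y) (c.c i y) (K i y).τ x)
    {g : ∀ i, X i → M → ℝ} (hg : D.US g) :
    D.Sc fun i y => ∫ x, g i (D.pt i y) x * N.ew (K i y) (c.c i y) x ∂(c.F i y).μ := by
  have h7 := l7 o hl
  obtain ⟨ρ, r1, r2⟩ := o.F.densR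
  obtain ⟨a1, a2⟩ := (A0.toLp (by omega) fun k => h.uA o hl hA (hy k)).moment h7 r1 hg (h.χ4 o hl)
  obtain ⟨b1, b2⟩ := hP.moment h7 r1 hg (h.χ4 o hl)
  refine (a1.add b1).congr fun i y => ?_
  rw [← integral_add (a2 i y) (b2 i y), r2]
  simp only [PiLp.norm_sq_eq_of_L2 fun _ : Fin N.ny => μ.A, ← mul_add]
  rfl

omit o h in
theorem ew_zero (i : J) (y : Q i) : ∀ x ∉ (K i y).dp 1, N.ew (K i y) (c.c i y) x = 0 :=
  fun _ hx => mul_eq_zero_of_left (ct_zero fun e => hx (Dp_mono (by norm_num) e)) _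

theorem tc (hy : ∀ i, Sm I3 (N.y i)) {C : YTC} (hC : ContDiff ℝ ∞ C.k) {d : ℝ} (hd : 1 ≤ d) :
    D.A0 False j fun i y x => (K i y).cut d ((K i y).tm x) *
      (N.tc (K i y) C).val (c.F i y) (K i y).τ N.δ (c.c i y) ((K i y).τ x) := by
  have := o.hj
  exact h.fwin o (hC.comp (contDiff_pi.2 fun i => contDiff_nr.comp (contDiff_apply ℝ ℝ i))) C.s
    (fun _ => (h.ew o hy (l := j - 1) (by omega)).lower le_rfl (by omega))
    (fun _ => ew_zero) hd

theorem tl (hy : ∀ i, Sm I3 (N.y i)) {u : List (YL Y ⊕ YTC)} (hu : tlOK I3 u) :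
    Fa (c.LtY j) fun i y =>
      (u.map (N.tl (K i y))).map (Dgr80.tl (c.F i y) (K i y).τ N.δ (c.c i y)) := by
  simp only [List.map_map]
  refine .list fun t ht => ?_
  have := hu t ht
  rcases t with t | C
  · exact h.lt o this
  · exact .mul (h.tc o hy this.1 le_rfl)

theorem ta (hy : ∀ i, Sm I3 (N.y i)) {u : List (La Y ⊕ YTC)} (hu : taOK I3 u) :
    Fa (D.LaY j) fun i y =>
      (u.map (N.ta (K i y))).map (Dgr80.ta (c.F i y) (K i y).τ N.δ (c.c i y)) := by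
  simp only [List.map_map]
  refine .list fun t ht => ?_
  have := hu t ht
  rcases t with t | C
  · exact h.la o this
  · exact .mul (h.tc o hy this.1 le_rfl)

theorem oc (hy : ∀ i, Sm I3 (N.y i)) {T : YT Y} (hT : T.OK I3) :
    D.A0 False j fun i y => N.oc (K i y) T (c.c i y) :=
  (h.tc o hy (contDiff_out (C := T.C) (by cases T <;> exact hT.1.1)) (d := 3) (by norm_num)).congr
    fun i y x => by rw [ND.oc, (K i y).cut_τ (by norm_num)]

/-- the outer coefficient is pure if the energy density is pure -/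
theorem oc_pure (hy : ∀ i, Sm I3 (N.y i)) {T : YT Y} (hT : T.OK I3)
    (he : D.A0 True 4 fun i y => N.ew (K i y) (c.c i y)) :
    D.A0 True j fun i y => N.oc (K i y) T (c.c i y) := by
  have := o.hj
  have hk : ContDiff ℝ ∞ T.C.k := by cases T <;> exact hT.1.1
  have h0 := contDiff_apply (n := ∞) (E := ℝ) ℝ (0 : Fin (T.C.m + 1))
  have h1 := h.fwin o (((contDiff_iq.comp h0).mul (contDiff_iq.comp (contDiff_nr.comp h0))).mul
    (hk.comp (contDiff_pi.2 fun i => contDiff_nr.comp (contDiff_apply ℝ ℝ i.succ)))) T.C.out.s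
    (fun _ => (h.ew o hy (l := j - 1) (by omega)).lower le_rfl (by omega))
    (fun _ => ew_zero) (d := 3) (by norm_num)
  obtain ⟨θ, h2, h3⟩ := h.win
  refine (((h3 0 _ _ he ew_zero).mul o.h7 h1).imp Or.inl).congr fun i y x => ?_
  rw [ND.oc, (K i y).cut_τ (by norm_num)]
  by_cases e : x ∈ (K i y).dp 1
  · simp only [h2 i y x e, TC.val, ND.tc, YTC.out, comp_apply, Fin.cons_zero, div_eq_mul_inv]
    ring
  · rw [show (K i y).cut 3 ((K i y).tm x) = 0 from ct_zero fun e' => e (Dp_mono (by norm_num) e')]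
    simp

theorem tD (hy : ∀ i, Sm I3 (N.y i)) {T : YT Y} (hT : T.OK I3) (hB : UB D.P (μ.pm B)) :
    D.A0 False j (V := μ.V) fun i y =>
      (c.c i y).tD (B i) (c.F i y) (N.tm (K i y) (c.c i y) n T) := by
  cases T with
  | lin C u => exact ((o.swY (h.tl o hy hT.2)).app o.h4 hB).aff
  | _ => exact A0.zero

theorem tC (hy : ∀ i, Sm I3 (N.y i)) {T : YT Y} (hT : T.OK I3) (hB : UB D.P (μ.p2 B)) :
    D.A0 False j (V := Fm (Option κ × Option κ) μ.A) fun i y =>
      (c.c i y).tC (B i) (c.F i y) (N.tm (K i y) (c.c i y) n T) := by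
  cases T with
  | lin C u => exact A0.zero
  | ad C g u v l =>
    obtain ⟨-, h1, h2, h3, h4⟩ := hT
    exact (o.wedge h.dτ (h.cdx o h1) (o.wdAY (h.ta o hy h4)
      (o.qY (h.tl o hy h2) (h.tl o hy h3)).aff)).app o.h4 hB
  | cv C g f g1 g2 l =>
    obtain ⟨-, h1, h2, h3, h4, h5⟩ := hT
    exact (o.wedge h.dτ (h.cdx o h1) (o.wdAY (h.ta o hy h5)
      (o.cvY (h.ex o h2) (h.cd o h3) (h.cd o h4)))).app o.h4 hB

/-- the Dirac row of `q2`; pure if the outer coefficient is pure -/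
theorem q2D (hy : ∀ i, Sm I3 (N.y i)) {T : YT Y} (hT : T.OK I3) (hB : UB D.P (μ.pm B)) {ε' : Prop}
    (ho : D.A0 ε' j fun i y => N.oc (K i y) T (c.c i y)) :
    D.A0 ε' j (V := μ.V) fun i y => (N.q2 (n := n) (K i y) T).D (c.c i y) :=
  (A0.smul o.lev o.h4 ho ((h.tD o hy hT hB).nrm o.hj)).imp Or.inl

/-- the curvature row of `q2` -/
theorem q2C (hy : ∀ i, Sm I3 (N.y i)) {T : YT Y} (hT : T.OK I3) (hB : UB D.P (μ.p2 B)) {ε' : Prop}
    (ho : D.A0 ε' j fun i y => N.oc (K i y) T (c.c i y)) :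
    D.A0 ε' j (V := Fm (Option κ × Option κ) μ.A) fun i y =>
      (N.q2 (n := n) (K i y) T).C (c.c i y) :=
  (A0.smul o.lev o.h4 ho ((h.tC o hy hT hB).nrm o.hj)).imp Or.inl

end NH

end Crest.Agent.X212.Mon62
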