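import Crest.Agent.X212.Mon62.Lca
import Crest.Agent.X212.Mon62.NkI
import Crest.Agent.X212.Cys97.Defs
import Crest.Agent.X212.Met55.Mix

/-! # Row 212, NK-SM: the neck terms of a family lie in the local calculus -/

set_option autoImplicit false
set_option linter.unusedSectionVars false
set_option maxSynthPendingDepth 3
noncomputable section
open scoped Manifold ContDiff Topology InnerProductSpace
open MeasureTheory Set Function Filter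

namespace Crest.Agent.X212.Mon62
open An Sob92 Prm93 Wz78 Mod61 Dm Nd18 Cys97
open Ell97 (UB)
open Cyc79 (Cy Wu)
open Nk89 (wm WtP)

variable {E : Type} [NormedAddCommGroup E] [NormedSpace ℝ E] [FiniteDimensional ℝ E]
  [MeasurableSpace E] [BorelSpace E]
  {HM : Type} [TopologicalSpace HM] {I : ModelWithCorners ℝ E HM} [I.Boundaryless]
  {M : Type} [TopologicalSpace M] [ChartedSpace HM M] [IsManifold I ∞ M]
  [MeasurableSpace M] [T2Space M] [BorelSpace M] [SecondCountableTopology M]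
  {lam : Type} [Fintype lam] {T : Type} [NormedAddCommGroup T] [NormedSpace ℝ T]

section wt
variable {ι : Type} [Fintype ι]

/-- the logarithm of a positive family -/
theorem exists_log {F : Pre I M ι} {O : Set T} {m : T → M → ℝ} (h : SB F O m) {K : Set M}
    (hK : IsCompact K) (h0 : ∀ t ∈ O, ∀ x, 0 < m t x) (h1 : ∀ t ∈ O, ∀ x ∉ K, m t x = 1) {t : T}
    (ht : t ∈ O) : ∃ O' ∈ 𝓝 t, SB F (O ∩ O') fun t x => Real.log (m t x) := by
  obtain ⟨c, c0, hc⟩ : ∃ c, 0 < c ∧ ∀ x, c ≤ m t x := by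
    obtain ⟨c, c0, hc⟩ := hK.exists_forall_le' (Cb.sm (h.cb t ht)).continuous.continuousOn
      fun x _ => h0 t ht x
    refine ⟨min c 1, lt_min c0 one_pos, fun x => ?_⟩
    by_cases hx : x ∈ K
    · exact (min_le_left _ _).trans (hc x hx)
    · rw [h1 t ht x hx]; exact min_le_right _ _
  have h2 := ((h.sm 0).continuousOn t ht).tendsto.eventually (Metric.closedBall_mem_nhds _ (half_pos c0))
  obtain ⟨O', a, b⟩ := mem_nhdsWithin_iff_exists_mem_nhds_inter.1 h2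
  have hg : ContDiff ℝ ∞ fun u : ℝ => Real.smoothTransition (4 * u / c - 1) * Real.log u :=
    contDiff_iff_contDiffAt.2 fun u => by
      rcases lt_or_ge 0 u with k | k
      · exact (Real.smoothTransition.contDiff.comp (by fun_prop)).contDiffAt.mul
          (Real.contDiffAt_log.2 k.ne')
      · refine contDiffAt_const.congr_of_eventuallyEq (eventually_of_mem
          (Iio_mem_nhds (show u < c / 4 by linarith)) fun v hv => mul_eq_zero_of_left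
            (Real.smoothTransition.zero_of_nonpos ?_) _)
        rw [sub_nonpos, div_le_one c0]
        linarith [show v < c / 4 from hv]
  refine ⟨O', a, (SB_nem hg (h.mono inter_subset_left)).congr fun s hs => funext fun x => ?_⟩
  have h3 := (B.norm_le (half_pos c0).le).1 (mem_closedBall_iff_norm.1 (b ⟨hs.2, hs.1⟩)) [] le_rfl x
  rw [map_sub, fn_toB (h.cb s hs.1), fn_toB (h.cb t ht)] at h3
  have h4 : |m s x - m t x| ≤ c / 2 := h3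
  rw [Real.smoothTransition.one_of_one_le, one_mul]
  rw [le_sub_iff_add_le, le_div_iff₀ c0]
  linarith [(abs_le.1 h4).1, hc x]

variable {𝔉 : Fam I M ι lam T} {F1 : Fr I M ι} {ψ : M → ℝ} {o : Ref 𝔉} {r k : ℕ} {Q' : Set T}

variable (𝔉 F1 ψ) in
/-- the Sobolev frame is the frame `F1` with the weight `ψ` -/
structure Wf : Prop where
  tame : ∃ C, F1.Tame C
  wt : WtP F1.toPre 𝔉.F0.toPre ψ
  pos : ∀ x, 0 ≤ ψ x
  μ : ∃ K, IsCompact K ∧ ∀ t ∈ 𝔉.Q, (𝔉.G t).F.μ.restrict Kᶜ = F1.μ.restrict Kᶜ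
  wu : ∀ t ∈ 𝔉.Q, ∃ U c, 0 < c ∧ Wu (𝔉.G t).F U ∧
    ∀ x, c * U x ≤ Real.exp (2 * ψ x) ∧ c * Real.exp (2 * ψ x) ≤ U x

theorem wf_compact [CompactSpace M] (h : 𝔉.OK) : Wf 𝔉 𝔉.F0 0 :=
  ⟨h.tame, .refl _, fun _ => le_rfl, ⟨univ, isCompact_univ, fun _ _ => by simp⟩,
    fun _ _ => ⟨_, 1, one_pos, Cyc79.wu_one, fun _ => by simp⟩⟩

variable (𝔉 F1) in
/-- the logarithm of the density -/
def Lg : Prop := ∃ ℓ : T → M → ℝ, SB 𝔉.F0.toPre 𝔉.Q ℓ ∧ (∀ t ∈ 𝔉.Q, (𝔉.G t).F.μ = wm F1.μ (ℓ t)) ∧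
  ∃ χ, Sm I χ ∧ HasCompactSupport χ ∧ Off 𝔉.Q χ ℓ

theorem Wf.res (W : Wf 𝔉 F1 ψ) : Wf (res 𝔉 Q') F1 ψ :=
  ⟨W.tame, W.wt, W.pos, W.μ.imp fun _ a => ⟨a.1, fun t k => a.2 t k.1⟩, fun t k => W.wu t k.1⟩

theorem lg_of (w : WtP F1.toPre 𝔉.F0.toPre ψ)
    (hμ : ∃ K, IsCompact K ∧ ∀ t ∈ 𝔉.Q, (𝔉.G t).F.μ.restrict Kᶜ = F1.μ.restrict Kᶜ) (h : 𝔉.OK)
    {t : T} (ht : t ∈ 𝔉.Q) : ∀ᶠ Q' in (𝓝 t).smallSets, Lg (Mon62.res 𝔉 Q') F1 := by
  obtain ⟨K, hK, h1⟩ := hμ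
  obtain ⟨ρ, r1, r2⟩ := h.dens
  obtain ⟨χ, c1, c2, -, -, c3⟩ := Met55.exists_cut (I := I) hK isOpen_univ (subset_univ _)
  have cψ := w.sm.continuous
  have cm : ∀ s ∈ 𝔉.Q, Continuous fun x => Real.exp (2 * ψ x) * ρ s x := fun s hs =>
    have := (Cb.sm (r1.cb s hs)).continuous; by fun_prop
  have e1 : ∀ s ∈ 𝔉.Q, (𝔉.G s).F.μ =
      F1.μ.withDensity fun x => ENNReal.ofReal (Real.exp (2 * ψ x) * ρ s x) := fun s hs => by
    rw [(r2 s hs).2, w.μ, wm, ← withDensity_mul _ (Nk89.meas_w cψ)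
      (Cb.sm (r1.cb s hs)).continuous.measurable.ennreal_ofReal]
    simp only [ENNReal.ofReal_mul (Real.exp_pos _).le]
    rfl
  have p : ∀ s ∈ 𝔉.Q, ∀ x, 0 < Real.exp (2 * ψ x) * ρ s x := fun s hs x =>
    mul_pos (Real.exp_pos _) ((r2 s hs).1 x)
  have e2 : ∀ s ∈ 𝔉.Q, ∀ x ∉ K, Real.exp (2 * ψ x) * ρ s x = 1 := fun s hs => by
    have := sfinite_μ F1.toPre
    have := openPos F1.toPre
    have := Manifold.locallyCompact_of_finiteDimensional (M := M) I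
    have h2 := h1 s hs
    rw [e1 s hs, restrict_withDensity hK.isClosed.isOpen_compl.measurableSet] at h2
    have h3 := (withDensity_eq_iff_of_sigmaFinite (cm s hs).measurable.ennreal_ofReal.aemeasurable
      aemeasurable_const).1 (h2.trans withDensity_one.symm)
    exact Measure.eqOn_open_of_ae_eq (μ := F1.μ) (h3.mono fun x hx => ENNReal.ofReal_eq_one.1 hx)
      hK.isClosed.isOpen_compl (cm s hs).continuousOn continuousOn_const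
  have sb : SB 𝔉.F0.toPre 𝔉.Q fun s x => Real.exp (2 * ψ x) * ρ s x :=
    ((SB.fixed (u := fun x => 1 - χ x) (Cb_sub (Cb_const 1) (Cb_of_hcs c1 c2))).add
      ((SB.fixed (u := fun x => χ x * Real.exp (2 * ψ x)) (Cb_of_hcs (c1.mul (Nk89.sm_exp
        (ψ := fun x => 2 * ψ x) (contMDiff_const.mul w.sm))) c2.mul_right)).mul r1)).congr
      fun s hs => funext fun x => by
        by_cases hx : x ∈ K
        · simp [(c3 x hx).self_of_nhds]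
        · linear_combination (1 - χ x) * e2 s hs x hx
  obtain ⟨O, a, b⟩ := exists_log sb hK p e2 ht
  refine eventually_smallSets.2 ⟨O, a, fun Q' hQ => ⟨fun s x => 2⁻¹ * Real.log _,
    (SB.fixed (Cb_const _)).mul (b.mono (inter_subset_inter_right _ hQ)), fun s hs => ?_, χ, c1, c2,
    fun s hs s' hs' x hx => ?_⟩⟩
  · refine (e1 s hs.1).trans ?_
    simp only [wm, mul_inv_cancel_left₀ (two_ne_zero' ℝ), Real.exp_log (p s hs.1 _)]
  · have : x ∉ K := fun k => hx (c3 x k).self_of_nhds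
    simp only [e2 s hs.1 x this, e2 s' hs'.1 x this]

theorem Wf.lg (W : Wf 𝔉 F1 ψ) (h : 𝔉.OK) {t : T} (ht : t ∈ 𝔉.Q) :
    ∀ᶠ Q' in (𝓝 t).smallSets, Lg (Mon62.res 𝔉 Q') F1 := lg_of W.wt W.μ h ht

theorem Wf.uw (W : Wf 𝔉 F1 ψ) (L : Lg 𝔉 F1) (H : Hy o) {hk : 3 ≤ k} (y₀ : Pnt o r) :
    Nonempty (Uw o.m.A (dm H.ok hk y₀) (cf H.ok hk y₀).G) := by
  obtain ⟨ℓ, l1, l2, χ, c1, c2, c3⟩ := L
  obtain ⟨C, hC⟩ := W.tame
  obtain ⟨C', hC'⟩ := H.ok.tameG _ y₀.ht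
  obtain ⟨U, c, u0, u1, u2⟩ := W.wu _ y₀.ht
  have rb : ∀ t ∈ 𝔉.Q, RB1 o.m.A F1.toPre (𝔉.G t).F := fun t ht => by
    have m1 : Mix F1.toPre (𝔉.G t).F.toPre fun a b x => 𝔉.S t x a b := fun a x =>
      W.wt.e ▸ H.ok.mix t ht a x
    have m2 : Mix (𝔉.G t).F.toPre F1.toPre fun a b x => 𝔉.Si t x a b := fun a x =>
      W.wt.e ▸ mix_inv H.ok ht a x
    have s1 := fun a b => W.wt.Cb.1 ((H.ok.sS a b).cb t ht)
    obtain ⟨D, d1, d2⟩ := l1.cb t ht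
    have d3 : ∀ x, |ℓ t x| ≤ D 0 := fun x => d2 0 [] le_rfl x
    refine rb1_cmp ⟨⟨⟨_, m1, s1⟩, _, (l2 t ht).trans_le (Nk89.wm_le fun x => (abs_le.1 (d3 x)).2)⟩,
      ⟨_, m2, fun a b => m1.Cb s1 (W.wt.Cb.1 ((H.ok.sSi a b).cb t ht))⟩,
        (Real.exp (2 * D 0)).toNNReal, ?_⟩
      (act_mix m1 s1 fun a => W.wt.Cb.1 ((H.ok.sdv a).cb t ht)) (H.ok.tameG t ht).choose_spec
    rw [l2 t ht]
    exact (Nk89.wm_neg d1.continuous).symm.trans_le (Nk89.wm_le (c := D 0) fun x =>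
      neg_le.1 (abs_le.1 (d3 x)).1)
  exact ⟨⟨fun _ => F1, fun j => max (C j) (C' j), fun _ => ψ, fun _ v => ℓ v.2.2.2,
    fun _ => Ell97.Tame_mono hC fun _ => le_max_left _ _, fun _ => W.wt, fun _ => W.pos,
    lc_dm l1 c1 c2 c3, fun _ y => l2 _ y.ht, fun _ y => H.ok.tameG _ y.ht,
    fun _ => Ell97.Tame_mono hC' fun _ => le_max_right _ _, ⟨fun _ => U, c, u0, fun _ => ⟨u1, u2⟩⟩,
    ⟨fun a b _ y x => 𝔉.Si y.t x a b, fun a b => sz_dm fun y => (H.ok.sSi a b).cb _ y.ht,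
      fun _ y => mix_inv H.ok y.ht⟩,
    ra_of_finite (fun _ => finite_singleton _) fun _ v hv => H.bA _ hv,
    ra_of_finite (fun _ => finite_singleton _) fun _ v hv => rb _ hv⟩⟩

end wt

variable {E3 : Type} [NormedAddCommGroup E3] [NormedSpace ℝ E3] [FiniteDimensional ℝ E3]
  [MeasurableSpace E3] [BorelSpace E3]
  {H3 : Type} [TopologicalSpace H3] {I3 : ModelWithCorners ℝ E3 H3} [I3.Boundaryless]
  {Y : Type} [TopologicalSpace Y] [ChartedSpace H3 Y] [IsManifold I3 ∞ Y] [T2Space Y]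
  [MeasurableSpace Y] [BorelSpace Y] [SecondCountableTopology Y] [CompactSpace Y]
  {κ : Type} [Fintype κ] {DY : YD I3 Y κ lam} {𝔉 : Fam I M (Option κ) lam T} {o : Ref 𝔉}
  {r n m k : ℕ} {p : T → Prop} (K : ∀ t, p t → Nk DY 𝔉.B (𝔉.G t)) {O : Set T} {N : ND Y lam}
  {F1 : Fr I M (Option κ)} {ψ : M → ℝ} {ε : Prop}

/-- a perturbation without real rows -/
def px {ι : Type} [Fintype ι] (m : ℕ) (τ : Pt M ι lam r n) : PtX M ι lam r n m := ⟨τ, fun _ => 0⟩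

open Classical in
/-- a family of perturbations which is defined where `p` holds -/
def dq {ι : Type} [Fintype ι] (p : T → Prop) (τ : ∀ t, p t → PtX M ι lam r n m) (t : T) :
    PtX M ι lam r n m := if h : p t then τ t h else 0

theorem Pj.dq {ι : Type} [Fintype ι] {𝔉 : Fam I M ι lam T} {o : Ref 𝔉}
    {τ : ∀ t, p t → PtX M ι lam r n m}
    (hD : ∀ (y : Pnt o r) h x, o.m.pm 𝔉.B x ((τ y.t h).D y.cfg x) = (τ y.t h).D y.cfg x)
    (hC : ∀ (y : Pnt o r) h x, o.m.p2 𝔉.B x ((τ y.t h).C y.cfg x) = (τ y.t h).C y.cfg x) :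
    Pj o (dq p τ) := by
  constructor <;> intro y x <;> by_cases h : p y.t
  · rw [Mon62.dq, dif_pos h]; exact hD y h x
  · rw [Mon62.dq, dif_neg h]; exact map_zero _
  · rw [Mon62.dq, dif_pos h]; exact hC y h x
  · rw [Mon62.dq, dif_neg h]; exact map_zero _

variable (m n N) in
/-- the gradient term of a family of necks -/
def Q1 : T → PtX M (Option κ) lam r n m := dq p fun t h => px m (N.q1 (K t h))

variable (m n N) in
/-- a non-gradient term of a family of necks -/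
def Q2 (w : YT Y) : T → PtX M (Option κ) lam r n m := dq p fun t h => px m (N.q2 (K t h) w)

theorem pj_Q1 (h : 𝔉.OK) : Pj o (Q1 (r := r) n m K N) :=
  Pj.dq (fun y _ x => by
    have e : ∀ a v, o.m.pm 𝔉.B x (o.m.ρ a x (o.m.pp 𝔉.B x v)) = o.m.ρ a x (o.m.pp 𝔉.B x v) :=
      fun a v => congrArg (fun S : En (Fin o.m.N) => S v) (show o.m.pm 𝔉.B x * o.m.ρ a x *
        o.m.pp 𝔉.B x = o.m.ρ a x * o.m.pp 𝔉.B x by
          rw [Wz78.pm_rho h.B o.ok, mul_assoc, Wz78.pp_pp h.B o.ok])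
    exact (map_neg _ _).trans (congrArg _ ((map_sum _ _ _).trans (Finset.sum_congr rfl fun a _ =>
      (map_smul _ _ _).trans (congrArg _ (e a _))))))
    fun _ _ x => (map_smul _ _ _).trans (congrArg _ (Std94.p2_p2 h.B x _))

theorem pj_Q2 (h : 𝔉.OK) (w : YT Y) : Pj o (Q2 (r := r) n m K N w) :=
  Pj.dq (fun y _ x => (map_smul _ _ _).trans (congrArg _ ((map_smul _ _ _).trans
      (congrArg _ (pm_tD h y _ _ x)))))
    fun y _ x => (map_smul _ _ _).trans (congrArg _ ((map_smul _ _ _).trans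
      (congrArg _ (p2_tC h y _ _ x))))

/-- the necks at the smooth points -/
abbrev kd (h : 𝔉.OK) (hk : 3 ≤ k) (y₀ : Pnt o r) (hp : ∀ t ∈ 𝔉.Q, p t) (_ : Unit) (y : Pnt o r) :
    Nk DY 𝔉.B ⟨(cf h hk y₀).F () y, (𝔉.G y.t).a⟩ := K y.t (hp _ y.ht)

/-- supports are separated by a function which does not depend on the parameter -/
def SepK (O : Set T) : Prop := ∀ f f' : Y → ℝ, Cyc79.Sep DY.F.toPre f f' → ∃ φ : M → ℝ,
  𝔉.F0.Cb φ ∧ ∀ t ∈ O, ∀ h x, ((K t h).ext f x ≠ 0 → 1 ≤ φ x) ∧ ((K t h).ext f' x ≠ 0 → φ x ≤ 0)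

variable {K} in
theorem nc_dm [o.B0] (SM : SmStmt I M (Option κ) lam) (H : Hy o) (W : Wf 𝔉 F1 ψ) (L : Lg 𝔉 F1)
    (hk7 : 7 ≤ k) {hk : 3 ≤ k} {y₀ : Pnt o r} {hp : ∀ t ∈ 𝔉.Q, p t} {δ : ℝ}
    (h : NH (kd K H.ok hk y₀ hp) δ (k + 1)) (hs : SepK K 𝔉.Q) :
    NC (kd K H.ok hk y₀ hp) (k + 1) := fun _ hd =>
  have c := H.cfOK hk7 (hk := hk) y₀
  let ⟨φ, h1, h2⟩ := hs _ _ hd.sep
  SM _ _ _ _ _ _ _ _ _ _ _ _ _ c (W.uw L H y₀)
    (fun _ y a x => ((H.ok.G _ y.ht).P ▸ (y.ad0 H.ok).conn.cc.proj a x :))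
    ⟨h.ex c (Cb.sm hd.sep.1), h.ex c (Cb.sm hd.sep.2.1), fun _ => φ, ub_of_finite fun _ => h1,
      fun _ y x => h2 _ y.ht _ x⟩ (h.las c fun t ht => Nka63.laOK_of (hd.w t ht))
    (h.las c fun t ht => Nka63.laOK_of (hd.w' t ht))

/-! ### moving compact necks -/

/-- over `O` the necks are finite, lie in a fixed band and depend smoothly on the parameter -/
def Mv (O : Set T) : Prop := ∃ (U C : Set M) (π : M → Y) (h : T → M → ℝ) (P L : T → ℝ),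
  IsOpen U ∧ IsCompact C ∧ C ⊆ U ∧ ContMDiffOn I I3 ∞ π U ∧ (∀ t ∈ O, ∀ x ∈ U, JAt I h t x) ∧
  (∀ t ∈ O, ContDiffAt ℝ ∞ P t ∧ ContDiffAt ℝ ∞ L t ∧ p t) ∧ ∀ t ∈ O, ∀ ht,
    (K t ht).p = some (P t) ∧ (K t ht).q = some (L t) ∧ (K t ht).dp (1 / 4) ⊆ C ∧
    ∀ x ∈ U, x ∈ (K t ht).ψ.target ∧ (K t ht).ψ.symm x = (π x, h t x)

variable {K}

theorem Mv.mono (h : Mv K O) {O' : Set T} (e : O' ⊆ O) : Mv K O' :=
  let ⟨U, C, π, g, P, L, a1, a2, a3, a4, a5, a6, a7⟩ := h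
  ⟨U, C, π, g, P, L, a1, a2, a3, a4, fun t k => a5 t (e k), fun t k => a6 t (e k),
    fun t k => a7 t (e k)⟩

theorem Mv.act (h : Mv K O) : ∀ t ∈ O, p t :=
  let ⟨_, _, _, _, _, _, _, _, _, _, _, a6, _⟩ := h; fun t k => (a6 t k).2.2

theorem Mv.sep (h : Mv K O) : SepK K O := by
  obtain ⟨U, C, π, g, P, L, a1, a2, a3, a4, -, -, a7⟩ := h
  rintro f f' ⟨-, -, φ, h1, h2, h3⟩
  obtain ⟨χ, c1, c2, c3, -, c4⟩ := Met55.exists_cut (I := I) a2 a1 a3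
  have e : ∀ t ∈ O, ∀ h x (f : Y → ℝ), (K t h).ext f x ≠ 0 → χ x = 1 ∧ f (π x) ≠ 0 :=
    fun t ht h x f hx => by
    have h4 := (a7 t ht h).2.2.1 (Nka63.dp_mono _ (by norm_num)
      (by_contra fun k => hx ((K t h).ext_zero f k)))
    have h5 := right_ne_zero_of_smul hx
    rw [((a7 t ht h).2.2.2 x (a3 h4)).2] at h5
    exact ⟨(c4 x h4).self_of_nhds, h5⟩
  refine ⟨fun x => χ x * φ (π x), Cb_of_hcs (contMDiff_of_tsupport fun x hx => (c1 x).mul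
    (((Cb.sm h1) _).comp x (a4.contMDiffAt (a1.mem_nhds (c3 (tsupport_mul_subset_left hx))))))
    c2.mul_right, fun t ht h x => ⟨fun k => ?_, fun k => ?_⟩⟩
  · simp only [(e t ht h x f k).1, one_mul]; exact h2 _ (e t ht h x f k).2
  · simp only [(e t ht h x f' k).1, one_mul]; exact h3 _ (e t ht h x f' k).2

theorem Mv.nf (h : Mv K 𝔉.Q) (H : 𝔉.OK) {hk : 3 ≤ k} {y₀ : Pnt o r} :
    ∃ P L, NF (kd K H hk y₀ h.act) P L := by
  classical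
  obtain ⟨U, C, π, g, P, L, a1, a2, a3, a4, a5, a6, a7⟩ := id h
  obtain ⟨χ, c1, c2, -, -, c4⟩ := Met55.exists_cut (I := I) a2 a1 a3
  refine ⟨fun _ y => P y.t, fun _ y => L y.t, fun _ y => (a7 _ y.ht _).1,
    fun _ y => (a7 _ y.ht _).2.1, ⟨fun _ => χ, fun l hl => A0.of_cs hl (fun _ => c1) fun _ => c2,
      fun _ y x hx => (c4 x ((a7 _ y.ht _).2.2.1 hx)).self_of_nhds⟩, fun {N} _ _ Φ f d h1 h2 hd h3 => ?_⟩
  have tm : ∀ t ht, ∀ x ∈ U, (K t (h.act t ht)).tm x = g t x := fun t ht x hx => by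
    rw [← Nk.snd_symm _ ((a7 t ht _).2.2.2 x hx).1, ((a7 t ht _).2.2.2 x hx).2]
  have z : ∀ t ht, ∀ x ∉ C, Φ (P t, L t, (K t (h.act t ht)).tm x) = 0 := fun t ht x hx =>
    h3 _ _ _ ((K t (h.act t ht)).len _ (a7 t ht _).1 _ (a7 t ht _).2.1) fun e => hx ((a7 t ht (h.act t ht)).2.2.1
      (Nka63.dp_mono _ hd (by rwa [Nk.dp, (a7 t ht _).1, (a7 t ht _).2.1])))
  let u : T → M → N := fun t x => if x ∈ C then Φ (P t, L t, g t x) • f (π x) else 0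
  have js : JS I 𝔉.Q u := fun t ht x => by
    by_cases hx : x ∈ C
    · refine JAt.congr (f := fun t x => Φ (P t, L t, g t x) • f (π x)) ((h1.contMDiff.contMDiffAt.comp
        (t, x) ((JAt.of_par (a6 t ht).1).prodMk_space ((JAt.of_par (a6 t ht).2.1).prodMk_space
          (a5 t ht x (a3 hx))))).smul (JAt.of_fixed ((h2 _).comp x
            (a4.contMDiffAt (a1.mem_nhds (a3 hx)))))) ?_
      filter_upwards [prod_mem_nhds (H.opn.mem_nhds ht) (a1.mem_nhds (a3 hx))] with w hw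
      by_cases hc : w.2 ∈ C
      · exact if_pos hc
      · rw [← tm _ hw.1 _ hw.2, z _ hw.1 _ hc, zero_smul]; exact if_neg hc
    · refine JAt.congr (f := fun _ _ => 0) contMDiffAt_const ?_
      filter_upwards [prod_mem_nhds univ_mem (a2.isClosed.isOpen_compl.mem_nhds hx)] with w hw
      exact if_neg hw.2
  refine ⟨_, us_dm (Prm93.Fam.sb a2 H.opn ⟨js, fun t ht => Cb_of_hcs (js.sm ht)
    (HasCompactSupport.intro a2 fun x hx => if_neg hx), fun _ _ _ _ x hx =>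
      (if_neg hx).trans (if_neg hx).symm⟩), fun _ y x => ?_⟩
  by_cases hx : x ∈ C
  · refine (if_pos hx).trans ?_
    rw [tm _ y.ht x (a3 hx), ((a7 _ y.ht _).2.2.2 x (a3 hx)).2]
    rfl
  · refine (if_neg hx).trans ?_
    rw [z _ y.ht x hx, zero_smul]

/-! ### fixed necks -/

variable (K) in
/-- over `O` the necks do not move; the slope of the weight is less than `δ` -/
structure Fx (O : Set T) (ψ : M → ℝ) (δ : ℝ) : Prop where
  act : ∀ t ∈ O, p t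
  wt : WtP 𝔉.G0.F.toPre 𝔉.F0.toPre ψ
  ex : ∃ (K0 : Nk DY 𝔉.B 𝔉.G0) (d C : ℝ), 0 ≤ d ∧ d < δ ∧ (∀ t ∈ O, ∀ h, Same (K t h) K0) ∧
    ∀ x ∈ K0.dp (1 / 2), ∀ z ∈ K0.dp (1 / 2), ψ x - ψ z ≤ C + d * |K0.tm x - K0.tm z|

variable {δ : ℝ}

theorem Fx.mono (h : Fx K O ψ δ) {O' : Set T} (e : O' ⊆ O) : Fx K O' ψ δ :=
  let ⟨K0, d, C, a, b, c, f⟩ := h.ex
  ⟨fun t k => h.act t (e k), h.wt, K0, d, C, a, b, fun t k => c t (e k), f⟩

theorem Fx.sep (h : Fx K O ψ δ) : SepK K O := fun f f' hs => by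
  obtain ⟨K0, -, -, -, -, c, -⟩ := h.ex
  obtain ⟨C, hC⟩ := Nka63.sep_unif (D := DY) hs
  obtain ⟨φ, h1, h2, h3⟩ := hC K0
  exact ⟨φ, h.wt.Cb.2 ⟨C, h1⟩, fun t ht k x => by
    rw [(c t ht k).ext, (c t ht k).ext]; exact ⟨h2 x, h3 x⟩⟩

theorem Fx.nh (h : Fx K 𝔉.Q ψ δ) (H : 𝔉.OK) {hk : 3 ≤ k} {y₀ : Pnt o r} {j : ℕ} (hj : 4 ≤ j) :
    NH (kd K H hk y₀ h.act) δ j :=
  let ⟨K0, d, C, a, b, c, f⟩ := h.ex
  NE.nh (G0 := fun _ => 𝔉.G0) (K0 := fun _ => K0) ⟨fun _ => H.e0, fun _ y => c _ y.ht _,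
    fun _ => ψ, δ - d, C, sub_pos.2 b, sub_le_self _ a, fun _ => ⟨h.wt.sm.continuous, h.wt.μ,
      by simpa only [sub_sub_cancel] using f⟩⟩ hj

/-! ### the terms in the local calculus -/

section loc
variable {ι : Type} [Fintype ι] {𝔉 : Fam I M ι lam T} {o : Ref 𝔉} {h : 𝔉.OK}
  {u : Pnt o r → Vl o n m} {t : T}

/-- `La` at one parameter -/
def LaAt (h : 𝔉.OK) (ε : Prop) (u : Pnt o r → Vl o n m) (t : T) : Prop :=
  ∀ᶠ Q' in (𝓝 t).smallSets, ∀ (hQ : IsOpen Q') k (hk : 3 ≤ k), 7 ≤ k →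
    ∀ y₀ : Pnt (rres o Q') r, Ca (ok_res h hQ) ε hk y₀ fun y => u (up y)

theorem vl_dq {τ : ∀ t, p t → PtX M ι lam r n m} {y : Pnt o r} (h : ¬p y.t) : vl (dq p τ) y = 0 := by
  rw [vl, dq, dif_neg h]; rfl

theorem la_par {ν : T → ℝ} (hν : ContDiffOn ℝ ∞ ν 𝔉.Q) {τ : ∀ t, p t → PtX M ι lam r n m}
    (H : ∀ t ∈ 𝔉.Q, (∀ᶠ s in 𝓝 t, s ∈ 𝔉.Q → p s → ν s = 0) ∨ LaAt h True (vl (o := o) (dq p τ)) t) :
    La h ε fun y : Pnt o r => ν y.t • vl (dq p τ) y := fun t ht => (H t ht).elim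
  (fun a => (eventually_smallSets_forall.2 a).mono fun _ b _ _ _ _ _ => Ca.zero.congr fun y => by
    by_cases e : p y.t
    · exact smul_eq_zero_of_left (b _ y.ht.2 y.ht.1 e) _
    · exact smul_eq_zero_of_right _ (vl_dq (y := up y) e))
  fun a => a.mono fun _ b hQ k hk h7 y₀ => (b hQ k hk h7 y₀).par (hν.mono inter_subset_left)

theorem Ca.dq {hk : 3 ≤ k} {y₀ : Pnt o r} {τ : ∀ t, p t → Pt M ι lam r n} (hp : ∀ t ∈ 𝔉.Q, p t)
    (hD : (dm h hk y₀).A0 ε (k + 1) (V := o.m.V) fun _ y => (τ y.t (hp _ y.ht)).D y.cfg)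
    (hC : (dm h hk y₀).A0 ε (k + 1) (V := Fm (ι × ι) o.m.A) fun _ y => (τ y.t (hp _ y.ht)).C y.cfg)
    (hS : ∀ t h c i, (τ t h).S c i = 0) :
    Ca h ε hk y₀ (vl (Mon62.dq p fun t h => px m (τ t h))) :=
  Ca.congr (u := fun y => ((τ y.t (hp _ y.ht)).D y.cfg, (τ y.t (hp _ y.ht)).C y.cfg, 0))
    ⟨hD, hC, Sc.const 0⟩ fun y => by
      rw [vl, Mon62.dq, dif_pos (hp _ y.ht)]
      exact Prod.ext rfl (Prod.ext rfl (Prod.ext (funext (hS _ _ _)) rfl))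

theorem ub_pp (h : 𝔉.OK) {hk : 3 ≤ k} {y₀ : Pnt o r} :
    UB (dm h hk y₀).P ((mf o).pp fun _ => 𝔉.B) := ub_of_finite fun _ => (dat_ref h o).pp

theorem ub_pm (h : 𝔉.OK) {hk : 3 ≤ k} {y₀ : Pnt o r} :
    UB (dm h hk y₀).P ((mf o).pm fun _ => 𝔉.B) := ub_of_finite fun _ => (dat_ref h o).pm

theorem ub_p2 (h : 𝔉.OK) {hk : 3 ≤ k} {y₀ : Pnt o r} :
    UB (dm h hk y₀).P ((mf o).p2 fun _ => 𝔉.B) :=
  ub_of_finite fun _ => (dat_ref h o).p2 h.B (Std94.pmx o.ok)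

end loc

variable [o.B0] (H : Hy o) {t : T} (hO : O ∈ 𝓝 t)
include H

section ca
variable (hk7 : 7 ≤ k) {hk : 3 ≤ k} (y₀ : Pnt o r)
include hk7

theorem Mv.ca1 (h : Mv K 𝔉.Q) (SM : SmStmt I M (Option κ) lam) (W : Wf 𝔉 F1 ψ) (L : Lg 𝔉 F1)
    (hN : N.OK DY) : Ca H.ok True hk y₀ (vl (Q1 n m K N)) :=
  have c := H.cfOK hk7 (hk := hk) y₀
  let ⟨_, _, f⟩ := h.nf H.ok (hk := hk) (y₀ := y₀)
  have a := f.nh (δ := N.δ) c.F c.h4
  have b := nc_dm SM H W L hk7 a h.sep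
  Ca.dq h.act (a.q1D c hN b (ub_pp H.ok) (f.dτ c.h4)) (a.q1C c hN b (ub_p2 H.ok) (f.dτ c.h4))
    fun _ _ _ _ => rfl

theorem Mv.ca2 (h : Mv K 𝔉.Q) (hy : ∀ i, Sm I3 (N.y i)) {w : YT Y} (hw : w.OK I3) :
    Ca H.ok True hk y₀ (vl (Q2 n m K N w)) :=
  have c := H.cfOK hk7 (hk := hk) y₀
  let ⟨_, _, f⟩ := h.nf H.ok (hk := hk) (y₀ := y₀)
  have a := f.nh (δ := N.δ) c.F c.h4
  Ca.dq h.act (a.q2D c hy hw (ub_pm H.ok) (f.oc c hy hw)) (a.q2C c hy hw (ub_p2 H.ok) (f.oc c hy hw))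
    fun _ _ _ _ => rfl

theorem Fx.ca1 (h : Fx K 𝔉.Q ψ N.δ) (SM : SmStmt I M (Option κ) lam) {ψ' : M → ℝ}
    (W : Wf 𝔉 F1 ψ') (L : Lg 𝔉 F1) (hN : N.OK DY) : Ca H.ok False hk y₀ (vl (Q1 n m K N)) :=
  have c := H.cfOK hk7 (hk := hk) y₀
  have a := h.nh H.ok (hk := hk) (y₀ := y₀) c.h4
  have b := nc_dm SM H W L hk7 a h.sep
  Ca.dq h.act (a.q1D c hN b (ub_pp H.ok) a.dτ) (a.q1C c hN b (ub_p2 H.ok) a.dτ) fun _ _ _ _ => rfl

omit [o.B0] H hk7 in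
/-- the configuration is stationary outside a compact set -/
def Stat (y : Pnt o r) : Prop := ∃ C, IsCompact C ∧ ∀ x ∉ C,
  (∀ e, o.m.Fg (𝔉.G y.t).F y.cfg.W x (none, e) = 0) ∧
    nab I (𝔉.G y.t).F.e y.cfg.W none y.cfg.Φ x = 0

/-- the time derivative decays -/
theorem Fx.dot (h : Fx K 𝔉.Q ψ N.δ) {y₁ : Pnt o r} (hs : Stat y₁) :
    (dm H.ok hk y₀).A0 True k (V := Fm (Option κ) o.m.A) (fun _ y x => (K y.t (h.act _ y.ht)).χ4 x •
      Dgr80.xA (𝔉.G y.t).F y.cfg (K y.t (h.act _ y.ht)).τ x) ∧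
    (dm H.ok hk y₀).A0 True k (V := o.m.V) fun _ y x => (K y.t (h.act _ y.ht)).χ4 x •
      Dgr80.xP (𝔉.G y.t).F y.cfg (K y.t (h.act _ y.ht)).τ x := by
  have c := H.cfOK hk7 (hk := hk) y₀
  have a := h.nh H.ok (hk := hk) (y₀ := y₀) c.h4
  obtain ⟨C, c1, c2⟩ := hs
  have e : ∀ {V : Type} [NormedAddCommGroup V] [InnerProductSpace ℝ V] [CompleteSpace V]
      {w : Unit → Pnt o r → M → V}, (dm H.ok hk y₀).A0 False k w → (∀ x ∉ C, w () y₁ x = 0) →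
      (dm H.ok hk y₀).A0 True k w := fun hw h0 =>
    let ⟨δ, _, d⟩ := (A0.of_cs (D := dm H.ok hk y₀) (ε := True) (j := k) (by omega)
      (fun i => hw.sz.sm i y₁) fun _ => HasCompactSupport.intro c1 h0).pure
    hw.pure_of_pt (fun _ => y₁) (fun i => δ i (y₁.pt k)) fun i => (d i y₁).symm
  refine ⟨e (a.xA c rfl) fun x hx => smul_eq_zero_of_right _ (PiLp.ext fun b => ?_),
    e (a.xP c rfl) fun x hx => smul_eq_zero_of_right _ ?_⟩
  · refine Finset.sum_eq_zero fun j _ => ?_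
    cases j with
    | none => exact smul_eq_zero_of_right _ ((c2 x hx).1 b)
    | some j => exact smul_eq_zero_of_left (congrFun ((K _ _).D_τ_some j) x) _
  · refine Finset.sum_eq_zero fun j _ => ?_
    cases j with
    | none => exact smul_eq_zero_of_right _ (c2 x hx).2
    | some j => exact smul_eq_zero_of_left (congrFun ((K _ _).D_τ_some j) x) _

theorem Fx.ca2 (h : Fx K 𝔉.Q ψ N.δ) {y₁ : Pnt o r} (hs : Stat y₁) (hy : ∀ i, Sm I3 (N.y i))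
    {w : YT Y} (hw : w.OK I3) : Ca H.ok True hk y₀ (vl (Q2 n m K N w)) :=
  have c := H.cfOK hk7 (hk := hk) y₀
  have a := h.nh H.ok (hk := hk) (y₀ := y₀) c.h4
  have d := h.dot H hk7 (hk := hk) y₀ hs
  have b := a.oc_pure c hy hw ((a.ew' c hy rfl d.1 d.2).lower le_rfl (by omega))
  Ca.dq h.act (a.q2D c hy hw (ub_pm H.ok) b) (a.q2C c hy hw (ub_p2 H.ok) b) fun _ _ _ _ => rfl

end ca

include hO

theorem Mv.la1 (h : Mv K O) (SM : SmStmt I M (Option κ) lam) (W : Wf 𝔉 F1 ψ) (hN : N.OK DY)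
    (ht : t ∈ 𝔉.Q) : LaAt H.ok True (vl (o := o) (Q1 (r := r) n m K N)) t :=
  ((eventually_smallSets_subset.2 hO).and (W.lg H.ok ht)).mono fun Q' a hQ _ _ h7 y₀ =>
    Mv.ca1 (𝔉 := res 𝔉 Q') (H.res hQ) h7 y₀ (h.mono (inter_subset_right.trans a.1)) SM W.res a.2 hN

theorem Mv.la2 (h : Mv K O) (hy : ∀ i, Sm I3 (N.y i)) {w : YT Y} (hw : w.OK I3) :
    LaAt H.ok True (vl (o := o) (Q2 (r := r) n m K N w)) t :=
  (eventually_smallSets_subset.2 hO).mono fun Q' a hQ _ _ h7 y₀ =>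
    Mv.ca2 (𝔉 := res 𝔉 Q') (H.res hQ) h7 y₀ (h.mono (inter_subset_right.trans a)) hy hw

theorem Fx.la1 (h : Fx K O ψ N.δ) (SM : SmStmt I M (Option κ) lam) {ψ' : M → ℝ} (W : Wf 𝔉 F1 ψ')
    (hN : N.OK DY) (ht : t ∈ 𝔉.Q) : LaAt H.ok False (vl (o := o) (Q1 (r := r) n m K N)) t :=
  ((eventually_smallSets_subset.2 hO).and (W.lg H.ok ht)).mono fun Q' a hQ _ _ h7 y₀ =>
    have b := h.mono (inter_subset_right.trans a.1 : 𝔉.Q ∩ Q' ⊆ O)
    Fx.ca1 (𝔉 := res 𝔉 Q') (H.res hQ) h7 y₀ ⟨b.act, b.wt, b.ex⟩ SM W.res a.2 hN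

theorem Fx.la2 (h : Fx K O ψ N.δ) (hs : ∀ s ∈ 𝔉.Q, ∃ y : Pnt o r, y.t = s ∧ Stat y)
    (hy : ∀ i, Sm I3 (N.y i)) {w : YT Y} (hw : w.OK I3) :
    LaAt H.ok True (vl (o := o) (Q2 (r := r) n m K N w)) t :=
  (eventually_smallSets_subset.2 hO).mono fun Q' a hQ _ _ h7 y₀ =>
    have b := h.mono (inter_subset_right.trans a : 𝔉.Q ∩ Q' ⊆ O)
    let ⟨y, c, d⟩ := hs _ y₀.ht.1
    Fx.ca2 (𝔉 := res 𝔉 Q') (H.res hQ) h7 y₀ ⟨b.act, b.wt, b.ex⟩ (y₁ := dn y (c ▸ y₀.ht.2)) d hy hw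

omit hO

/-! ### terms which are switched on -/

section sw
variable (K) (ν : T → ℝ) (q : YW I3 Y →₀ ℝ)
omit [o.B0] H

variable (n m N) in
/-- the gradient term with the factor `ν` -/
def S1 : T → PtX M (Option κ) lam r n m := dq p fun t h => px m ((N.smul (ν t)).q1 (K t h))

variable (n m N) in
/-- the non-gradient terms with the coefficients `ν • q` -/
def S2 : T → PtX M (Option κ) lam r n m :=
  dq p fun t h => px m (fsum (fun w : YW I3 Y => N.q2 (K t h) w.1) (ν t • q))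

theorem vl_S1 (h : 𝔉.OK) (hN : ContDiff ℝ ∞ N.φ) (y : Pnt o r) :
    vl (S1 n m K N ν) y = ν y.t • vl (Q1 n m K N) y := by
  by_cases e : p y.t
  · have := q1_smul (n := n) (K _ e) (Mp86.bumps_of_tame _ (h.tameG _ y.ht).choose_spec)
      (y.ad0 h).conn hN (ν y.t)
    rw [vl, vl, S1, Q1, dq, dq, dif_pos e, dif_pos e]
    exact Prod.ext (funext fun x => (this x).1) (Prod.ext (funext fun x => (this x).2)
      (smul_zero _).symm)
  · exact (vl_dq e).trans (smul_eq_zero_of_right _ (vl_dq e)).symm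

theorem S2_eq (t : T) : S2 (r := r) n m K N ν q t = ∑ w ∈ q.support, q w • ν t • Q2 n m K N w.1 t := by
  by_cases e : p t
  · simp only [S2, Q2, dq, dif_pos e]
    refine PtX.eqv.injective (funext fun c => ?_)
    have k : ∀ {V : Type} [AddCommGroup V] [Module ℝ V] (f : YW I3 Y → V),
        ((ν t • q).sum fun w a => a • f w) = ∑ w ∈ q.support, q w • ν t • f w := fun f => by
      rw [Finsupp.sum_smul_index' (h := fun w (a : ℝ) => a • f w) fun _ => zero_smul _ _]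
      simp only [Finsupp.sum, smul_eq_mul, mul_smul, smul_comm (ν t)]
    refine Eq.trans ?_ (congrFun (map_sum PtX.eqv.addEquiv _ _) c).symm
    rw [Finset.sum_apply]
    refine Prod.ext (funext fun x => ?_) (Prod.ext (funext fun x => ?_) (Prod.ext (funext fun i => ?_) ?_))
    · rw [Prod.fst_sum, Finset.sum_apply]; exact k _
    · rw [Prod.snd_sum, Prod.fst_sum, Finset.sum_apply]; exact k _
    · rw [Prod.snd_sum, Prod.snd_sum, Prod.fst_sum, Finset.sum_apply]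
      exact (Finset.sum_eq_zero fun _ _ => mul_zero _).trans
        (Finset.sum_eq_zero fun w _ => show q w • ν t • (0 : ℂ) = 0 by simp).symm
    · rw [Prod.snd_sum, Prod.snd_sum, Prod.snd_sum]
      exact (Finset.sum_eq_zero fun _ _ => (smul_smul _ _ _).trans (smul_zero _)).symm
  · simp only [S2, Q2, dq, dif_neg e, smul_zero, Finset.sum_const_zero]

theorem pj_S1 (h : 𝔉.OK) : Pj o (S1 (r := r) n m K N ν) :=
  Pj.dq (fun y e x => by simpa only [Q1, dq, dif_pos e] using (pj_Q1 K (N := N.smul (ν y.t)) h).D y x)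
    fun y e x => by simpa only [Q1, dq, dif_pos e] using (pj_Q1 K (N := N.smul (ν y.t)) h).C y x

theorem S2_eq' : S2 (r := r) n m K N ν q = ∑ w ∈ q.support, q w • fun t => ν t • Q2 n m K N w.1 t :=
  funext fun t => by rw [S2_eq, Finset.sum_apply]; rfl

theorem pj_S2 (h : 𝔉.OK) : Pj o (S2 (r := r) n m K N ν q) :=
  S2_eq' K ν q ▸ Pj.sum _ fun w _ => ((pj_Q2 K h w.1).par ν).par fun _ => q w

end sw

variable {ν : T → ℝ}

/-- **Moving compact necks: the gradient term.** -/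
theorem Hy.laS1 (SM : SmStmt I M (Option κ) lam) (W : Wf 𝔉 F1 ψ) (hN : N.OK DY)
    (hν : ContDiffOn ℝ ∞ ν 𝔉.Q)
    (hM : ∀ t ∈ 𝔉.Q, (∀ᶠ s in 𝓝 t, s ∈ 𝔉.Q → p s → ν s = 0) ∨ ∃ O ∈ 𝓝 t, Mv K O) :
    La H.ok ε (vl (o := o) (S1 (r := r) n m K N ν)) :=
  (la_par hν fun t ht => (hM t ht).imp_right fun ⟨_, a, b⟩ => b.la1 H a SM W hN ht).congr
    (vl_S1 K ν H.ok hN.sm)

/-- **Ends: the gradient term.** -/
theorem Hy.laS1' (SM : SmStmt I M (Option κ) lam) (W : Wf 𝔉 F1 ψ) (hN : N.OK DY) {c : ℝ}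
    (hν : ∀ t ∈ 𝔉.Q, ν t = c) {ψ' : M → ℝ} (hM : Fx K 𝔉.Q ψ' N.δ) :
    La H.ok False (vl (o := o) (S1 (r := r) n m K N ν)) :=
  (La.smul c fun t ht => hM.la1 H (H.ok.opn.mem_nhds ht) SM W hN ht).congr fun y => by
    rw [vl_S1 K ν H.ok hN.sm, hν _ y.ht]

/-- **The non-gradient terms.** -/
theorem Hy.laS2 (hy : ∀ i, Sm I3 (N.y i)) (hν : ContDiffOn ℝ ∞ ν 𝔉.Q) (q : YW I3 Y →₀ ℝ)
    (hM : ∀ t ∈ 𝔉.Q, (∀ᶠ s in 𝓝 t, s ∈ 𝔉.Q → p s → ν s = 0) ∨ (∃ O ∈ 𝓝 t, Mv K O) ∨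
      (∃ O ∈ 𝓝 t, Fx K O ψ N.δ) ∧ ∀ s ∈ 𝔉.Q, ∃ y : Pnt o r, y.t = s ∧ Stat y) :
    La H.ok ε (vl (o := o) (S2 (r := r) n m K N ν q)) :=
  S2_eq' K ν q ▸ La.vsum _ fun w _ => La.smul (q w) (la_par hν fun t ht => (hM t ht).imp_right
    fun a => a.elim (fun ⟨_, a, b⟩ => b.la2 H a hy w.2) fun ⟨⟨_, a, b⟩, c⟩ => b.la2 H a c hy w.2)

end Crest.Agent.X212.Mon62
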