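import Crest.Agent.X212.Mon62.NkJ
import Crest.Agent.X212.Nk89.Geo

/-! # Row 212, NK-SM: manifolds with ends -/

set_option autoImplicit false
set_option linter.unusedSectionVars false
set_option maxSynthPendingDepth 3
noncomputable section
open scoped Manifold ContDiff Topology InnerProductSpace
open MeasureTheory Set Function Filter

namespace Crest.Agent.X212.Mon62
open An Sob92 Prm93 Wz78 Mod61 Dm Nd18 Cyf70
open Cyc79 (Wu mS)
open Mp86 (Lop)
open Nk89 (wm WtP End Ends wt pt0)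

/-- a function with small derivatives which vanishes up to `L` and has slope one far out -/
theorem exists_ramp (L : ℝ) : ∃ g : ℝ → ℝ, ContDiff ℝ ∞ g ∧ (∀ u ≤ L, g u = 0) ∧ (∀ u, 0 ≤ g u) ∧
    (∀ u, |deriv g u| ≤ 1) ∧ (∀ u, deriv (deriv g) u ≤ 1) ∧ ∃ c b, ∀ u, b ≤ u → g u = u - c := by
  have m0 : 0 < mS := one_pos.trans_le Cyc79.one_le_mS
  have c : ContDiff ℝ ∞ fun u => Real.smoothTransition ((u - L) / mS) :=
    Real.smoothTransition.contDiff.comp (by fun_prop)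
  have d : ∀ u, HasDerivAt (fun u => ∫ s in L..u, Real.smoothTransition ((s - L) / mS))
      (Real.smoothTransition ((u - L) / mS)) u := fun u =>
    (c.continuous.integral_hasStrictDerivAt L u).hasDerivAt
  have e := funext fun u => (d u).deriv
  have z : ∀ u ≤ L, ∫ s in L..u, Real.smoothTransition ((s - L) / mS) = 0 := fun u hu =>
    (intervalIntegral.integral_congr (g := fun _ => 0) fun s hs =>
      Real.smoothTransition.zero_of_nonpos (div_nonpos_of_nonpos_of_nonneg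
        (sub_nonpos.2 ((uIcc_of_ge hu).le hs).2) m0.le)).trans intervalIntegral.integral_zero
  refine ⟨_, contDiff_infty_iff_deriv.2 ⟨fun u => (d u).differentiableAt, by rwa [show deriv _ = _ from e]⟩,
    z, fun u => (le_total u L).elim (fun k => (z u k).ge) fun k =>
      intervalIntegral.integral_nonneg k fun _ _ => Real.smoothTransition.nonneg _, fun u => ?_,
    fun u => ?_, L + mS - ∫ s in L..L + mS, Real.smoothTransition ((s - L) / mS), L + mS, fun u hu => ?_⟩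
  · rw [(d u).deriv, abs_of_nonneg (Real.smoothTransition.nonneg _)]
    exact Real.smoothTransition.le_one _
  · have := ((Real.smoothTransition.contDiff (n := 1)).differentiable one_ne_zero _).hasDerivAt.comp u
      (((hasDerivAt_id u).sub_const L).div_const mS)
    rw [show deriv _ = _ from e]
    refine this.deriv.trans_le ?_
    rw [mul_one_div, div_le_one m0]
    exact (le_abs_self _).trans (Cyc79.exists_st.choose_spec.2 _).1
  · rw [← intervalIntegral.integral_add_adjacent_intervals (b := L + mS)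
      (c.continuous.intervalIntegrable _ _) (c.continuous.intervalIntegrable _ _),
      intervalIntegral.integral_congr (a := L + mS) (g := fun _ => 1) fun s hs =>
        Real.smoothTransition.one_of_one_le (by
          rw [one_le_div m0]; linarith [((uIcc_of_le hu).le hs).1])]
    simp only [intervalIntegral.integral_const, smul_eq_mul]
    ring

variable {E : Type} [NormedAddCommGroup E] [NormedSpace ℝ E] [FiniteDimensional ℝ E]
  [MeasurableSpace E] [BorelSpace E]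
  {HM : Type} [TopologicalSpace HM] {I : ModelWithCorners ℝ E HM} [I.Boundaryless]
  {M : Type} [TopologicalSpace M] [ChartedSpace HM M] [IsManifold I ∞ M]
  [MeasurableSpace M] [T2Space M] [BorelSpace M] [SecondCountableTopology M]
  {κ lam : Type} [Fintype κ] [Fintype lam] {T : Type} [NormedAddCommGroup T] [NormedSpace ℝ T]
  {𝔉 : Fam I M (Option κ) lam T} {δ R : ℝ} {ψ : M → ℝ} {t : T} {o : Ref 𝔉} {r n m : ℕ}

section one
variable {P : End 𝔉} (h : P.OK ψ δ R) (k : 𝔉.OK) (ht : t ∈ 𝔉.Q) {z : P.Y.M × ℝ} (hz : z ∈ P.H R)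
include h k ht hz

/-- functions of the time on an end -/
theorem end_fn {f : M → ℝ} {φ : ℝ → ℝ} (hφ : ContDiff ℝ ∞ φ)
    (e : ∀ y ∈ P.H R, f (P.K.ψ y) = φ y.2) :
    ∑ a, (𝔉.G t).F.D a f (P.K.ψ z) ^ 2 = deriv φ z.2 ^ 2 ∧
      Lop I (𝔉.G t).F.e (𝔉.G t).F.dv f (P.K.ψ z) = deriv (deriv φ) z.2 := by
  have F := (h.gRel k ht).fr
  have e' : ∀ᶠ y in 𝓝 z, φ y.2 = f (P.K.ψ y) :=
    ((P.isOpen_H R).eventually_mem hz).mono fun y hy => (e y hy).symm
  have d1 := D_none_snd P.D.F.toPre hφ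
  have d2 := D_some_snd P.D.F.toPre hφ
  have h1 : ∀ a, (𝔉.G t).F.D a f (P.K.ψ z) = (cylP P.D.F.toPre).D a (fun y => φ y.2) z :=
    fun a => (F.D hz a e').symm
  have h2 : ∀ a, (𝔉.G t).F.D a ((𝔉.G t).F.D a f) (P.K.ψ z) =
      (cylP P.D.F.toPre).D a ((cylP P.D.F.toPre).D a fun y => φ y.2) z :=
    fun a => (F.D hz a (F.D_ev hz a e')).symm
  refine ⟨by simp [h1, d1, d2], ?_⟩
  have h3 : (𝔉.G t).F.dv none (P.K.ψ z) = 0 := (F.dv hz h.D.G.vol (k.G t ht).vol none).symm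
  simp only [Lop, ← Pre.D_def, h1, h2, Fintype.sum_option, d1, d2, h3,
    D_none_snd _ (contDiff_infty_iff_deriv.1 hφ).2]
  simp [Pre.D_def, dv_zero]

/-- literal references are stationary -/
theorem end_stat {c : ℝ} (hc : R ≤ c) (l : P.Lit o c) (hz' : z ∈ P.H c) :
    (∀ e, o.m.Fg (𝔉.G t).F (o.W t 0) (P.K.ψ z) (none, e) = 0) ∧
      nab I (𝔉.G t).F.e (o.W t 0) none (o.Φ0 + 0) (P.K.ψ z) = 0 := by
  have F := (h.gRel k ht).fr
  have a := l.adm k h hc ht
  have ev := ((P.isOpen_H c).eventually_mem hz').mono fun y hy => l.at ht hy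
  have w0 : (fun y : P.Y.M × ℝ => (P.sl o (c + 1) t).W none y.1) = fun _ => 0 :=
    funext fun y => a.tmp y.1
  refine ⟨fun e => ?_, ?_⟩
  · have h1 := F.curv hz (A := fun a y => (P.sl o (c + 1) t).W a y.1)
      (fun a => ev.mono fun y hy => (hy.2.2.2.1 a).symm) none e
    have h2 : curv (IC P.Y.I) P.D.G.F.e P.D.G.F.c (fun a y => (P.sl o (c + 1) t).W a y.1) none e z = 0 := by
      have := congrFun (D_none_fst P.D.F.toPre (sm_slice_fst (a.adm.conn.cc.sm e) 0)) z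
      have w1 : o.W t 0 none (P.pt (c + 1) z.1) = 0 := a.tmp z.1
      simp only [curv, w0, dv_const, w1, show ∀ b l, P.D.G.F.c none b l z = 0 from fun _ _ => rfl,
        zero_mul, mul_zero, sub_zero, add_zero, zero_smul, Finset.sum_const_zero, Pi.zero_apply]
      exact this
    simp [Md.Fg, ← h1, h2]
  · rw [add_zero, ← F.nab hz (A := fun a y => (P.sl o (c + 1) t).W a y.1) none
      ((l.at ht hz').2.2.2.1 _).symm (ev.mono fun y hy => hy.2.2.2.2.symm), nab, a.tmp,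
      _root_.zero_apply, add_zero]
    exact congrFun (D_none_fst P.D.F.toPre (sm_slice_fst a.adm.sm 0)) z

omit k ht hz in
/-- the slope of the weight on an end which is bounded in the other direction -/
theorem end_slope (hψ : Continuous ψ) (h0 : 0 ≤ δ) {b : ℝ} (hb : ∀ s ∈ P.K.J, b ≤ P.sg * s) :
    ∃ C, ∀ x ∈ P.K.dp (1 / 2), ∀ y ∈ P.K.dp (1 / 2), ψ x - ψ y ≤ C + δ * |P.K.tm x - P.K.tm y| := by
  have c1 : IsCompact ({s | P.sg * s ∈ Icc b R} ∩ Dp P.K.p P.K.q (1 / 2)) := by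
    refine IsCompact.inter_right ((isCompact_Icc.image (continuous_const_mul P.sg)).of_isClosed_subset
      (isClosed_Icc.preimage (continuous_const_mul _)) fun s hs => ⟨_, hs, P.sg_sg s⟩) isClosed_Dp
  have c2 := (isCompact_univ.prod c1).image_of_continuousOn (P.K.ψ.continuousOn.mono
    fun z hz => P.K.mem_src.2 (Dp_sub one_half_pos hz.2.2))
  obtain ⟨C, hC⟩ := c2.exists_bound_of_continuousOn
    (hψ.sub (continuous_const (y := δ) |>.mul P.cont_ht)).continuousOn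
  have key : ∀ x ∈ P.K.dp (1 / 2), |ψ x - δ * (P.sg * P.K.tm x)| ≤ |C| := fun x hx => by
    have hx' := P.K.dp_sub one_half_pos hx
    by_cases e : R < P.sg * P.K.tm x
    · rw [h.wt x ⟨hx', e⟩, sub_self, abs_zero]; exact abs_nonneg _
    · refine (hC x ⟨_, ⟨trivial, ?_⟩, P.K.ψ.right_inv hx'⟩).trans (le_abs_self _)
      rw [P.K.snd_symm hx']
      exact ⟨⟨hb _ (Dp_sub one_half_pos hx), not_lt.1 e⟩, hx⟩
  refine ⟨2 * |C|, fun x hx y hy => ?_⟩
  have : P.sg * (P.K.tm x - P.K.tm y) ≤ |P.K.tm x - P.K.tm y| := by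
    rcases P.sg_cases with e | e <;> rw [e]
    exacts [(one_mul _).trans_le (le_abs_self _), (neg_one_mul _).trans_le (neg_le_abs _)]
  nlinarith [abs_le.1 (key x hx), abs_le.1 (key y hy), mul_le_mul_of_nonneg_left this h0]

end one

section ends
variable (X : Ends 𝔉 δ)

include X in
theorem ends_μ : ∃ K, IsCompact K ∧ ∀ t ∈ 𝔉.Q,
    (𝔉.G t).F.μ.restrict Kᶜ = 𝔉.G0.F.μ.restrict Kᶜ :=
  ⟨_, X.cov, fun t ht => by
    rw [compl_compl]; exact Measure.restrict_iUnion_congr.2 fun a => (X.okP a).μ t ht⟩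

/-- a weight which vanishes on the core -/
theorem ends_wt : ∃ ψ' : M → ℝ, Sm I ψ' ∧ (∀ x, 0 ≤ ψ' x) ∧ (∃ C, ∀ x, |ψ' x - X.ψ x| ≤ C) ∧
    ∀ t ∈ 𝔉.Q, (∀ a, (𝔉.G t).F.Cb ((𝔉.G t).F.D a ψ')) ∧ ∀ x,
      ∑ a, (𝔉.G t).F.D a ψ' x ^ 2 ≤ 1 / 4 ∧ ∑ a, (𝔉.G t).F.D a ψ' x ^ 2 ≤ δ ^ 2 ∧
        Lop I (𝔉.G t).F.e (𝔉.G t).F.dv ψ' x ≤ δ ^ 2 := by
  have sψ := X.wt.sm
  obtain ⟨L, hL⟩ := X.cov.bddAbove_image sψ.continuous.continuousOn
  obtain ⟨g, g1, g2, g3, g4, g5, c, b, g6⟩ := exists_ramp (L + 1)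
  have s1 : Sm I fun x => g (X.ψ x) := g1.contMDiff.comp sψ
  have s2 : Sm I fun x => g (X.ψ x) - X.ψ x + c := (s1.sub sψ).add contMDiff_const
  have c2 : HasCompactSupport fun x => g (X.ψ x) - X.ψ x + c :=
    X.hcs (max X.R (b / δ)) fun a x hx => by
      have := (div_lt_iff₀' X.δ0).1 ((le_max_right _ _).trans_lt hx.2)
      rw [g6 _ (this.le.trans ((X.okP a).wt x ((X.P a).U_mono (le_max_left _ _) hx)).ge)]; ring
  obtain ⟨C, hC⟩ := c2.exists_bound_of_continuous s2.continuous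
  refine ⟨_, s1, fun _ => g3 _, ⟨C + |c|, fun x => ?_⟩, fun t ht => ⟨fun a => ?_, fun x => ?_⟩⟩
  · rw [show g (X.ψ x) - X.ψ x = g (X.ψ x) - X.ψ x + c - c by ring]
    exact (abs_sub _ _).trans (add_le_add_left (hC x) _)
  · have m := X.ok.mix t ht
    have cS := fun a b => (X.ok.sS a b).cb t ht
    have e : (𝔉.G t).F.D a (fun x => g (X.ψ x)) = fun x => (𝔉.G t).F.D a
        (fun x => g (X.ψ x) - X.ψ x + c) x + ∑ b, 𝔉.S t x a b • 𝔉.F0.D b X.ψ x := funext fun x => by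
      refine (congrArg ((𝔉.G t).F.D a · x) (show _ = fun x => (g (X.ψ x) - X.ψ x + c) +
        (X.ψ x + -c) from funext fun y => by ring)).trans ((dv_add' (s2 x)
          (sψ.add contMDiff_const x)).trans (congrArg _ ((dv_add' (sψ x) contMDiffAt_const).trans ?_)))
      rw [dv_const, Pi.zero_apply, add_zero]
      exact congrFun (m.D a X.ψ) x
    rw [e]
    exact Cb_add (Cb_of_hcs ((𝔉.G t).F.sm_D s2 a) ((𝔉.G t).F.hcs_D c2 a)) (m.Cb cS (Cb_sum _
      fun b _ => Cb_smul (cS a b) (X.wt.toWtP.Cb.2 (X.wt.toWtP.D b X.ψ ▸ X.dψ b))))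
  by_cases hx : x ∈ ⋃ a, (X.P a).U X.R
  · obtain ⟨a, ha⟩ := mem_iUnion.1 hx
    have h := X.okP a
    obtain ⟨z, hz, rfl⟩ := h.exists_ψ ha
    have e : ∀ y ∈ (X.P a).H X.R, X.ψ ((X.P a).K.ψ y) = δ * (X.P a).sg * y.2 := fun y hy => by
      rw [h.wt _ (h.ψ_mem le_rfl hy), h.tm hy.le, mul_assoc]
    have q : (δ * (X.P a).sg) ^ 2 = δ ^ 2 := by rw [mul_pow, sq (X.P a).sg, End.sg_sq, mul_one]
    have d : ∀ {f : ℝ → ℝ}, ContDiff ℝ ∞ f → deriv (fun s => f (δ * (X.P a).sg * s)) =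
        fun s => δ * (X.P a).sg * deriv f (δ * (X.P a).sg * s) := fun hf => funext fun s =>
      deriv_comp_mul_left _ _ _
    obtain ⟨h1, h2⟩ := end_fn h X.ok ht hz (f := fun x => g (X.ψ x))
      (φ := fun s => g (δ * (X.P a).sg * s)) (g1.comp (by fun_prop)) fun y hy => by rw [e y hy]
    have h3 := (end_fn h X.ok ht hz (φ := fun s => δ * (X.P a).sg * s) (by fun_prop) e).1
    have h4 := X.sml ((X.P a).K.ψ z)
    simp only [Pre.D_def, Met55.dv_vcongr (h.G_e X.ok ht ha _).symm] at h4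
    rw [show deriv (fun s => δ * (X.P a).sg * s) = _ from d (f := id) contDiff_id] at h3
    simp only [Pre.D_def, deriv_id, mul_one, q] at h3
    have h5 : ∑ i, (𝔉.G t).F.D i (fun x => g (X.ψ x)) ((X.P a).K.ψ z) ^ 2 ≤ δ ^ 2 := by
      rw [h1, d g1, mul_pow, q]
      exact mul_le_of_le_one_right (sq_nonneg _) ((sq_le_one_iff_abs_le_one _).2 (g4 _))
    refine ⟨h5.trans (h3 ▸ h4), h5, ?_⟩
    rw [h2, d g1, deriv_const_mul_field, d (contDiff_infty_iff_deriv.1 g1).2, ← mul_assoc, ← sq, q]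
    exact mul_le_of_le_one_right (sq_nonneg _) (g5 _)
  · have e : (fun x => g (X.ψ x)) =ᶠ[𝓝 x] fun _ => 0 :=
      (sψ.continuous.continuousAt.eventually (Iio_mem_nhds ((hL ⟨x, hx, rfl⟩).trans_lt
        (lt_add_one L)))).mono fun y hy => g2 _ (le_of_lt hy)
    simp only [Pre.D_def, dv_congr e, dv_const, Mp86.Lop_congr e, Mp86.Lop_const]
    simp [sq_nonneg]

variable (o) in
include X in
/-- **the hypotheses of the calculus hold on a manifold with ends** -/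
theorem hy_ends : Hy o := by
  obtain ⟨χ, c1, c2, -, -, c3⟩ := Met55.exists_cut (I := I) X.cov isOpen_univ (subset_univ _)
  have e : ∀ x, χ x ≠ 1 → ∃ a, ∃ z ∈ (X.P a).H X.R, (X.P a).K.ψ z = x ∧ x ∈ (X.P a).U X.R :=
    fun x hx =>
      let ⟨a, ha⟩ := mem_iUnion.1 (not_not.1 fun k => hx (c3 x k).self_of_nhds)
      let ⟨z, h1, h2⟩ := (X.okP a).exists_ψ ha
      ⟨a, z, h1, h2, ha⟩
  obtain ⟨ψ', p1, p2, ⟨C, p3⟩, p4⟩ := ends_wt X
  refine hy_of X.ok o c1 c2 (fun a b t ht s hs x hx => ?_) (fun a b c t ht s hs x hx => ?_)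
    (fun a t ht s hs x hx => ?_) (fun a b c t ht s hs x hx => ?_) (fun a t ht s hs x hx => ?_)
    fun t ht => ?_
  iterate 5 obtain ⟨i, z, h1, rfl, h2⟩ := e x hx; rotate_left
  · obtain ⟨D, hD⟩ := Cb_unif (p4 t ht).1
    have w := Nk89.wt_wt (𝔉.G t).F p1
    obtain ⟨O, hO, ℓ, l1, l2, -⟩ :=
      (lg_of X.wt.toWtP (ends_μ X) X.ok ht).exists_mem_of_smallSets
    have ht' : t ∈ (res 𝔉 O).Q := ⟨ht, mem_of_mem_nhds hO⟩
    obtain ⟨D', d1, d2⟩ := l1.cb t ht'
    have d3 : ∀ x, |ℓ t x| ≤ D' 0 := fun x => d2 0 [] le_rfl x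
    have s1 := fun a b => (X.ok.sS a b).cb t ht
    have c0 := X.wt.sm.continuous
    have c1 : Continuous (-X.ψ + ℓ t + ψ') := (c0.neg.add d1.continuous).add p1.continuous
    have e : (wt (𝔉.G t).F ψ' p1).μ = wm 𝔉.F0.μ (-X.ψ + ℓ t + ψ') := by
      rw [w.μ, show (𝔉.G t).F.μ = _ from l2 t ht', X.wt.toWtP.symm.μ,
        Nk89.wm_wm c0.neg d1.continuous, Nk89.wm_wm (c0.neg.add d1.continuous) p1.continuous]
    have b : ∀ x, |(-X.ψ + ℓ t + ψ') x| ≤ C + D' 0 := fun x => by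
      rw [show (-X.ψ + ℓ t + ψ') x = ψ' x - X.ψ x + ℓ t x by simp only [Pi.add_apply, Pi.neg_apply]; ring]
      exact (abs_add_le _ _).trans (add_le_add (p3 x) (d3 x))
    refine ⟨_, _, _, w.dr hD fun x => ((p4 t ht).2 x).1,
      w.tame (X.ok.tameG t ht).choose_spec p2 hD, ⟨⟨_, X.ok.mix t ht, s1⟩, _,
        e.trans_le (Nk89.wm_le fun x => (abs_le.1 (b x)).2)⟩, ⟨_, mix_inv X.ok ht, fun a b =>
          w.toWtP.Cb.2 ((X.ok.mix t ht).Cb s1 ((X.ok.sSi a b).cb t ht))⟩,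
      (Real.exp (2 * (C + D' 0))).toNNReal, ?_⟩
    rw [e]
    exact (Nk89.wm_neg c1).symm.trans_le (Nk89.wm_le fun x => neg_le.1 (abs_le.1 (b x)).1)
  · exact (((X.okP i).S t ht _ h2 a b).1).trans ((X.okP i).S s hs _ h2 a b).1.symm
  · simp only [((X.okP i).cf t ht _ h2).1, ((X.okP i).cf s hs _ h2).1]
  · simp only [((X.okP i).cf t ht _ h2).2, ((X.okP i).cf s hs _ h2).2]
  · exact (((X.okP i).gRel X.ok ht).fr.c h1 a b c).symm.trans (((X.okP i).gRel X.ok hs).fr.c h1 a b c)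
  · exact (((X.okP i).gRel X.ok ht).fr.dv h1 (X.okP i).D.G.vol (X.ok.G t ht).vol a).symm.trans
      (((X.okP i).gRel X.ok hs).fr.dv h1 (X.okP i).D.G.vol (X.ok.G s hs).vol a)

/-- **the weight** -/
theorem wf_ends (hδ : δ ≤ 1 / 16) : Wf 𝔉 𝔉.G0.F X.ψ := by
  obtain ⟨ψ', p1, -, ⟨C, p3⟩, p4⟩ := ends_wt X
  have q : δ ^ 2 ≤ (1 / 16) ^ 2 := pow_le_pow_left₀ X.δ0.le hδ 2
  refine ⟨X.tame, X.wt.toWtP, X.ψ0, ends_μ X, fun t ht => ⟨fun x => Real.exp (2 * ψ' x),
    Real.exp (-(2 * C)), Real.exp_pos _, Cyc79.wu_exp (ψ := fun x => 2 * ψ' x)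
      (contMDiff_const.mul p1) (fun x => ?_) fun x => ?_, fun x => ?_⟩⟩
  · rw [Cyc79.sum_cmp (h := fun r => 2 * r) p1 (by simpa using (hasDerivAt_id (ψ' x)).const_mul 2)]
    linarith [((p4 t ht).2 x).2.1]
  · rw [Mp86.Lop_mul 2 (Mp86.vf _ x) (Mp86.cm2 p1 x)]
    linarith [((p4 t ht).2 x).2.2]
  · simp only [← Real.exp_add, Real.exp_le_exp]
    constructor <;> linarith [abs_le.1 (p3 x)]

/-- **literal references are stationary** -/
theorem stat_ends {c : ℝ} (l : X.Lit o c) (ht : t ∈ 𝔉.Q) : Stat (pt0 o r ht) :=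
  ⟨_, X.cov' c, fun x hx => by
    obtain ⟨a, ha⟩ := mem_iUnion.1 (not_not.1 hx)
    obtain ⟨z, h1, rfl⟩ := (X.okP a).exists_ψ ha
    exact end_stat (X.okP a) X.ok ht (l.le.trans_lt h1) l.le (l.lit a) h1⟩

end ends

end Crest.Agent.X212.Mon62
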