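import Crest.Agent.X212.Mon62.NkU
import Crest.Agent.X212.Nd18.Ms

/-! # Row 212, MS-ROW: fixed necks, the energy rows, trajectories on the cylinder -/

set_option autoImplicit false
set_option linter.unusedSectionVars false
set_option maxSynthPendingDepth 3
noncomputable section
open scoped Manifold ContDiff Topology InnerProductSpace
open MeasureTheory Set Function Filter

namespace Crest.Agent.X212.Mon62
open An Sob92 Prm93 Wz78 Mod61 Dm Nd18
open Nk89 (End Ends Fs WtP pt0 famZ refZ endsZ T0 ab)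
open Map77 (Aff Adj)

section gen
variable {E : Type} [NormedAddCommGroup E] [NormedSpace ℝ E] [FiniteDimensional ℝ E]
  [MeasurableSpace E] [BorelSpace E]
  {HM : Type} [TopologicalSpace HM] {I : ModelWithCorners ℝ E HM} [I.Boundaryless]
  {M : Type} [TopologicalSpace M] [ChartedSpace HM M] [IsManifold I ∞ M]
  [MeasurableSpace M] [T2Space M] [BorelSpace M] [SecondCountableTopology M]
  {lam : Type} [Fintype lam] {T : Type} [NormedAddCommGroup T] [NormedSpace ℝ T]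
  {E3 : Type} [NormedAddCommGroup E3] [NormedSpace ℝ E3] [FiniteDimensional ℝ E3]
  [MeasurableSpace E3] [BorelSpace E3]
  {H3 : Type} [TopologicalSpace H3] {I3 : ModelWithCorners ℝ E3 H3} [I3.Boundaryless]
  {Y : Type} [TopologicalSpace Y] [ChartedSpace H3 Y] [IsManifold I3 ∞ Y] [T2Space Y]
  [MeasurableSpace Y] [BorelSpace Y] [SecondCountableTopology Y] [CompactSpace Y]
  {κ : Type} [Fintype κ] {DY : YD I3 Y κ lam}
  {𝔉 : Fam I M (Option κ) lam T} {o : Ref 𝔉} {r n m : ℕ} {p : T → Prop}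
  {K : ∀ t, p t → Nk DY 𝔉.B (𝔉.G t)} {N : ND Y lam} {F1 : Fr I M (Option κ)} {ψ ψ' : M → ℝ}
  [o.B0] (H : Hy o) (h : Fx K 𝔉.Q ψ N.δ)
include H h

/-- the equations with the gradient term of a fixed neck, if they decay at one point -/
theorem Fx.aff (W : Wf 𝔉 F1 ψ') (hN : N.OK DY) (hQ : IsPreconnected 𝔉.Q) {y : Pnt o r}
    (hy : Dc (𝔉.eq0 r n m + -Q1 n m K N) y) : Aff o (Fs 𝔉) r n m (𝔉.eq0 r n m + -Q1 n m K N) :=
  H.aff1 (Map77.adj_rem H.ok) (La.vneg fun _ ht =>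
    h.la1 H (H.ok.opn.mem_nhds ht) (Cys97.sm _ _ _ _) W hN ht) (pj_Q1 _ H.ok).neg hQ hy

variable (hy : ∀ i, Sm I3 (N.y i))
include hy

/-- the non-gradient terms of a fixed neck gain a derivative -/
theorem Fx.sm2 (hs : ∀ s ∈ 𝔉.Q, ∃ y : Pnt o r, y.t = s ∧ Stat y) {w : YT Y} (hw : w.OK I3) :
    o.Sm (Q2 (r := r) n m K N w) :=
  La.sm (h := H.ok) (fun _ ht => h.la2 H (H.ok.opn.mem_nhds ht) hs hy hw) (pj_Q2 _ H.ok w)

variable {y₁ : Pnt o r} (hs : Stat y₁)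
include hs

/-- **the smoothed energy is integrable** -/
theorem Fx.int_ew (y : Pnt o r) : Integrable (N.ew (K y.t (h.act _ y.ht)) y.cfg) (𝔉.G y.t).F.μ := by
  have c := H.cfOK (k := 7) le_rfl (hk := by norm_num) y
  have a := h.nh H.ok (k := 7) (hk := by norm_num) (y₀ := y) c.h4
  obtain ⟨d1, d2⟩ := h.dot H (k := 7) le_rfl (hk := by norm_num) y hs
  obtain ⟨ρ, r1, r2⟩ := H.ok.dens
  have u := us_dm (h := H.ok) (k := 7) (hk := by norm_num) (y₀ := y) r1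
  have g := us_dm (h := H.ok) (k := 7) (hk := by norm_num) (y₀ := y) (SB.fixed (Cb_const (1 : ℝ)))
  have a2 := ((A0.toLp (by omega) fun k => a.uA c rfl d1 (hy k)).moment le_rfl u g (a.χ4 c rfl)).2 () y
  have b2 := (d2.moment le_rfl u g (a.χ4 c rfl)).2 () y
  rw [(r2 _ y.ht).2, integrable_withDensity_iff_integrable_smul'
    (Cb.sm (r1.cb _ y.ht)).continuous.measurable.ennreal_ofReal
    (.of_forall fun _ => ENNReal.ofReal_lt_top)]
  refine (a2.add b2).congr (.of_forall fun x => ?_)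
  simp only [PiLp.norm_sq_eq_of_L2 fun _ : Fin N.ny => o.m.A, ← mul_add, Pi.add_apply, one_mul,
    ENNReal.toReal_ofReal ((r2 _ y.ht).1 x).le]
  rfl

/-- **MS-ROW**: moments of the smoothed energy are smooth -/
theorem Fx.row {g : T → M → ℝ} (hg : SB 𝔉.F0.toPre 𝔉.Q g) {k : ℕ} (hk : 7 ≤ k) :
    ∃ γ : o.C r k → ℝ, ContDiffOn ℝ ∞ γ (o.U r k) ∧ ∀ y : Pnt o r, γ (y.pt k) =
      ∫ x, g y.t x * N.ew (K y.t (h.act _ y.ht)) y.cfg x ∂(𝔉.G y.t).F.μ :=
  have c := H.cfOK hk (hk := by omega) y₁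
  have a := h.nh H.ok (hk := by omega) (y₀ := y₁) c.h4
  have d := h.dot H hk (hk := by omega) y₁ hs
  sc_out (a.row c hy rfl d.1 d.2 (us_dm hg))

omit H h hy hs [o.B0] in
/-- real rows -/
theorem sm_row {ι : Type} [Fintype ι] {𝔉 : Fam I M ι lam T} {o : Ref 𝔉}
    {R : T → Cfg M ι lam r → Fin m → ℝ} (hR : ∀ k, 7 ≤ k → ∀ i, ∃ γ : o.C r k → ℝ,
      ContDiffOn ℝ ∞ γ (o.U r k) ∧ ∀ y : Pnt o r, γ (y.pt k) = R y.t y.cfg i) :
    o.Sm fun t => (⟨⟨fun _ _ => 0, fun _ _ => 0, fun _ _ => 0⟩, R t⟩ : PtX M ι lam r n m) :=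
  fun k hk => by
    choose γ g1 g2 using hR k hk
    exact ⟨fun v => (0, 0, 0, fun i => γ i v), contDiffOn_const.prodMk (contDiffOn_const.prodMk
      (contDiffOn_const.prodMk (contDiffOn_pi.2 g1))), fun y => ⟨val_zero.trans
        (indicator_zero' _).symm, val_zero.trans (indicator_zero' _).symm, rfl,
          funext fun i => g2 i y⟩⟩

end gen

/-! ### literal references on the cylinder -/

variable {κ lam : Type} [Fintype κ] [Fintype lam] {Y : M.Mf 3} [CompactSpace Y.M]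
  [PreconnectedSpace Y.M] {D : YD Y.I Y.M κ lam} {N : ND Y.M lam} {δ R : ℝ} {O' : Set (Y.M × ℝ)}
  {T : Type} [NormedAddCommGroup T] [NormedSpace ℝ T] {r n m : ℕ} (hD : D.OK) (d0 : 0 < δ)
  (hO : IsClopen O') (hs : ∀ s, (δ * deriv ab s) ^ 2 ≤ 1 / 4) {o : Ref (famZ T D δ O')} [o.B0]
  (hN : N.OK D) (hδ : δ < N.δ)
include hD d0 hO hs hN hδ

/-- the equations of trajectories, if they decay at one point -/
theorem affZ (d2 : δ ≤ 1 / 16) {y : Pnt o r}
    (hy : Dc (fun _ => eq0 D.B D.G r n m - px m (N.q1 D.nk)) y) :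
    Aff o (Fs (famZ T D δ O')) r n m fun _ => eq0 D.B D.G r n m - px m (N.q1 D.nk) := by
  have e : (famZ T D δ O').eq0 r n m + -Q1 n m (kZ D δ O' T) N =
      fun _ => eq0 D.B D.G r n m - px m (N.q1 D.nk) := funext fun t => by
    rw [Pi.add_apply, Pi.neg_apply, Q1, dq, dif_pos trivial, ← sub_eq_add_neg]
    rfl
  exact e ▸ (fx_Z d0.le hδ).aff (hy_ends o (endsZ T hD d0 hO hs))
    (wf_ends (endsZ T hD d0 hO hs) d2) hN isPreconnected_univ (e ▸ hy)

variable (l : (endsZ T hD d0 hO hs).Lit o R)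
include l

theorem smZ2 {w : YT Y.M} (hw : w.OK Y.I) :
    o.Sm fun _ => px m (N.q2 (r := r) (n := n) D.nk w) := by
  have := (fx_Z d0.le hδ).sm2 (n := n) (m := m) (hy_ends o (endsZ T hD d0 hO hs)) hN.sy
    (fun _ ht => ⟨pt0 o r ht, rfl, stat_ends _ l ht⟩) hw
  rwa [show Q2 n m (kZ D δ O' T) N w = _ from funext fun t => dif_pos trivial] at this

theorem int_ewZ (y : Pnt o r) : Integrable (N.ew D.nk y.cfg) D.Z.μ :=
  (fx_Z d0.le hδ).int_ew (hy_ends o (endsZ T hD d0 hO hs)) hN.sy (stat_ends _ l y.ht) y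

theorem rowZ {g : Y.M × ℝ → ℝ} (hg : D.Z.Cb g) {k : ℕ} (hk : 7 ≤ k) : ∃ γ : o.C r k → ℝ,
    ContDiffOn ℝ ∞ γ (o.U r k) ∧ ∀ y : Pnt o r, γ (y.pt k) = ∫ x, g x * N.ew D.nk y.cfg x ∂D.Z.μ :=
  (fx_Z d0.le hδ).row (hy_ends o (endsZ T hD d0 hO hs)) hN.sy (stat_ends _ l (t := 0) trivial)
    (SB.fixed (Nk89.wt_famZ.toWtP.Cb.2 hg)) hk

/-- **MS-ROW** -/
theorem sm_mT : ∀ w, o.Sm fun _ => N.mT D w
  | none => sm_row fun _ hk _ => by
    simpa only [one_mul, ND.ewT] using rowZ (r := 0) hD d0 hO hs hN hδ l (Cb_const 1) hk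
  | some w => smZ2 hD d0 hO hs hN hδ l w.2

end Crest.Agent.X212.Mon62
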