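import Crest.Agent.X212.Mon62.Pe

/-! # Row 212, P-SM: compactly supported cyclic seeds for moving base connections -/

set_option autoImplicit false
set_option linter.unusedSectionVars false
set_option maxSynthPendingDepth 3
noncomputable section
open scoped Manifold ContDiff Topology InnerProductSpace BoundedContinuousFunction
open MeasureTheory Set Function Filter

namespace Crest.Agent.X212.Mon62
open An Sob92 Prm93 Wz78 Cyc79 Ten12 Dm Cys97 Dgr80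
open Ell97 (UB)
open ContinuousLinearMap (adjoint)
open Hd34.Fin (cbG hK slk hK_fb sA_eq tp_fb laOK)

variable {E : Type} [NormedAddCommGroup E] [NormedSpace ℝ E] [FiniteDimensional ℝ E]
  [MeasurableSpace E] [BorelSpace E]
  {HM : Type} [TopologicalSpace HM] {I : ModelWithCorners ℝ E HM} [I.Boundaryless]
  {M : Type} [TopologicalSpace M] [ChartedSpace HM M] [IsManifold I ∞ M]
  [MeasurableSpace M] [T2Space M] [BorelSpace M] [SecondCountableTopology M] {ι : Type} [Fintype ι]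
  {lam : Type} [Fintype lam]
  {J : Type} {X Y : J → Type} [∀ i, NormedAddCommGroup (X i)] [∀ i, NormedSpace ℝ (X i)]
  {κ : Type} [Fintype κ] [DecidableEq κ]
  {U V W : Type} [NormedAddCommGroup U] [InnerProductSpace ℝ U] [CompleteSpace U]
  [NormedAddCommGroup V] [InnerProductSpace ℝ V] [CompleteSpace V]
  [NormedAddCommGroup W] [InnerProductSpace ℝ W] [CompleteSpace W]
  {K : Type} [NormedAddCommGroup K] [InnerProductSpace ℝ K] [CompleteSpace K]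
  {D : Dm I M ι X Y} {G : ∀ i, X i → Fr I M ι} {A : ∀ i, Y i → ι → M → En κ} {j l : ℕ}

theorem cm_zero {F : Fr I M ι} {A : ι → M → V →L[ℝ] V} {χ φ : M → ℝ} (hφ : Continuous φ) {t : ℝ}
    (h0 : ∀ z, φ z < t → χ z = 0) (u : M → V) {z : M} (hz : φ z < t) :
    F.op (cmS F V χ) (cmB F A χ) u z = 0 := by
  have e : ∀ {g : M → ℝ} (a : ι), (∀ z, φ z < t → g z = 0) → ∀ z, φ z < t → F.D a g z = 0 :=
    fun {g} a hg z hz => by
      have : g =ᶠ[𝓝 z] fun _ => 0 := by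
        filter_upwards [(isOpen_lt hφ (continuous_const (y := t))).mem_nhds hz] with y hy
        exact hg y hy
      rw [Pre.D_def, dv_congr this, dv_const]; rfl
  simp [Pre.op, cmS, cmB, fun a => e a h0 z hz, fun a => e a (e a h0) z hz]

theorem Dm.A1.mul0 (β : U →L[ℝ] V →L[ℝ] W) (hj : 7 ≤ j) (hlj : l ≤ j) {a : ∀ i, Y i → M → U}
    (h : D.A1 j a) : ∃ T : ∀ i, X i → D.H V l i →L[ℝ] D.H W l i, UC D.toRg T ∧
      ∀ i y, T i (D.pt i y) = (D.P i).mulH l _ _ fun x => β (a i y x) := by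
  obtain ⟨f, h1, h2⟩ := h
  obtain ⟨T, t1, t2⟩ := mult0 β hj hlj h2
  refine ⟨_, t1.add ((h1.clm β).mulH l), fun i y => ?_⟩
  rw [t2, ← mulH_add (Cb_clm β (h2.sz.cb i y)) (Maps.triv _) ((h1.clm β).cb i _ (D.mem i y))
    (Maps.triv _)]
  congr 1
  funext x
  rw [Pi.add_apply, ← map_add, sub_add_cancel]

variable (D G A) in
/-- `Cys97.Mo` for moving base connections -/
structure Mq (j : ℕ) : Prop where
  z : Mo D G (fun _ _ _ _ => (0 : En κ)) j
  a1 : ∀ c, D.A1 j fun i y x => hsL (A i y c x)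
  sk : ∀ i y c x, Skew (A i y c x)

namespace Mq
variable (h : Mq D G A j)
include h

theorem uw (u : Uw (Eu κ) D G) : Mq u.Du G A j :=
  ⟨h.z.uw u, fun c => let ⟨f, a, b⟩ := h.a1 c; ⟨f, u.us a, u.a0 (h.z.hj.trans' (by omega)) b⟩, h.sk⟩

theorem ac (i : J) (y : Y i) : Ac (D.F i) (G i (D.pt i y)) (A i y) :=
  have a := h.z.ac i y
  ⟨a.sup, a.mix, a.dv, fun c => by simpa only [opL_hsL] using ((h.a1 c).sz.clm opL).cb i y⟩

theorem adm (i : J) (y : Y i) (l : ℕ) : ((fun c => (D.P i).mulH l _ _ (A i y c),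
    fun c => (D.P i).mulH (l + 1) _ _ (A i y c)) : Mu (D.P i) (Eu κ) l) ∈ Adm (Eu κ) (D.P i) l :=
  ⟨A i y, (h.ac i y).sm, h.sk i y, fun c => rep_mulH ((h.ac i y).cb c) (Maps.triv _),
    fun c => rep_mulH ((h.ac i y).cb c) (Maps.triv _)⟩

theorem bij (i : J) (y : Y i) (l : ℕ) : Bijective (Ql (D.P i) (G i (D.pt i y)) (A i y) l) :=
  (h.z.ra l).1 i _ (D.mem i y) _ (subset_closure (h.adm i y l))

theorem mul (hl : l ≤ j) : ∃ T : ι → ∀ i, X i → D.H (Eu κ) l i →L[ℝ] D.H (Eu κ) l i,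
    (∀ c, UC D.toRg (T c)) ∧ ∀ c i y, T c i (D.pt i y) = (D.P i).mulH l _ _ (A i y c) := by
  choose T a b using fun c => (h.a1 c).mul0 opL h.z.hj hl
  exact ⟨T, a, fun c i y => by simp only [b, opL_hsL]⟩

theorem exists_R (hl : l + 1 ≤ j) :
    ∃ R : ∀ i, X i → D.H (Eu κ) l i →L[ℝ] D.H (Eu κ) (l + 2) i, UC D.toRg R ∧
      ∀ i y f, Ql (D.P i) (G i (D.pt i y)) (A i y) l (R i (D.pt i y) f) = f := by
  obtain ⟨T₁, a1, a2⟩ := h.mul (l.le_succ.trans hl)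
  obtain ⟨T₂, b1, b2⟩ := h.mul hl
  let T : ∀ i, X i → Mu (D.P i) (Eu κ) l := fun i x => (fun c => T₁ c i x, fun c => T₂ c i x)
  have hT : ∀ i y, T i (D.pt i y) = (fun c => (D.P i).mulH l _ _ (A i y c),
      fun c => (D.P i).mulH (l + 1) _ _ (A i y c)) := fun i y => by simp only [T, a2, b2]
  have hc : ∀ i, ∀ x ∈ D.U i, T i x ∈ closure (Adm (Eu κ) (D.P i) l) := fun i x hx => by
    have c1 : ContinuousAt (T i) x :=
      (continuousAt_pi.2 fun c => ((a1 c).sm.diff hx).continuousAt).prodMk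
        (continuousAt_pi.2 fun c => ((b1 c).sm.diff hx).continuousAt)
    refine c1.continuousWithinAt.mem_closure (D.dns i hx) ?_
    rintro _ ⟨y, rfl⟩
    exact hT i y ▸ h.adm i y l
  have hi : ∀ i, ∀ x ∈ D.U i, (QQ (D.P i) (G i x) l (T i x)).IsInvertible := fun i x hx =>
    isInvertible_of_bij ((h.z.ra l).1 i x hx _ (hc i x hx))
  have hb : ∃ R, ∀ i, ∀ x ∈ D.B i, ‖T i x‖ ≤ R := by
    choose K₁ n1 k1 using fun c => (a1 c).bd0.nn
    choose K₂ n2 k2 using fun c => (b1 c).bd0.nn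
    have p1 := Finset.sum_nonneg fun c (_ : c ∈ Finset.univ) => n1 c
    have p2 := Finset.sum_nonneg fun c (_ : c ∈ Finset.univ) => n2 c
    refine ⟨∑ c, K₁ c + ∑ c, K₂ c, fun i x hx => max_le ?_ ?_⟩
    · exact (pi_norm_le_iff_of_nonneg (by positivity)).2 fun c => (k1 c i x hx).trans
        ((Finset.single_le_sum (fun c _ => n1 c) (Finset.mem_univ c)).trans (by linarith))
    · exact (pi_norm_le_iff_of_nonneg (by positivity)).2 fun c => (k2 c i x hx).trans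
        ((Finset.single_le_sum (fun c _ => n2 c) (Finset.mem_univ c)).trans (by linarith))
  obtain ⟨R, hR⟩ := hb
  obtain ⟨K, hK⟩ := (h.z.ra l).2 R
  have hQ : UC D.toRg fun i x => QQ (D.P i) (G i x) l (T i x) :=
    (UC.const (bv_ic (by omega))).sub (UC.sum fun c => ((h.z.uc_Nb (a1 c) c).add
      (((h.z.dv c).smulH l).comp (UC.const (bv_ic l.le_succ)))).comp (h.z.uc_Nb (b1 c) c))
  refine ⟨_, hQ.inverse hi ⟨|K|, fun i x hx =>
    norm_inverse_le (hi i x (D.sub i hx)) (abs_nonneg K) fun u =>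
      (hK i x hx _ (hc i x (D.sub i hx)) (hR i x hx) u).trans
        (mul_le_mul_of_nonneg_right (le_abs_self K) (norm_nonneg _))⟩, fun i y f => ?_⟩
  rw [Ql, ← hT, apply_inverse (hi i _ (D.mem i y))]

theorem exists_cm (hl : l ≤ j) {θ : J → M → ℝ} (hθ : UB D.P θ) :
    ∃ C : ∀ i, X i → D.H (Eu κ) (l + 1) i →L[ℝ] D.H (Eu κ) l i, UC D.toRg C ∧
      ∀ i y x (u : M → Eu κ), Sm I u → Is (D.P i) (l + 1) _ x u → Is (D.P i) l _ (C i (D.pt i y) x)
        ((G i (D.pt i y)).op (cmS (G i (D.pt i y)) _ (θ i)) (cmB (G i (D.pt i y)) (A i y) (θ i)) u) := by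
  obtain ⟨T, a1, a2⟩ := h.mul hl
  obtain ⟨S, s1, s2⟩ := h.z.mix
  let m : ∀ k, ι → ∀ i, X i → D.H (Eu κ) k i →L[ℝ] D.H (Eu κ) k i := fun k c i x =>
    ∑ b, smulH (D.P i) k _ (S c b i x) ∘L smulH (D.P i) k _ ((D.P i).D b (θ i))
  have m1 : ∀ k c, UC D.toRg (m k c) := fun k c =>
    UC.sum fun b => ((s1 c b).smulH k).comp (UC.const (bv_smulH (hθ.D b) k))
  have m2 : ∀ k c i y x u, Is (D.P i) k _ x u → Is (D.P i) k _ (m k c i (D.pt i y) x)
      fun z => (G i (D.pt i y)).D c (θ i) z • u z := fun k c i y x u hx => by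
    simp only [m, _root_.sum_apply, (s2 i _ (D.mem i y)).D, Finset.sum_smul, smul_assoc]
    exact is_sum _ fun b _ => (hx.smulH ((hθ.D b).cb i)).smulH ((s1 c b).cb i _ (D.mem i y))
  refine ⟨_, (UC.sum fun c => ((m1 l c).comp (h.z.uc_Nb (a1 c) c)).add (((h.z.uc_Nb (a1 c) c).add
    (((h.z.dv c).smulH l).comp (UC.const (bv_ic l.le_succ)))).comp (m1 (l + 1) c))).neg,
    fun i y x u hu hx => ?_⟩
  have a := h.ac i y
  simp only [neg_apply, _root_.sum_apply, a2]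
  exact is_eq' (is_neg (is_sum _ fun c _ => (m2 _ c i y _ _ (a.is_Nb hx hu c)).add
    ((a.is_Nb (m2 _ c i y _ _ hx) (((G i _).sm_D (hθ.sm i) c).smul hu) c).add
      (((m2 _ c i y _ _ hx).incl l.le_succ).smulH (a.dv c))))) (cm_eq a.sm (hθ.sm i) hu)

variable {g : ∀ i, Y i → M → HS κ} (hg : D.A0 False j g) {φ θ : J → M → ℝ} {t : ℝ}
include hg

theorem res_uu (i : J) (y : Y i) (s : Sec I (triv M (Eu κ))) :
    (G i (D.pt i y)).IsRes (A i y) (fun z => opL (g i y z) (s.1 z)) (uu D G A g i y s.1) ∧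
      Al (D.F i) (uu D G A g i y s.1) :=
  (h.ac i y).res (h.bij i y) (h.z.bump i y) (h.sk i y) ((al_sec s).app (Cb_clm opL (hg.sz.cb i y)))

theorem q_uu (h0 : ∀ i y z, g i y z ≠ 0 → φ i z ≤ 0) (ht : 0 < t) (hθ : ∀ i, Sm I (θ i))
    (e0 : ∀ i z, φ i z < t → θ i z = 0) (i : J) (y : Y i) (s : Sec I (triv M (Eu κ))) (z : M) :
    θ i z • uu D G A g i y s.1 z + lap I (G i (D.pt i y)).e (G i (D.pt i y)).dv (A i y)
      (fun z => θ i z • uu D G A g i y s.1 z) z = (G i (D.pt i y)).op (cmS (G i (D.pt i y)) _ (θ i))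
        (cmB (G i (D.pt i y)) (A i y) (θ i)) (uu D G A g i y s.1) z := by
  obtain ⟨a, b⟩ := h.res_uu hg i y s
  rw [q_smul (h.ac i y).sm (hθ i) b.1, a.2.2, add_eq_right]
  by_cases e1 : g i y z = 0
  · simp [e1]
  · rw [e0 i z ((h0 i y z e1).trans_lt ht), zero_smul]

theorem ch {π : ∀ i, K →L[ℝ] D.H (Eu κ) 0 i} (hπ : Bv π) (hφ : UB D.P φ)
    (h0 : ∀ i y z, g i y z ≠ 0 → φ i z ≤ 0) (k : ℕ) (hk : k + 1 ≤ j) :
    ∀ {θ : J → M → ℝ} {t : ℝ}, 0 < t → UB D.P θ → (∀ i z, φ i z < t → θ i z = 0) →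
      Ch D G A g π θ (k + 2) := by
  induction k with
  | zero =>
    intro θ t _ hθ _
    obtain ⟨R, r1, r2⟩ := h.exists_R (l := 0) hk
    obtain ⟨T, t1, t2⟩ := mult0 opL h.z.hj j.zero_le hg
    refine ⟨_, (UC.const (bv_smulH hθ 2)).comp (r1.comp (t1.comp (UC.const hπ))),
      fun i y k s e => ?_⟩
    obtain ⟨a, b⟩ := h.res_uu hg i y s
    simp only [ContinuousLinearMap.comp_apply]
    refine Is.smulH (hθ.cb i) ((h.ac i y).is_of_Q (h.bij i y 0).1 b ?_)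
    simp only [r2, t2, e, a.2.2]
    exact (Is.toH s).mulH (Cb_clm opL (hg.sz.cb i y)) (Maps.triv _)
  | succ k ih =>
    intro θ t ht hθ e0
    obtain ⟨χ, c1, c2, c3, -⟩ := exists_ucut hφ (show t / 3 < t / 2 by linarith)
    obtain ⟨T, t1, t2⟩ := ih (by omega) (show 0 < t / 3 by linarith) c1 fun i z e => c2 i z e.le
    obtain ⟨R, r1, r2⟩ := h.exists_R hk
    obtain ⟨C, d1, d2⟩ := h.exists_cm (l := k + 1) (by omega) hθ
    refine ⟨_, r1.comp (d1.comp t1), fun i y k' s e => ?_⟩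
    have b := (h.res_uu hg i y s).2
    refine (h.ac i y).is_of_Q (h.bij i y _).1 (b.smul (hθ.cb i)) ?_
    simp only [ContinuousLinearMap.comp_apply, r2]
    refine is_eq' (d2 i y _ _ (Wrd81.sm_smul (c1.sm i) b.1) (t2 i y k' s e)) fun z => ?_
    rw [h.q_uu hg h0 ht hθ.sm e0, cm_cut (hφ.sm i).continuous (half_lt_self ht) (e0 i)
      fun z e => c3 i z e.le]

variable [Finite J] (u : Uw (Eu κ) D G) {π : ∀ i, K →L[ℝ] u.Du.H (Eu κ) 0 i} (hπ : Bv π)
  (hφ : UB D.P φ) (hc : ∀ i, HasCompactSupport (φ i)) (h0 : ∀ i y z, g i y z ≠ 0 → φ i z ≤ 0)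
include hπ hφ hc h0

/-- `θ G g` is Hilbert-Schmidt into the weighted spaces -/
theorem gain (l : ℕ) (hl : l + 1 ≤ j) :
    ∀ {θ : J → M → ℝ} {t : ℝ}, 0 < t → UB D.P θ → (∀ i z, φ i z < t → θ i z = 0) →
      ∃ δ : ∀ i, X i → D.H (Fm κ K) (l + 2) i, UC D.toRg δ ∧ ∀ i y k (s : Sec I (triv M (Eu κ))),
        π i k = (u.F i).toH 0 _ s → Is (D.P i) (l + 2) _ (ctH κ K (D.P i) (l + 2) k (δ i (D.pt i y)))
          fun z => θ i z • uu D G A g i y s.1 z := by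
  have hj := h.z.hj
  have g0 := u.a0 (by omega) hg
  have st : ∀ {l}, l + 1 ≤ j → ∀ {θ : J → M → ℝ} {t : ℝ}, 0 < t → UB D.P θ →
      (∀ i z, φ i z < t → θ i z = 0) → ∀ {χ : J → M → ℝ}, (∀ i z, t / 2 ≤ φ i z → χ i z = 1) →
      ∀ {ρ : ∀ i, X i → D.H (Fm κ K) l i}, UC D.toRg ρ → (∀ i y k (s : Sec I (triv M (Eu κ))),
        π i k = (u.F i).toH 0 _ s → Is (D.P i) l _ (ctH κ K (D.P i) l k (ρ i (D.pt i y)))
          ((G i (D.pt i y)).op (cmS (G i (D.pt i y)) _ (θ i)) (cmB (G i (D.pt i y)) (A i y) (θ i))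
            fun z => χ i z • uu D G A g i y s.1 z)) →
      ∃ δ : ∀ i, X i → D.H (Fm κ K) (l + 2) i, UC D.toRg δ ∧ ∀ i y k (s : Sec I (triv M (Eu κ))),
        π i k = (u.F i).toH 0 _ s → Is (D.P i) (l + 2) _ (ctH κ K (D.P i) (l + 2) k (δ i (D.pt i y)))
          fun z => θ i z • uu D G A g i y s.1 z := fun hl θ t ht hθ e0 χ c3 ρ p1 p2 => by
    obtain ⟨R, r1, r2⟩ := h.exists_R hl
    refine ⟨_, uc_lft r1 p1, fun i y k s e => ?_⟩
    rw [ctH_lft]
    refine is_of_Qw (u.wt i) (u.pos i) ((h.uw u).ac i y) (h.ac i y) ((h.uw u).bij i y _).1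
      (((h.uw u).res_uu g0 i y s).2.smul ((u.wt i).Cb.1 (hθ.cb i))) ?_
    rw [r2]
    refine is_eq' (p2 i y k s e) fun z => ?_
    rw [cm_cut (hφ.sm i).continuous (half_lt_self ht) (e0 i) fun z e => c3 i z e.le]
    exact h.q_uu hg h0 ht hθ.sm e0 i y s z
  induction l with
  | zero =>
    intro θ t ht hθ e0
    obtain ⟨χ, c1, c2, c3, -⟩ := exists_ucut hφ (show t / 3 < t / 2 by linarith)
    obtain ⟨T, t1, t2⟩ := (h.uw u).ch g0 hπ (u.ub.2 hφ) h0 3 (by omega)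
      (show 0 < t / 3 by linarith) (u.ub.2 c1) fun i z e => c2 i z e.le
    obtain ⟨C, d1, d2⟩ := (h.uw u).exists_cm (l := 4) (by omega) (u.ub.2 hθ)
    obtain ⟨a, a1, a2⟩ := (A0.of_cs (D := D) (ε := True) (b := fun i z => χ i z • hsL (1 : En κ))
      le_rfl (fun i => (c1.sm i).smul contMDiff_const) fun i => (hc i).mono fun z hz e =>
        hz (by simp [c2 i z (e.trans_le (by linarith))])).pure
    choose e e1 e2 using fun i => Hd34.Ev.evStmt κ κ (HS κ) K (D.F i) opL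
    have s1 : UC D.toRg fun i x => valB (u.Du.sup i) ∘L (C i x ∘L T i x) :=
      (UC.const (bv_valB (D := u.Du))).comp (d1.comp t1)
    refine st hl ht hθ e0 c3 (UC.bil ⟨_, e1⟩ (a1.clm (bv_ic (Nat.zero_le 4))) s1) fun i y k s hk => ?_
    have b := Wrd81.sm_smul (c1.sm i) ((h.uw u).res_uu g0 i y s).2.1
    have a3 := d2 i y _ _ b (t2 i y k s hk)
    refine is_eq' (e2 i _ _ k _ ((Is.val (D.sup i) le_rfl _).incl (Nat.zero_le 4))) fun z => ?_
    have m := (h.ac i y).sm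
    have b' := Wrd81.sm_smul (hθ.sm i) b
    have a4 := congrFun (a3.val_eq (u.Du.sup i) le_rfl (((b'.add (sm_lap m b')).sub (Wrd81.sm_smul
      (hθ.sm i) (b.add (sm_lap m b)))).continuous.congr fun z =>
        sub_eq_of_eq_add' (q_smul m (hθ.sm i) b z))) z
    refine Eq.trans ?_ (congrArg₂ (fun a v => opL a v) (congrFun (a2 i y) z) a4.symm)
    simp only [map_smul, smul_apply, opL_hsL, one_apply_eq_self]
    by_cases hz : φ i z < t
    · simp only [cm_zero (hφ.sm i).continuous (e0 i) _ hz, smul_zero]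
    · rw [c3 i z (by linarith [not_lt.1 hz]), one_smul]
      rfl
  | succ l ih =>
    intro θ t ht hθ e0
    obtain ⟨χ, c1, c2, c3, -⟩ := exists_ucut hφ (show t / 3 < t / 2 by linarith)
    obtain ⟨δ, d1, d2⟩ := ih (by omega) (show 0 < t / 3 by linarith) c1 fun i z e => c2 i z e.le
    obtain ⟨C, k1, k2⟩ := h.exists_cm (l := l + 1) (by omega) hθ
    refine st hl ht hθ e0 c3 (uc_lft k1 d1) fun i y k s e => ?_
    rw [ctH_lft]
    exact k2 i y _ _ (Wrd81.sm_smul (c1.sm i) (h.res_uu hg i y s).2.1) (d2 i y k s e)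

end Mq

section bs
open Real (exp exp_neg)
variable [Finite J] {f f' : ∀ i, Y i → M → ℝ} {C : Set M}

/-- the transported base fields -/
theorem Mq.bs (mo : Mq D G A j) (ff : D.FF G) (u : Uw (Eu κ) D G)
    (ok : ∀ i y, Ok (G i (D.pt i y)) (A i y)) {p : J → M → En κ} (hp : UB D.P p)
    {e : ∀ i, u.Du.H (Eu κ) 0 i →L[ℝ] K} (he : ∀ i a b, ⟪e i a, e i b⟫_ℝ = ⟪a, b⟫_ℝ) (hj : 8 ≤ j)
    (hs : SepY D j f f') (hC : IsCompact C) (h1 : ∀ i y, ∀ x ∉ C, f i y x = 0 ∧ f' i y x = 0) :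
    D.A0 True j fun i y z => fb (e i ∘L ew _ (u.F i) (G i (D.pt i y)) (u.ℓ i (D.pt i y)))
      (bs (G i (D.pt i y)) (A i y) (p i) (f i y) (f' i y) z) := by
  obtain ⟨φ₀, q1, q2⟩ := hs.ex
  obtain ⟨η, n1, n2, -, -, n3⟩ := Met55.exists_cut (I := I) hC isOpen_univ (subset_univ _)
  have p1 : UB D.P fun i x => η x * φ₀ i x := (ub_of_finite fun _ => Cb_of_hcs n1 n2).smul q1
  have p2 : ∀ i y x, (f i y x ≠ 0 → 1 ≤ η x * φ₀ i x) ∧ (f' i y x ≠ 0 → η x * φ₀ i x ≤ 0) :=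
    fun i y x => by
    by_cases hx : x ∈ C
    · simpa only [(n3 x hx).self_of_nhds, Pi.one_apply, one_mul] using q2 i y x
    · exact ⟨fun k => (k (h1 i y x hx).1).elim, fun k => (k (h1 i y x hx).2).elim⟩
  obtain ⟨S, s1, s2⟩ := u.inv
  have h4 : 4 ≤ j := by omega
  have h7 : 7 ≤ j := by omega
  have hg := (A0.smul (Lev.self h7) h4 (((u.lc.a0 j h4).comp hj (h := fun r => exp (-r))
    (by fun_prop)).mul h7 hs.r) (A0.fixed (hp.clm hsL))).aff
  obtain ⟨χ, c1, c2, c3, -⟩ := exists_ucut p1 one_half_lt_one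
  have c4 := fun i z (h : η z * φ₀ i z < 1 / 2) => c2 i z h.le
  have sep : ∀ i y, Sep (G i (D.pt i y)).toPre (χ i) (f' i y) := fun i y =>
    sep_cut (cbG ff i y (hs.r.sz.cb i y)) (cbG ff i y (p1.cb i)) (fun x => (p2 i y x).2)
      (cbG ff i y (c1.cb i)) one_half_pos (c4 i)
  have c := fun i y => cbG ff i y (hp.cb i)
  have cb : ∀ i y, (D.P i).Cb fun z => fb (e i ∘L ew _ (u.F i) (G i (D.pt i y)) (u.ℓ i (D.pt i y)))
      (Cyc79.bs (G i (D.pt i y)) (A i y) (p i) (χ i) (f' i y) z) := fun i y =>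
    (s2 i y).Cb (fun a b => cbG ff i y ((s1 a b).cb i y))
      (Cb_clm _ (fi_bs (ok i y) (sep i y) (c i y)).cb)
  obtain ⟨l, rfl⟩ : ∃ l, j = l + 2 := ⟨j - 2, by omega⟩
  obtain ⟨δ, d1, d2⟩ := mo.gain hg u (π := fun i => adjoint (e i)) ⟨1, fun i => norm_adj_iso (he i)⟩
    p1 (fun _ => n2.mul_right) (fun i y z h => (p2 i y z).2 fun h' => h (by simp [h'])) l (by omega)
    one_half_pos c1 c4
  refine ((A0.smul (Lev.self h7) h4 hs.l (A0.of_pure (ε := True) ⟨cb, ub_of_finite fun i => cb i _⟩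
    d1 fun i y x => ?_)).imp .inr).congr fun i y z => ?_
  · have c0 := (cb_sm (cb i y)).continuous
    refine (congrFun ((is_dense ((((u.F i).dense_toH 0 _).preimage ((adjoint (e i)).isOpenMap fun a =>
      ⟨_, adj_iso (he i) a⟩))) c0 fun k ⟨s, h⟩ => is_eq' (d2 i y k s h.symm) fun z => ?_).val_eq
        (D.sup i) h4 c0) x).symm
    rw [ct_fb', ContinuousLinearMap.adjoint_comp, ContinuousLinearMap.comp_apply, ← h,
      adj_ew0 (u.lc.us.sz.sm i y) (u.μ i y), ct_bs (ok i y) (sep i y) (c i y), uu]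
    simp only [sS, map_smul, smul_apply, opL_hsL, smul_smul, exp_neg, mul_comm]
  rw [← map_smul, ← bs_mul (ok i y) (sep i y) (c i y)
    ⟨cbG ff i y (hs.l.sz.cb i y), cbG ff i y (hs.r.sz.cb i y), _, cbG ff i y (p1.cb i),
      fun x => (p2 i y x).1, fun x => (p2 i y x).2⟩ fun x => ?_]
  by_cases h : f i y x = 0
  · rw [h, zero_mul]
  · rw [c3 i x ((p2 i y x).1 h), mul_one]

end bs

/-- the engine on the Hilbert fibre -/
theorem Mq.ep (h : Mq D G A j) (hj : 8 ≤ j) (hF : D.FF G) (hE : D.RE (Eu κ) G) (hI : Inv D G) :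
    D.Ep G j fun i y => aA K (A i y) := by
  have m : ∀ c, D.Mp j fun i y => aA K (A i y) c := fun c =>
    ((h.a1 c).toMp (amp K ∘L opL) h.z.hj).congr fun i y x => by simp [aA]
  refine ⟨hj, fun {s} hs => ?_, fun h => Mp.nab hF (by omega) m h⟩
  obtain ⟨l, rfl⟩ : ∃ l, j = l + 1 := ⟨j - 1, by omega⟩
  have hl : 4 ≤ l := by omega
  obtain ⟨z1, z2⟩ := Eng12.sz_res_amp hF hE hI (fun c => ((h.a1 c).sz.clm opL).congr
    fun _ _ _ => (opL_hsL _).symm) h.sk hs.sz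
  obtain ⟨R, r1, r2⟩ := h.exists_R le_rfl
  obtain ⟨δ, d1, d2⟩ := (hs.lower hl l.le_succ).pure
  refine A0.of_pure z1 (uc_lft r1 d1) fun i y x => ?_
  obtain ⟨e1, ⟨C, e2⟩, e3⟩ := z2 i y
  obtain ⟨S, s1, s2⟩ := hF.mix
  have a := h.ac i y
  have mc := Mp86.Mc.mc (⟨sm_aA a.sm, fun c x => skew_amp (h.sk i y c x)⟩ : Mp86.Mc I (aA K (A i y)))
  refine Mp86.eq_of_bdd (hF.bump i y) finite_empty (fun h => absurd h not_nonempty_empty)
    (C := C + √|D.C 0| * ‖lft K (R i (D.pt i y)) (δ i (D.pt i y))‖) (Mp86.vf (G i (D.pt i y)).toPre)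
    (fun _ h => h.elim) (fun _ h => h.elim) (fun x _ => mc x) (fun x _ => Mp86.cm2 e1 x)
    (fun x _ => contMDiff_val (n := 2) (D.sup i) (by omega) _ x) (fun x _ => ?_)
    (fun x _ => ?_) x (notMem_empty x)
  · exact (norm_sub_le _ _).trans (add_le_add (e2 x) (norm_val_le (D.sup i) (by omega) _ x))
  rw [Mp86.LA_eq_lap, Mp86.LA_eq_lap, sub_neg_eq_add, sub_neg_eq_add, e3 x, d2,
    ← val_QQ (D.sup i) (s2 i _ (D.mem i y)) (fun a b => (s1 a b).us.cb i _ (D.mem i y)) a.dv hl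
      (A := aA K (A i y)) fun c => Cb_clm (amp K) (a.cb c)]
  refine congrArg (fun u => (D.P i).val l _ u x) (ext_ctH fun k => ?_)
  have e' : lM K (fun c => (D.P i).mulH l _ _ (A i y c), fun c => (D.P i).mulH (l + 1) _ _ (A i y c))
      = (fun c => (D.P i).mulH l _ _ (aA K (A i y) c),
        fun c => (D.P i).mulH (l + 1) _ _ (aA K (A i y) c)) :=
    Prod.ext (funext fun c => lft_mulH (a.cb c)) (funext fun c => lft_mulH (a.cb c))
  rw [← e', ← lft_QQ a.act, ctH_lft, ctH_lft]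
  exact (r2 i y _).symm

theorem Dm.Ep.hK (h : D.Ep G j fun i y => aA K (A i y)) (r : CL W (En κ))
    {b b' : ∀ i, Y i → M → Fm κ K} (hb : D.A0 True j b) (hb' : D.A0 True j b')
    {x x' w w' : ∀ i, Y i → List (An.La M)} (hx : Fa (D.LaY j) x) (hx' : Fa (D.LaY j) x')
    (hw : Fa (D.LaY j) w) (hw' : Fa (D.LaY j) w') {ξ : ∀ i, Y i → M → W}
    (hξ : D.A0 True j ξ) : D.A0 True j fun i y =>
      hK (G i (D.pt i y)) (A i y) r (b i y) (b' i y) (x i y) (x' i y) (w i y) (w' i y) (ξ i y) := by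
  have h7 : 7 ≤ j := h.hj.trans' (by omega)
  have m : ∀ {u : ∀ i, Y i → M → Fm κ K}, D.A0 True j u →
      D.A0 True j fun i y z => (amp K ∘L r) (ξ i y z) (u i y z) := fun hu =>
    (hξ.bil (amp K ∘L r) (Lev.self h7) (by omega) hu).imp Or.inl
  exact (h.gc _ hb' (slk h7 (hw.append hx)) (m (h.wd (slk h7 (hw'.append hx)) hb'))).add
    (h.gc _ hb (slk h7 hx') (h.bk (slk h7 (hw.append hx)) (m (h.wd (slk h7 hw') hb))))

namespace CF.OKp
variable {μ : MF M ι lam J} {r : ℕ} {κ : CF D μ r} (h : κ.OKp j) {f f' : ∀ i, Y i → M → ℝ}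
  (hs : SepY D j f f') {w w' : ∀ i, Y i → List (An.La M)} (hw : Fa (D.LaY j) w)
  (hw' : Fa (D.LaY j) w')
include h hs hw hw'

theorem fin {U : ∀ i y, KK (κ.F i y).toPre (Fin μ.N × Fin μ.N) →L[ℝ] K}
    (hA : ∀ i y, Ok (κ.F i y) (μ.adW i (κ.W i y))) (hU : ∀ i y h h', ⟪U i y h, U i y h'⟫_ℝ = ⟪h, h'⟫_ℝ)
    (hE : D.Ep κ.G j fun i y => aA K (μ.adW i (κ.W i y)))
    (hb : D.A0 True j (V := Fm (Fin μ.N × Fin μ.N) K) fun i y z =>
      fb (U i y) (bs (κ.F i y) (μ.adW i (κ.W i y)) (μ.pg i) (f i y) (f' i y) z))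
    (hb' : D.A0 True j (V := Fm (Fin μ.N × Fin μ.N) K) fun i y z =>
      fb (U i y) (bs (κ.F i y) (μ.adW i (κ.W i y)) (μ.pg i) (f' i y) (f i y) z)) :
    κ.SedP j fun i y => (⟨f i y, f' i y, w i y, w' i y⟩ : Cy M).sed (κ.F i y) := by
  have o := h.o
  have hF : D.FF κ.G := o.F
  have x1 : Fa (D.LaY j) fun i y => Cyc79.xw (f i y) (f' i y) :=
    .cons (.mul hs.l) (.cons .G (.cons (.mul hs.r) .nil))
  have x2 : Fa (D.LaY j) fun i y => Cyc79.xw (f' i y) (f i y) :=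
    .cons (.mul hs.r) (.cons .G (.cons (.mul hs.l) .nil))
  have pg := fun i y => cbG hF i y (o.pg.cb i)
  have sep : ∀ i y, Sep (κ.F i y).toPre (f i y) (f' i y) := fun i y =>
    let ⟨φ, p1, p2⟩ := hs.ex
    ⟨cbG hF i y (hs.l.sz.cb i y), cbG hF i y (hs.r.sz.cb i y), φ i, cbG hF i y (p1.cb i),
      fun x => (p2 i y x).1, fun x => (p2 i y x).2⟩
  have f1 := fun i y => fi_bs (hA i y) (sep i y) (pg i y)
  have f2 := fun i y => fi_bs (hA i y) (sep i y).symm (pg i y)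
  have ok := fun {w} (hw : Fa (D.LaY j) w) => laOK hF hw
  refine ⟨?_, fun l hl => ?_, fun _ _ => Dm.A0.zero⟩
  · refine ((((hE.wd (slk h.h7 (hw.append x1)) hb').tp (amp K ∘L adR _) h.h7
      (hE.wd (slk h.h7 (hw'.append x1)) hb')).app o.h4 o.pg).imp .inl).congr fun i y z => ?_
    rw [(f2 i y).wd_fb (hA i y) (ok (hw.append x1) i y),
      (f2 i y).wd_fb (hA i y) (ok (hw'.append x1) i y), tp_fb _ (hU i y)]
    rfl
  · have hξ := hl.app o.h4 o.pg
    have e := fun {w w'} (hw : Fa (D.LaY j) w) (hw' : Fa (D.LaY j) w') =>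
      (hE.hK (adR _) hb hb' x1 x2 hw hw' hξ).congr fun i y z =>
        (hK_fb (adR _) (hU i y) (hA i y) (f1 i y) (f2 i y) (ok x1 i y) (ok x2 i y) (ok hw i y)
          (ok hw' i y) (cbG hF i y (hξ.sz.cb i y)) z).symm
    exact ((e hw' hw).sub o.h4 (e hw hw')).congr fun i y z => sA_eq _ _ (κ.c i y) _ z

/-- **compactly supported cyclic seeds** -/
theorem cyc [Finite J] (u : Uw μ.A D κ.G)
    (hp : ∀ i y a x, ∑ b, (κ.F i y).P a b x • κ.W i y b x = κ.W i y a x) {C : Set M}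
    (hC : IsCompact C) (h1 : ∀ i y, ∀ x ∉ C, f i y x = 0 ∧ f' i y x = 0) :
    κ.SedP j fun i y => (⟨f i y, f' i y, w i y, w' i y⟩ : Cy M).sed (κ.F i y) := by
  classical
  have o := h.o
  have hF : D.FF κ.G := o.F
  have mo : Mq D κ.G (fun i y => μ.adW i (κ.W i y)) j := by
    obtain ⟨S, a, b⟩ := hF.mix
    refine ⟨⟨h.h7, ⟨S, fun c d => (a c d).us, b⟩, fun c => (hF.dv c).us, hF.bump, u.ra,
      fun _ => A0.zero.congr fun _ _ _ => map_zero _, fun _ _ _ _ _ _ => by simp⟩, fun c => ?_,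
      fun i y c x => adc_skw (h.sk i y c x)⟩
    obtain ⟨g, g1, g2⟩ := h.W c
    exact ⟨_, g1.clm (hsL ∘L adcL ∘L opL), (g2.clm o.h4 (hsL ∘L adcL ∘L opL)).congr fun i y x => by
      simp only [map_sub, ContinuousLinearMap.comp_apply, opL_hsL]; rfl⟩
  have hA : ∀ i y, Ok (κ.F i y) (μ.adW i (κ.W i y)) := fun i y =>
    ⟨u.tm i y, fun c => cbG hF i y ((mo.ac i y).cb c), mo.sk i y, fun a x => by
      simp only [Md.adW, ← adcL_apply, ← map_smul, ← map_sum, hp]⟩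
  let e := fun i => lp.singleContinuousLinearMap ℝ (fun i => u.Du.H μ.A 0 i) 2 i
  have he : ∀ i a b, ⟪e i a, e i b⟫_ℝ = ⟪a, b⟫_ℝ := fun i a b => by
    simp only [e, lp.singleContinuousLinearMap_apply, lp.inner_single_left, lp.single_apply_self]
  exact h.fin hs hw hw' hA
    (fun i y a b => (he i _ _).trans (inner_ew0 (u.lc.us.sz.sm i y) (u.μ i y) a b))
    (mo.ep o.hj hF o.eA u.inv) (mo.bs hF u hA o.pg he o.hj hs hC h1)
    (mo.bs hF u hA o.pg he o.hj hs.symm hC fun i y x k => (h1 i y x k).symm)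

end CF.OKp

end Crest.Agent.X212.Mon62
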