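import Crest.Agent.X212.Mon62.Pb

/-! # Row 212, P-SM: neck terms of finite necks for moving base connections -/

set_option autoImplicit false
set_option linter.unusedSectionVars false
set_option maxSynthPendingDepth 3
noncomputable section
open scoped Manifold ContDiff Topology InnerProductSpace
open MeasureTheory Set Function Filter

namespace Crest.Agent.X212.Mon62
open An Sob92 Prm93 Wz78 Dgr80 Nd18 Dm
open Ell97 (UB)
open Wrd81 (wd)
open Cyc79 (Cy)

section gen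
variable {E : Type} [NormedAddCommGroup E] [NormedSpace ℝ E] [FiniteDimensional ℝ E]
  [MeasurableSpace E] [BorelSpace E]
  {HM : Type} [TopologicalSpace HM] {I : ModelWithCorners ℝ E HM} [I.Boundaryless]
  {M : Type} [TopologicalSpace M] [ChartedSpace HM M] [IsManifold I ∞ M]
  [MeasurableSpace M] [T2Space M] [BorelSpace M] [SecondCountableTopology M] {ι : Type} [Fintype ι]
  {lam : Type} [Fintype lam]
  {J : Type} {X Y : J → Type} [∀ i, NormedAddCommGroup (X i)] [∀ i, NormedSpace ℝ (X i)]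
  {D : Dm I M ι X Y}

namespace Dm
variable {U V : Type} [NormedAddCommGroup U] [InnerProductSpace ℝ U] [CompleteSpace U]
  [NormedAddCommGroup V] [InnerProductSpace ℝ V] [CompleteSpace V]

variable (D) in
/-- a connection whose resolvent and covariant derivative act on the pure families -/
structure Ep (G : ∀ i, X i → Fr I M ι) (j : ℕ) (A : ∀ i, Y i → ι → M → CL V V) : Prop where
  hj : 8 ≤ j
  res : ∀ {s}, D.A0 True j s → D.A0 True (j + 1) fun i y => (G i (D.pt i y)).res (A i y) (s i y)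
  nab : ∀ {w}, D.A0 True (j + 1) w → ∀ a,
    D.A0 True j fun i y => nab I (G i (D.pt i y)).e (A i y) a (w i y)

variable {G : ∀ i, X i → Fr I M ι} {j : ℕ} {A : ∀ i, Y i → ι → M → CL V V}
  {u v l s : ∀ i, Y i → M → V}

theorem Mp.nab (hF : D.FF G) (hj : 4 ≤ j) (hA : ∀ c, D.Mp j fun i y => A i y c)
    (h : D.A0 True (j + 1) u) (a : ι) :
    D.A0 True j fun i y => nab I (G i (D.pt i y)).e (A i y) a (u i y) :=
  (h.dG hF hj a).add ((hA a).app hj le_rfl (h.lower hj j.le_succ))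

theorem Ep.of (hj : 8 ≤ j) (hF : D.FF G) (hB : D.RB V G) (hE : D.RE V G)
    (hA : ∀ c, D.Mp j fun i y => A i y c) (hs : ∀ i y c x, Skew (A i y c x)) : D.Ep G j A := by
  refine ⟨hj, fun h => ?_, fun h => Mp.nab hF (by omega) hA h⟩
  obtain ⟨l, rfl⟩ : ∃ l, j = l + 1 := ⟨j - 1, by omega⟩
  exact Mp.res hF hB hE (by omega) hA hs (h.lower (by omega) l.le_succ)

namespace Ep
variable (h : D.Ep G j A) {L : ∀ i, Y i → SL M V} {w : ∀ i, Y i → List (SL M V)}
include h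

theorem low (hu : D.A0 True (j + 1) u) : D.A0 True j u :=
  hu.lower (h.hj.trans' (by omega)) j.le_succ

theorem sl (hL : D.SLk j L) (hu : D.A0 True j u) :
    D.A0 True j fun i y => sl (G i (D.pt i y)) (A i y) (L i y) (u i y) := by
  rcases hL with ⟨T, rfl, h1, -⟩ | rfl
  · exact h1 _ _ hu
  · exact h.low (h.res hu)

theorem slT (hL : D.SLk j L) (hu : D.A0 True j u) :
    D.A0 True j fun i y => slT (G i (D.pt i y)) (A i y) (L i y) (u i y) := by
  rcases hL with ⟨T, rfl, -, h1⟩ | rfl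
  · exact h1 _ _ hu
  · exact h.low (h.res hu)

theorem wd (hw : Fa (D.SLk j) w) (hs : D.A0 True j s) :
    D.A0 True j fun i y => wd (Dgr80.sl (G i (D.pt i y)) (A i y)) (s i y) (w i y) := by
  induction hw with
  | nil => exact hs
  | cons ht _ ih => exact h.sl ht ih

theorem bk (hw : Fa (D.SLk j) w) : ∀ {l}, D.A0 True j l →
    D.A0 True j fun i y => bk (G i (D.pt i y)) (A i y) (w i y) (l i y) := by
  induction hw with
  | nil => exact id
  | cons ht _ ih => exact fun hl => ih (h.slT ht hl)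

theorem cur (r : CL U (CL V V)) (hv : D.A0 True (j + 1) v) (hl : D.A0 True (j + 1) l) :
    D.A0 True j fun i y => cur (G i (D.pt i y)) (A i y) r (v i y) (l i y) :=
  have h7 : 7 ≤ j := h.hj.trans' (by omega)
  A0.toLp (by omega) fun a => (((h.low hv).tp r h7 (h.nab hl a)).add
    ((h.low hl).tp r h7 (h.nab hv a))).imp .inl

theorem gc (r : CL U (CL V V)) (hs : D.A0 True j s) (hw : Fa (D.SLk j) w) : ∀ {l}, D.A0 True j l →
    D.A0 True j fun i y => gc (G i (D.pt i y)) (A i y) r (s i y) (w i y) (l i y) := by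
  induction hw with
  | nil => exact fun _ => A0.zero
  | cons ht hw ih =>
    intro l hl
    have h1 := ih (h.slT ht hl)
    rcases ht with ⟨T, rfl, -⟩ | rfl
    · exact h1
    · exact h1.sub (h.hj.trans' (by omega)) (h.cur r (h.res (h.wd hw hs)) (h.res hl))

end Ep

end Dm

namespace CF
variable {μ : MF M ι lam J} {r n : ℕ} (κ : CF D μ r) (j : ℕ)

/-- densities with pure gradients -/
structure DenP (d : ∀ i, Y i → Den M ι lam r) : Prop where
  h : D.A0 True j fun i y => (d i y).h (κ.c i y)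
  gA : ∀ f, D.A0 True j f → D.A0 True j (V := Fm ι μ.A) fun i y => (d i y).gA (κ.c i y) (f i y)
  gP : ∀ f, D.A0 True j f → D.A0 True j (V := μ.V) fun i y => (d i y).gP (κ.c i y) (f i y)

/-- pure seeds with gradients -/
structure SedP (S : ∀ i, Y i → Sed M ι lam r) : Prop where
  s : D.A0 True j (V := μ.A) fun i y => (S i y).s (κ.c i y)
  sA : ∀ l : ∀ i, Y i → M → μ.A, D.A0 True j l →
    D.A0 True j (V := Fm ι μ.A) fun i y => (S i y).sA (κ.c i y) (l i y)
  sP : ∀ l : ∀ i, Y i → M → μ.A, D.A0 True j l →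
    D.A0 True j (V := μ.V) fun i y => (S i y).sP (κ.c i y) (l i y)

variable {κ j}

theorem DenP.sed (hj : 7 ≤ j) {S S' : ∀ i, Y i → Sed M ι lam r} (h : κ.SedP j S)
    (h' : κ.SedP j S') : κ.DenP j fun i y => Den.sed (S i y) (S' i y) :=
  have m : ∀ {f} {s : ∀ i, Y i → M → μ.A}, D.A0 True j f → D.A0 True j s →
      D.A0 True j fun i y x => f i y x • s i y x := fun hf hs =>
    (A0.smul (Lev.self hj) (by omega) hf hs).imp Or.inl
  ⟨(h.s.inner hj h'.s).imp .inl, fun _ hf => (h.sA _ (m hf h'.s)).add (h'.sA _ (m hf h.s)),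
    fun _ hf => (h.sP _ (m hf h'.s)).add (h'.sP _ (m hf h.s))⟩

namespace OKp
variable (h : κ.OKp j) {u v : ∀ i, Y i → SW M} {w : ∀ i, Y i → List (An.La M)}
  {f g g' : ∀ i, Y i → M → ℝ}
include h

theorem mpV (a : ι) : D.Mp j fun i y => κ.W i y a :=
  ((h.W a).toMp opL h.h7).congr fun _ _ _ => (opL_hsL _).symm

theorem mpA (a : ι) : D.Mp j fun i y => μ.adW i (κ.W i y) a :=
  ((h.W a).toMp (adcL ∘L opL) h.h7).congr fun _ _ _ => by
    rw [ContinuousLinearMap.comp_apply, opL_hsL]; rfl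

theorem engV : D.Ep κ.G j κ.W := .of h.o.hj h.o.F h.o.bV h.o.eV h.mpV h.sk

theorem engA : D.Ep κ.G j fun i y => μ.adW i (κ.W i y) :=
  .of h.o.hj h.o.F h.o.bA h.o.eA h.mpA fun i y c x => adc_skw (h.sk i y c x)

theorem ltS (hu : Fa (κ.tr.LtY j) u) :
    Fa (D.SLk (V := μ.V) j) fun i y => (u i y).map (ltS (κ.F i y) (κ.c i y)) := h.o.ltS hu

theorem laS (hw : Fa (D.LaY j) w) :
    Fa (D.SLk (V := μ.A) j) fun i y => (w i y).map (laS (κ.c i y)) := h.o.laS hw

theorem wdVY (hu : Fa (κ.tr.LtY j) u) {s : ∀ i, Y i → M → μ.V} (hs : D.A0 True j s) :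
    D.A0 True j (V := μ.V) fun i y => wd ((κ.c i y).lt (κ.F i y)) (s i y) (u i y) :=
  (h.engV.wd (h.ltS hu) hs).congr fun i y => congrFun (lt_eq (κ.F i y) (κ.c i y) _ _)

theorem wdAY (hw : Fa (D.LaY j) w) {s : ∀ i, Y i → M → μ.A} (hs : D.A0 True j s) :
    D.A0 True j (V := μ.A) fun i y => wd ((κ.c i y).la (κ.F i y)) (s i y) (w i y) :=
  (h.engA.wd (h.laS hw) hs).congr fun i y => congrFun (la_eq (κ.F i y) (κ.c i y) _ _)

theorem swY (hu : Fa (κ.tr.LtY j) u) :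
    D.A0 True j (V := μ.V) fun i y => (κ.c i y).sw (κ.F i y) (u i y) := h.wdVY hu h.o.Φ

theorem denSw {T : ∀ i, Y i → Pk M lam}
    (hT : D.Ap j (V := μ.V) (W := μ.V) fun i y => pk (κ.c i y) (T i y)) (hu : Fa (κ.tr.LtY j) u)
    (hv : Fa (κ.tr.LtY j) v) : κ.DenP j fun i y => Den.sw (κ.F i y) (T i y) (u i y) (v i y) := by
  have nw : ∀ {u : ∀ i, Y i → SW M}, Fa (κ.tr.LtY j) u → D.A0 True j (V := μ.V) fun i y =>
      Dgr80.nw (κ.F i y) (κ.c i y) (u i y) := fun hu => h.wdVY hu h.o.nP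
  have m : ∀ {f} {u : ∀ i, Y i → SW M}, D.A0 True j f → Fa (κ.tr.LtY j) u →
      D.A0 True j (V := μ.V) fun i y x =>
        f i y x • pk (κ.c i y) (T i y) x (Dgr80.nw (κ.F i y) (κ.c i y) (u i y) x) := fun hf hu =>
    (A0.smul h.o.lev h.o.h4 hf (hT _ _ (nw hu))).imp Or.inl
  exact ⟨((hT _ _ (nw hu)).inner h.h7 (nw hv)).imp .inl,
    fun _ hf => (h.engV.gc opL h.o.nP (h.ltS hu) (m hf hv)).add
      (h.engV.gc opL h.o.nP (h.ltS hv) (m hf hu)),
    fun _ hf => (h.o.dn (h.engV.bk (h.ltS hu) (m hf hv))).add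
      (h.o.dn (h.engV.bk (h.ltS hv) (m hf hu)))⟩

theorem sedWd {S : ∀ i, Y i → Sed M ι lam r} (hS : κ.SedP j S) (hw : Fa (D.LaY j) w) :
    κ.SedP j fun i y => (S i y).wd (κ.F i y) (w i y) :=
  ⟨h.wdAY hw hS.s, fun _ hl => (h.engA.gc (adR _) hS.s (h.laS hw) hl).add
    (hS.sA _ (h.engA.bk (h.laS hw) hl)), fun _ hl => hS.sP _ (h.engA.bk (h.laS hw) hl)⟩

theorem cvY (hf : D.A0 True j f) (hg : κ.tr.Cd j g) (hg' : κ.tr.Cd j g') :
    D.A0 True j (V := μ.A) fun i y => (κ.c i y).sd (κ.F i y) (.cv (f i y) (g i y) (g' i y)) := by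
  have := h.o.hj
  have h7 := h.h7
  obtain ⟨l, rfl⟩ : ∃ l, j = l + 1 := ⟨j - 1, by omega⟩
  have hl : 4 ≤ l := by omega
  refine h.engA.low (h.engA.res (((h.resA hl le_rfl (A0.fsum Finset.univ fun s _ => ?_)).lower
    (by omega) (l + 1).le_succ)))
  exact h.Fg (((hf.mul h7 (hg s.1)).mul h7 (hg' s.2)).imp fun e => .inl (.inl e)) hl le_rfl s

theorem qY (hu : Fa (κ.tr.LtY j) u) (hv : Fa (κ.tr.LtY j) v) :
    D.A0 True j (V := μ.A) fun i y => (κ.c i y).sd (κ.F i y) (.q (u i y) (v i y)) :=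
  (h.o.q (h.swY hu) (h.swY hv)).imp Or.inl

theorem ntΦ {l : ℕ} (hl : l + 1 = j) (hg : κ.tr.Cd j g) :
    D.A0 True l (V := μ.V) fun i y => nt (κ.F i y) (κ.W i y) (g i y) (κ.Φ i y) := by
  subst hl
  have := h.o.hj
  exact A0.fsum Finset.univ fun a _ => (A0.smul (Lev.left h.h7 l.le_succ) (by omega) (hg a)
    (Mp.nab h.o.F (by omega) (fun c => (h.mpV c).lower l.le_succ) h.o.Φ a)).imp Or.inr

end OKp

end CF

end gen

variable {E3 : Type} [NormedAddCommGroup E3] [NormedSpace ℝ E3] [FiniteDimensional ℝ E3]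
  [MeasurableSpace E3] [BorelSpace E3]
  {H3 : Type} [TopologicalSpace H3] {I3 : ModelWithCorners ℝ E3 H3} [I3.Boundaryless]
  {Y : Type} [TopologicalSpace Y] [ChartedSpace H3 Y] [IsManifold I3 ∞ Y] [T2Space Y]
  [MeasurableSpace Y] [BorelSpace Y] [SecondCountableTopology Y] [CompactSpace Y]
  {κ : Type} [Fintype κ] {lam : Type} [Fintype lam]
  {E : Type} [NormedAddCommGroup E] [NormedSpace ℝ E] [FiniteDimensional ℝ E]
  [MeasurableSpace E] [BorelSpace E]
  {HM : Type} [TopologicalSpace HM] {I : ModelWithCorners ℝ E HM} [I.Boundaryless]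
  {M : Type} [TopologicalSpace M] [ChartedSpace HM M] [IsManifold I ∞ M] [MeasurableSpace M]
  [T2Space M] [BorelSpace M] [SecondCountableTopology M] {DY : YD I3 Y κ lam}
  {J : Type} {X Q : J → Type} [∀ i, NormedAddCommGroup (X i)] [∀ i, NormedSpace ℝ (X i)]
  {D : Dm I M (Option κ) X Q} {μ : MF M (Option κ) lam J} {r n : ℕ} {c : CF D μ r}
  {B : J → Base M (Option κ) lam} {a : ∀ i, Q i → Option κ → M → En lam}
  (K : ∀ i y, Nk DY (B i) ⟨c.F i y, a i y⟩) (j : ℕ)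

/-- the cyclic seeds -/
def NCp : Prop := ∀ d : Cy Y, d.OK DY.F → c.SedP j fun i y => ((K i y).cyc d).sed (c.F i y)

namespace NF
variable {K j} {P L : ∀ i, Q i → ℝ} (h : NF (c := c.tr) K P L) (o : c.OKp j) {N : ND Y lam}
include h o

theorem nq (δ : ℝ) : NH (c := c.tr) K δ j := h.nh o.o.F o.o.h4

theorem den (hN : N.OK DY) (hC : NCp K j) (k : N.J) : ∃ d, c.DenP j d ∧
    ∀ i y, (N.dg (K i y)).d k = dcut (K i y).χ (d i y) := by
  have b := h.nq o 0
  rcases k with k | k | k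
  · have := hN.d0 k
    cases e : N.d0 k with
    | sw u v =>
      rw [e] at this
      exact ⟨_, o.denSw (T := fun _ _ => .one) o.o.pk_one (b.sw o.o this.1) (b.sw o.o this.2), fun i y => by
        simp only [ND.dg, Sum.elim_inl, e]; rfl⟩
    | cy d w d' w' =>
      rw [e] at this
      exact ⟨_, .sed o.h7 (o.sedWd (hC d this.1) (b.las o.o this.2.1))
        (o.sedWd (hC d' this.2.2.1) (b.las o.o this.2.2.2)), fun i y => by
        simp only [ND.dg, Sum.elim_inl, e]; rfl⟩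
  · obtain ⟨h1, h2, h3⟩ := hN.d2 k
    exact ⟨_, o.denSw (T := fun _ _ => .re _) (o.o.pk_re (b.exl _ h1)) (b.sw o.o h2) (b.sw o.o h3),
      fun _ _ => rfl⟩
  · obtain ⟨h1, h2, h3⟩ := hN.d2 k
    exact ⟨_, o.denSw (T := fun _ _ => .im _) (o.o.pk_im (b.exl _ h1)) (b.sw o.o h2) (b.sw o.o h3),
      fun _ _ => rfl⟩

theorem β (hN : N.OK DY) (hC : NCp K j) (k : N.J) : D.A0 True j fun i y x =>
    (N.dg (K i y)).β (c.F i y) (c.c i y) k ((K i y).τ x) * (K i y).χ x := by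
  have b := h.nq o N.δ
  choose d d1 d2 using h.den o hN hC
  have sm : ContDiff ℝ ∞ fun v => fderiv ℝ (fun x => N.φ (N.cx x)) v (Pi.single k 1) :=
    (sm_fderiv (hN.sm.comp (contDiff_cx N))).clm_apply contDiff_const
  have h1 := b.fwin o.o sm (fun _ => 0) (w := fun k i y => ((N.dg (K i y)).d k).h (c.c i y))
    (fun k => (((b.cut 1 le_rfl).mul o.h7 (d1 k).h).aff.lower le_rfl o.o.h4).congr fun i y x => by
      rw [d2]; rfl)
    (fun k i y x hx => by rw [d2]; exact mul_eq_zero_of_left ((K i y).χ_zero hx) _)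
    (d := 3) (by norm_num)
  have h2 := b.fwin o.o ((contDiff_const (c := (Nka63.vY DY)⁻¹)).mul (contDiff_apply ℝ ℝ ()))
    (fun _ => 0) (fun _ => h1.lower le_rfl o.o.h4) (fun _ i y x hx => mul_eq_zero_of_left
      (ct_zero fun e => hx (Dp_mono (by norm_num) e)) _) le_rfl
  refine h.pure o.o.h4 (h2.congr fun i y x => (cv_eq (K i y) N.δ _ x).trans ?_) fun i y x hx =>
    mul_eq_zero_of_right _ ((K i y).χ_zero fun e => hx (Nka63.dp_mono _ (by norm_num) e))
  simp only [add_zero, (K i y).cut_τ (show (1 : ℝ) ≤ 3 by norm_num), mul_comm _ ((K i y).χ x)]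
  rfl

theorem q1D (hN : N.OK DY) (hC : NCp K j) (hB : UB D.P (μ.pp B)) :
    D.A0 True j (V := μ.V) fun i y => (N.q1 (n := n) (K i y)).D (c.c i y) :=
  have g : D.A0 True j (V := μ.V) fun i y => (N.dg (K i y)).gP (c.F i y) (c.c i y) :=
    A0.fsum Finset.univ fun k _ =>
      let ⟨_, d1, d2⟩ := h.den o hN hC k
      (d1.gP _ (h.β o hN hC k)).congr fun i y x => by rw [d2]; rfl
  (A0.fsum Finset.univ fun e _ => (A0.smul o.o.lev o.o.h4 ((h.nq o 0).dτ e)
    ((g.app o.o.h4 hB).app o.o.h4 (o.o.ρ e))).imp Or.inr).neg o.o.h4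

theorem q1C (hN : N.OK DY) (hC : NCp K j) (hB : UB D.P (μ.p2 B)) :
    D.A0 True j (V := Fm (Option κ × Option κ) μ.A) fun i y =>
      (N.q1 (n := n) (K i y)).C (c.c i y) :=
  have g : D.A0 True j (V := Fm (Option κ) μ.A) fun i y => (N.dg (K i y)).gA (c.F i y) (c.c i y) :=
    A0.fsum Finset.univ fun k _ =>
      let ⟨_, d1, d2⟩ := h.den o hN hC k
      (d1.gA _ (h.β o hN hC k)).congr fun i y x => by rw [d2]; rfl
  ((A0.toLp o.o.h4 fun s => (A0.smul o.o.lev o.o.h4 ((h.nq o 0).dτ s.1) (g.clm o.o.h4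
    (PiLp.proj 2 (fun _ : Option κ => μ.A) s.2))).imp Or.inr).app o.o.h4 hB).clm o.o.h4
      ((-8 : ℝ) • ContinuousLinearMap.id ℝ _)

theorem ew (hy : ∀ i, Sm I3 (N.y i)) : D.A0 False 4 fun i y => N.ew (K i y) (c.c i y) := by
  have b := h.nq o 0
  have := o.o.hj
  obtain ⟨l, rfl⟩ : ∃ l, j = l + 1 := ⟨j - 1, by omega⟩
  have h7 : 7 ≤ l := by omega
  have χ : ∀ {l}, 4 ≤ l → D.A0 True l fun i y => (K i y).χ4 := fun hl => h.cut hl (by norm_num)
  exact ((χ (by omega)).mul h7 ((A0.fsum Finset.univ fun k _ => ((o.cvY (χ o.o.h4) b.dτ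
    (b.cdx o.o (hy k))).lower (by omega) l.le_succ).sq h7).add (((A0.smul (Lev.self h7) (by omega)
      (χ (by omega)) (o.ntΦ rfl b.dτ)).imp .inl).sq h7))).aff.lower le_rfl (by omega)

theorem tc (hy : ∀ i, Sm I3 (N.y i)) {C : YTC} (hC : ContDiff ℝ ∞ C.k) {d : ℝ} (hd : 1 ≤ d) :
    D.A0 False j fun i y x => (K i y).cut d ((K i y).tm x) *
      (N.tc (K i y) C).val (c.F i y) (K i y).τ N.δ (c.c i y) ((K i y).τ x) :=
  (h.nq o N.δ).fwin o.o (hC.comp (contDiff_pi.2 fun i => contDiff_nr.comp (contDiff_apply ℝ ℝ i)))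
    C.s (fun _ => h.ew o hy) (fun _ => NH.ew_zero) hd

theorem tl (hy : ∀ i, Sm I3 (N.y i)) {u : List (YL Y ⊕ YTC)} (hu : tlOK I3 u) :
    Fa (c.tr.LtY j) fun i y =>
      (u.map (N.tl (K i y))).map (Dgr80.tl (c.F i y) (K i y).τ N.δ (c.c i y)) := by
  simp only [List.map_map]
  refine .list fun t ht => ?_
  have := hu t ht
  rcases t with t | C
  · exact (h.nq o 0).lt o.o this
  · exact .mul (h.tc o hy this.1 le_rfl)

theorem ta (hy : ∀ i, Sm I3 (N.y i)) {u : List (An.La Y ⊕ YTC)} (hu : taOK I3 u) :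
    Fa (D.LaY j) fun i y =>
      (u.map (N.ta (K i y))).map (Dgr80.ta (c.F i y) (K i y).τ N.δ (c.c i y)) := by
  simp only [List.map_map]
  refine .list fun t ht => ?_
  have := hu t ht
  rcases t with t | C
  · exact (h.nq o 0).la o.o this
  · exact .mul (h.tc o hy this.1 le_rfl)

theorem ocp (hy : ∀ i, Sm I3 (N.y i)) {T : YT Y} (hT : T.OK I3) :
    D.A0 False j fun i y => N.oc (K i y) T (c.c i y) :=
  (h.tc o hy (contDiff_out (C := T.C) (by cases T <;> exact hT.1.1)) (d := 3) (by norm_num)).congr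
    fun i y x => by rw [ND.oc, (K i y).cut_τ (by norm_num)]

theorem tD (hy : ∀ i, Sm I3 (N.y i)) {T : YT Y} (hT : T.OK I3) (hB : UB D.P (μ.pm B)) :
    D.A0 True j (V := μ.V) fun i y =>
      (c.c i y).tD (B i) (c.F i y) (N.tm (K i y) (c.c i y) n T) := by
  cases T with
  | lin C u => exact (o.swY (h.tl o hy hT.2)).app o.o.h4 hB
  | _ => exact A0.zero

theorem tC (hy : ∀ i, Sm I3 (N.y i)) {T : YT Y} (hT : T.OK I3) (hB : UB D.P (μ.p2 B)) :
    D.A0 True j (V := Fm (Option κ × Option κ) μ.A) fun i y =>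
      (c.c i y).tC (B i) (c.F i y) (N.tm (K i y) (c.c i y) n T) := by
  have b := h.nq o 0
  cases T with
  | lin C u => exact A0.zero
  | ad C g u v l =>
    obtain ⟨-, h1, h2, h3, h4⟩ := hT
    exact (o.o.wedge b.dτ (b.cdx o.o h1) (o.wdAY (h.ta o hy h4)
      (o.qY (h.tl o hy h2) (h.tl o hy h3)))).app o.o.h4 hB
  | cv C g f g1 g2 l =>
    obtain ⟨-, h1, h2, h3, h4, h5⟩ := hT
    exact (o.o.wedge b.dτ (b.cdx o.o h1) (o.wdAY (h.ta o hy h5)
      (o.cvY (h.ext o.o.h4 h2) (b.cd o.o h3) (b.cd o.o h4)))).app o.o.h4 hB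

theorem q2D (hy : ∀ i, Sm I3 (N.y i)) {T : YT Y} (hT : T.OK I3) (hB : UB D.P (μ.pm B)) :
    D.A0 True j (V := μ.V) fun i y => (N.q2 (n := n) (K i y) T).D (c.c i y) :=
  (A0.smul o.o.lev o.o.h4 (h.ocp o hy hT) ((h.tD o hy hT hB).nrm o.o.hj)).imp Or.inr

theorem q2C (hy : ∀ i, Sm I3 (N.y i)) {T : YT Y} (hT : T.OK I3) (hB : UB D.P (μ.p2 B)) :
    D.A0 True j (V := Fm (Option κ × Option κ) μ.A) fun i y =>
      (N.q2 (n := n) (K i y) T).C (c.c i y) :=
  (A0.smul o.o.lev o.o.h4 (h.ocp o hy hT) ((h.tC o hy hT hB).nrm o.o.hj)).imp Or.inr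

end NF

end Crest.Agent.X212.Mon62
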