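import Crest.Agent.X212.Mon62.Pc
import Crest.Agent.X212.Mon62.NkT
import Crest.Agent.X212.An.CutT
import Crest.Agent.X212.Ink3.Main

/-! # Row 212, P-SM: the terms of a job for moving base connections and decaying spinors -/

set_option autoImplicit false
set_option linter.unusedSectionVars false
set_option maxSynthPendingDepth 3
noncomputable section
open scoped Manifold ContDiff Topology InnerProductSpace
open MeasureTheory Set Function Filter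

namespace Crest.Agent.X212.Mon62
open An Sob92 Prm93 Wz78 Mod61 Dm Nd18 Cys97
open Ell97 (UB)
open Wrd81 (TmIn tmX)

section gen
variable {E : Type} [NormedAddCommGroup E] [NormedSpace ℝ E] [FiniteDimensional ℝ E]
  [MeasurableSpace E] [BorelSpace E]
  {HM : Type} [TopologicalSpace HM] {I : ModelWithCorners ℝ E HM} [I.Boundaryless]
  {M : Type} [TopologicalSpace M] [ChartedSpace HM M] [IsManifold I ∞ M]
  [MeasurableSpace M] [T2Space M] [BorelSpace M] [SecondCountableTopology M]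
  {lam : Type} [Fintype lam] {T : Type} [NormedAddCommGroup T] [NormedSpace ℝ T]

section cut
variable {ι : Type} [Fintype ι] {𝔉 : Fam I M ι lam T} {o : Ref 𝔉} {r n m k : ℕ} {Ω : Set M}

theorem xi_modelP (H : Hy o) (h0 : o.Φ0 = 0) (hk : 7 ≤ k) {ξ : Xi M lam r} (hξ : XiIn I Ω ξ)
    (x : M) : ∃ g : o.C r k → En (Fin o.m.N), ContDiffOn ℝ ∞ g (o.U r k) ∧
      ∀ y : Pnt o r, g (y.pt k) = y.cfg.xi (𝔉.G y.t).F ξ x := by
  rcases isEmpty_or_nonempty (Pnt o r) with e | ⟨⟨y₀⟩⟩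
  · exact ⟨fun _ => 0, contDiffOn_const, fun y => e.elim y⟩
  have a := H.cfP h0 hk (hk := by omega) y₀
  cases ξ with
  | one => exact ⟨fun _ => 1, contDiffOn_const, fun _ => rfl⟩
  | aw ξ => exact sc_out ((Csm97.sc_ev a.o.h4 (a.aw hξ) fun _ => x).clm opL)
  | qj d s u v l => exact sc_out ((Csm97.sc_ev a.o.h4
      (a.qj hξ.1 hξ.2.1 hξ.2.2.1 hξ.2.2.2.1 hξ.2.2.2.2) fun _ => x).clm opL)

/-- **the rows of the cuts**, moving base connections -/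
theorem repC_tmP (H : Hy o) (h0 : o.Φ0 = 0) (hk : 7 ≤ k) {c : Cut M lam}
    (hc : ∀ t ∈ 𝔉.Q, c.OK 𝔉.B (𝔉.G t).F) {t : Tc M lam r} (ht : XiIn I Ω t.ξ) {g : T → ℝ}
    (hg : ContDiffOn ℝ ∞ g 𝔉.Q) : ∃ f, RepC o k (tmC 𝔉 c t g) f :=
  let ⟨_, a, b⟩ := xi_modelP H h0 hk ht c.x0
  Csm97.tc_model o H.ok hc t a b hg

theorem repC_zero {c : Cut M lam} {t : Tc M lam r} {g : T → ℝ} (hg : ∀ s ∈ 𝔉.Q, g s = 0) :
    ∃ f, RepC o k (tmC 𝔉 c t g) f :=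
  ⟨fun _ => 0, contDiffOn_const, fun y => ((ev_tm _ _ _).trans (by
    rw [hg _ y.ht]; exact ContinuousLinearMap.ext fun v => zero_smul ℝ _)).symm⟩

end cut

variable {E3 : Type} [NormedAddCommGroup E3] [NormedSpace ℝ E3] [FiniteDimensional ℝ E3]
  [MeasurableSpace E3] [BorelSpace E3]
  {H3 : Type} [TopologicalSpace H3] {I3 : ModelWithCorners ℝ E3 H3} [I3.Boundaryless]
  {Y : Type} [TopologicalSpace Y] [ChartedSpace H3 Y] [IsManifold I3 ∞ Y] [T2Space Y]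
  [MeasurableSpace Y] [BorelSpace Y] [SecondCountableTopology Y] [CompactSpace Y]
  {κ : Type} [Fintype κ] {DY : YD I3 Y κ lam}

theorem NF.tr {J : Type} {X Q : J → Type} [∀ i, NormedAddCommGroup (X i)]
    [∀ i, NormedSpace ℝ (X i)] {D : Dm I M (Option κ) X Q} {μ : MF M (Option κ) lam J} {r : ℕ}
    {c : CF D μ r} {B : J → Base M (Option κ) lam} {a : ∀ i, Q i → Option κ → M → En lam}
    {K : ∀ i y, Nk DY (B i) ⟨c.F i y, a i y⟩} {P L : ∀ i, Q i → ℝ} (h : NF (c := c) K P L) :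
    NF (c := c.tr) K P L := ⟨h.p, h.q, h.χ, h.us⟩

variable {𝔉 : Fam I M (Option κ) lam T} {o : Ref 𝔉} {r n m k : ℕ} {p : T → Prop}
  {K : ∀ t, p t → Nk DY 𝔉.B (𝔉.G t)} {O : Set T} {N : ND Y lam} {F1 : Fr I M (Option κ)}
  {ψ : M → ℝ} {ε : Prop} {ν : T → ℝ}

theorem Mv.cpt (h : Mv K O) : ∃ C, IsCompact C ∧ ∀ t ∈ O, ∀ k (f : Y → ℝ), ∀ x ∉ C,
    (K t k).ext f x = 0 :=
  let ⟨_, C, _, _, _, _, _, a2, _, _, _, _, a7⟩ := h
  ⟨C, a2, fun t ht k f _ hx => (K t k).ext_zero f fun e =>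
    hx ((a7 t ht k).2.2.1 (Nka63.dp_mono _ (by norm_num) e))⟩

variable (H : Hy o) (h0 : o.Φ0 = 0)
include H h0

section ca
variable (hk7 : 7 ≤ k) {hk : 3 ≤ k} (y₀ : Pnt o r) (h : Mv K 𝔉.Q)
include hk7 h

theorem Mv.ncp (W : Wf 𝔉 F1 ψ) (L : Lg 𝔉 F1) : NCp (kd K H.ok hk y₀ h.act) (k + 1) := fun _ hd =>
  have c := H.cfP h0 hk7 (hk := hk) y₀
  let ⟨_, _, f⟩ := h.nf H.ok (hk := hk) (y₀ := y₀)
  have a := f.tr.nq c 0
  let ⟨φ, h1, h2⟩ := h.sep _ _ hd.sep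
  let ⟨_, c1, c2⟩ := h.cpt
  let ⟨u⟩ := W.uw L H (hk := hk) y₀
  c.cyc ⟨a.ex c.o (Cb.sm hd.sep.1), a.ex c.o (Cb.sm hd.sep.2.1), fun _ => φ,
      ub_of_finite fun _ => h1, fun _ y x => h2 _ y.ht _ x⟩
    (a.las c.o fun t ht => Nka63.laOK_of (hd.w t ht))
    (a.las c.o fun t ht => Nka63.laOK_of (hd.w' t ht)) u
    (fun _ y a x => ((H.ok.G _ y.ht).P ▸ (y.ad0 H.ok).conn.cc.proj a x :)) c1
    fun _ y x hx => ⟨c2 _ y.ht _ _ x hx, c2 _ y.ht _ _ x hx⟩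

theorem Mv.ca1p (W : Wf 𝔉 F1 ψ) (L : Lg 𝔉 F1) (hN : N.OK DY) :
    Ca H.ok True hk y₀ (vl (Q1 n m K N)) :=
  have c := H.cfP h0 hk7 (hk := hk) y₀
  let ⟨_, _, f⟩ := h.nf H.ok (hk := hk) (y₀ := y₀)
  have b := h.ncp H h0 hk7 (hk := hk) y₀ W L
  Ca.dq h.act (f.tr.q1D c hN b (ub_pp H.ok)) (f.tr.q1C c hN b (ub_p2 H.ok)) fun _ _ _ _ => rfl

theorem Mv.ca2p (hy : ∀ i, Sm I3 (N.y i)) {w : YT Y} (hw : w.OK I3) :
    Ca H.ok True hk y₀ (vl (Q2 n m K N w)) :=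
  have c := H.cfP h0 hk7 (hk := hk) y₀
  let ⟨_, _, f⟩ := h.nf H.ok (hk := hk) (y₀ := y₀)
  Ca.dq h.act (f.tr.q2D c hy hw (ub_pm H.ok)) (f.tr.q2C c hy hw (ub_p2 H.ok)) fun _ _ _ _ => rfl

end ca

variable (hν : ContDiffOn ℝ ∞ ν 𝔉.Q)
  (hM : ∀ t ∈ 𝔉.Q, (∀ᶠ s in 𝓝 t, s ∈ 𝔉.Q → p s → ν s = 0) ∨ ∃ O ∈ 𝓝 t, Mv K O)
include hν hM

/-- **Moving compact necks: the gradient term.** -/
theorem Hy.laS1p (W : Wf 𝔉 F1 ψ) (hN : N.OK DY) :
    La H.ok ε (vl (o := o) (S1 (r := r) n m K N ν)) :=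
  (la_par hν fun t ht => (hM t ht).imp_right fun ⟨_, hO, h⟩ =>
    ((eventually_smallSets_subset.2 hO).and (W.lg H.ok ht)).mono fun Q' a hQ _ _ h7 y₀ =>
      Mv.ca1p (𝔉 := Mon62.res 𝔉 Q') (H.res hQ) h0 h7 y₀ (h.mono (inter_subset_right.trans a.1)) W.res
        a.2 hN).congr (vl_S1 K ν H.ok hN.sm)

/-- **Moving compact necks: the non-gradient terms.** -/
theorem Hy.laS2p (hy : ∀ i, Sm I3 (N.y i)) (q : YW I3 Y →₀ ℝ) :
    La H.ok ε (vl (o := o) (S2 (r := r) n m K N ν q)) :=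
  S2_eq' K ν q ▸ La.vsum _ fun w _ => La.smul (q w) (la_par hν fun t ht => (hM t ht).imp_right
    fun ⟨_, hO, h⟩ => (eventually_smallSets_subset.2 hO).mono fun Q' a hQ _ _ h7 y₀ =>
      Mv.ca2p (𝔉 := Mon62.res 𝔉 Q') (H.res hQ) h0 h7 y₀ (h.mono (inter_subset_right.trans a)) hy w.2)

omit hν hM h0 H

theorem S1_nil (hN : Ink3.Nil N) (t : T) : S1 (r := r) n m K N ν t = 0 := by
  by_cases e : p t
  · rw [S1, dq, dif_pos e, (hN.smul _).q1]; rfl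
  · rw [S1, dq, dif_neg e]

theorem S2_zero : S2 (r := r) n m K N ν 0 = 0 := by rw [S2_eq']; rfl

end gen

/-! ### jobs -/

open M Cht98

variable {Wi : Type} {X : Mf 4} {A κ lam : Type} [Fintype A] [Fintype κ] [Fintype lam]
  [DecidableEq lam] {M : Mark X A κ} {W : World M} {Ll : ML M lam} {Λ : Lns W Ll}
  {A' h : Type} [Fintype A'] [DecidableEq A'] [Fintype h] {r n m : ℕ} {J : Job Wi Λ A' h r n}
  {c : M.Cl} {σ : Cel A'} {T : Type} [NormedAddCommGroup T] [NormedSpace ℝ T]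
  {𝔉 : Mod61.Fam (W.Z c).I (W.Z c).M (Option κ) (lam ⊕ lam) T} {s : T → A' → ℝ}

namespace JL
variable (L : JL J σ 𝔉 s) {o : Ref 𝔉} (H : Hy o) (h0 : o.Φ0 = 0)
  {F1 : Fr (W.Z c).I (W.Z c).M (Option κ)} {ψ : (W.Z c).M → ℝ} {ε : Prop}
include L H h0

theorem la_twp (w : Wi) : La H.ok ε (vl (o := o) fun t =>
    J.co w (s t) • tmX 𝔉 m ((J.tp c).tm (J.tw w)) t) := by
  by_cases e : ∃ t ∈ 𝔉.Q, J.co w (s t) ≠ 0
  · obtain ⟨t, ht, e⟩ := e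
    exact (H.la_tmp h0 (L.ok.tw_in L.mem (L.ov t ht) e).choose_spec).par
      ((L.ok.co w).comp_contDiffOn L.sm)
  · exact La.eqOn (σ := 0) La.zero fun t ht =>
      smul_eq_zero_of_left (by_contra fun k => e ⟨t, ht, k⟩) _

/-- **the gradient terms gain a derivative** if there are none on the ends -/
theorem sm0p (w : Wf 𝔉 F1 ψ) (hE : ∀ a ∈ cylW c, Ink3.Nil (J.xs a).N) : o.Sm (x0 m J c s) := by
  refine La.sm (h := H.ok) (La.eqOn (La.vsum _ fun i _ => ?_) fun _ => L.x0_eq) (L.pj0 H.ok)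
  obtain ⟨a, _ | b⟩ := i
  · exact H.laS1p h0 (L.sν a) (fun _ => L.mv H.ok a) w (L.ok.xs a).2
  by_cases e : a ∈ cylW c
  · exact La.eqOn (σ := 0) La.zero fun t _ => S1_nil (hE a e) t
  · exact H.laS1p h0 (L.sν a) (fun _ _ => .inl (.of_forall fun _ _ k =>
      (e ⟨k.2.2.2.2, k.2.1⟩).elim)) w (L.ok.xs a).2

/-- **the terms with an index gain a derivative** if there are no neck terms on the ends -/
theorem smwp (w : Wi) (hE : ∀ a ∈ cylW c, (J.xs a).ty w = 0) : o.Sm (xw m J c s w) := by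
  refine La.sm (h := H.ok) (La.eqOn ((L.la_twp H h0 w).vadd (La.vsum _ fun i _ => ?_))
    fun _ => L.xw_eq w) (L.pjw H.ok w)
  obtain ⟨a, _ | b⟩ := i
  · exact H.laS2p h0 (L.sν a) (fun _ => L.mv H.ok a) (L.ok.xs a).2.sy _
  by_cases e : a ∈ cylW c
  · exact La.eqOn (σ := 0) La.zero fun t _ => by rw [hE a e, S2_zero]
  · exact H.laS2p h0 (L.sν a) (fun _ _ => .inl (.of_forall fun _ _ k =>
      (e ⟨k.2.2.2.2, k.2.1⟩).elim)) (L.ok.xs a).2.sy _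

/-- **the rows of the cuts** -/
theorem rcp {k : ℕ} (hk : 7 ≤ k) {κ' : Cut (W.Z c).M (lam ⊕ lam)}
    (hc : ∀ t ∈ 𝔉.Q, κ'.OK 𝔉.B (𝔉.G t).F) (i : h) (w : Wi) :
    ∃ f, RepC o k (tmC 𝔉 κ' ((J.tp c).tc (J.tc i w)) fun t => J.cc i w (s t)) f := by
  by_cases e : ∃ t ∈ 𝔉.Q, J.cc i w (s t) ≠ 0
  · obtain ⟨t, ht, e⟩ := e
    exact repC_tmP H h0 hk hc (L.ok.tc_in L.mem (L.ov t ht) e).choose_spec
      ((L.ok.cc i w).comp_contDiffOn L.sm)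
  · exact repC_zero fun t ht => by_contra fun k => e ⟨t, ht, k⟩

end JL

end Crest.Agent.X212.Mon62
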