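import Mathlib.Analysis.InnerProductSpace.Basic

/-! Row 212, ZL: the algebra of the estimate. -/

set_option autoImplicit false
noncomputable section
open scoped InnerProductSpace

namespace Crest.Agent.X212.Mon62.Zl

theorem quad {x z p q : ℝ} (hz : 0 ≤ z) (hp : 0 ≤ p) (hq : 0 ≤ q)
    (h : x ^ 2 ≤ p * z * x + q * z ^ 2) : x ≤ (p + q + 1) * z := by
  by_contra! k
  have h1 : (q + 1) * z ≤ x - p * z := by linarith
  have h2 : z ≤ x := by nlinarith [mul_nonneg hp hz, mul_nonneg hq hz]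
  have h3 : 0 < x := by nlinarith [mul_nonneg hp hz, mul_nonneg hq hz]
  nlinarith [mul_nonneg hq (mul_nonneg hz (sub_nonneg.2 h2)), mul_pos h3 (sub_pos.2 k)]

variable {S T : Type} [SeminormedAddCommGroup S] [InnerProductSpace ℝ S]
  [SeminormedAddCommGroup T] [InnerProductSpace ℝ T] (A σ : S →ₗ[ℝ] T) (m D : S →ₗ[ℝ] S)

/-- a parallel summand -/
structure Pr (P : S →ₗ[ℝ] S) (C : ℝ) (c : S → ℝ) : Prop where
  id : ∀ u, P (P u) = P u
  sy : ∀ u w, ⟪P u, w⟫_ℝ = ⟪u, P w⟫_ℝ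
  cm : ∀ u, P (m u) = m (P u)
  cD : ∀ u, P (D u) = D (P u)
  B : ∀ u w, P w = 0 → ⟪A w, A (P u)⟫_ℝ = 0
  O : ∀ u w, ⟪A (P u) - σ (D (P u)), σ (P w)⟫_ℝ = 0
  C0 : 0 ≤ C
  c0 : ∀ u, 0 ≤ c u
  poi : ∀ u, ‖P u‖ ^ 2 ≤ C ^ 2 * (‖A (P u)‖ ^ 2 - ‖D (P u)‖ ^ 2) + c u ^ 2

/-- the operator on the cylinder -/
structure Hy (δ : ℝ) : Prop where
  I : ∀ u w, ⟪σ u, σ w⟫_ℝ = ⟪u, w⟫_ℝ
  ms : ∀ u w, ⟪m u, w⟫_ℝ = ⟪u, m w⟫_ℝ
  mb : ∀ u, ‖m u‖ ≤ δ * ‖u‖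
  S : ∀ u w, ⟪σ (m u), A w⟫_ℝ - ⟪m u, D w⟫_ℝ = ⟪A u, σ (m w)⟫_ℝ - ⟪D u, m w⟫_ℝ
  D0 : ∀ u, ⟪D u, u⟫_ℝ = 0
  D1 : ∀ u, ⟪D u, m u⟫_ℝ ≤ 0
  d0 : 0 ≤ δ

variable {A σ m D} {P P' : S →ₗ[ℝ] S} {C C' δ : ℝ} {c c' : S → ℝ}

theorem pr0 : Pr A σ m D 0 0 0 := by constructor <;> simp

theorem Hy.nσ (H : Hy A σ m D δ) (u : S) : ‖σ u‖ = ‖u‖ := by
  rw [norm_eq_sqrt_real_inner, H.I, ← norm_eq_sqrt_real_inner]

theorem Pr.lin (h : Pr A σ m D P C c) (u : S) {t : ℝ} (ht : 0 ≤ t)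
    (k : ‖A (P u)‖ ^ 2 - ‖D (P u)‖ ^ 2 ≤ t ^ 2) : ‖P u‖ ≤ C * t + c u := by
  have := h.c0 u
  have := mul_nonneg h.C0 ht
  refine abs_le_of_sq_le_sq' ((h.poi u).trans ?_) (by positivity) |>.2
  nlinarith [mul_le_mul_of_nonneg_left k (sq_nonneg C)]

theorem Pr.cross (h : Pr A σ m D P C c) (H : Hy A σ m D δ) (u : S) {w : S} (hw : P w = 0) :
    ⟪A w + σ (m w), A (P u) - σ (m (P u))⟫_ℝ = 0 ∧
      ⟪A (P u) + σ (m (P u)), A w - σ (m w)⟫_ℝ = 0 := by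
  have o : ∀ u w, P w = 0 → ⟪P u, w⟫_ℝ = 0 := fun u w e => by rw [h.sy, e, inner_zero_right]
  have o' : ∀ u w, P w = 0 → ⟪w, P u⟫_ℝ = 0 := fun u w e => by rw [real_inner_comm, o u w e]
  have e1 : P (m w) = 0 := by rw [h.cm, hw, map_zero]
  have e2 : P (D w) = 0 := by rw [h.cD, hw, map_zero]
  have s1 := H.S w (P u)
  have s2 := H.S (P u) w
  have b := h.B u w hw
  rw [← h.cD, ← h.cm] at s1 s2
  rw [o' _ _ e1, o' _ _ e2] at s1
  rw [o _ _ e1, o _ _ e2] at s2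
  simp only [inner_add_left, inner_sub_right, H.I, ← h.cm, o _ _ e1, o' _ _ e1,
    real_inner_comm (A w) (A (P u))]
  constructor <;> linarith

theorem step1 (h : Pr A σ m D P C c) (H : Hy A σ m D δ) {η : ℝ} (h0 : 0 ≤ η)
    (h1 : η * δ * C ^ 2 ≤ 1 / 4) : ∃ K ≥ 0, ∀ u,
    ‖A (P u)‖ + ‖P u‖ ≤ K * (‖A u + σ (η • P u + m (u - P u))‖ + c u) := by
  have := H.d0
  have := h.C0
  refine ⟨(1 + C) * (2 * (1 + δ * C) + (2 * δ + 4 * (η * δ)) + 1) + 1, by positivity, fun u => ?_⟩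
  set f := A u + σ (η • P u + m (u - P u)) with hf
  have e : f = (A (u - P u) + σ (m (u - P u))) + (A (P u) + η • σ (P u)) := by
    simp only [hf, map_add, map_sub, map_smul]; abel
  have k1 := (h.cross H u (w := u - P u) (by rw [map_sub, h.id, sub_self])).1
  have k2 := h.O u (m u)
  have k3 := h.O u u
  rw [inner_sub_left, H.I] at k2 k3
  rw [h.cm] at k2
  rw [H.D0] at k3
  have k4 := H.D1 (P u)
  have k5 : ⟪f, A (P u) - σ (m (P u))⟫_ℝ = ‖A (P u)‖ ^ 2 - ⟪D (P u), m (P u)⟫_ℝ -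
      η * ⟪P u, m (P u)⟫_ℝ := by
    rw [e, inner_add_left, k1]
    simp only [inner_add_left, inner_sub_right, real_inner_smul_left, H.I,
      real_inner_self_eq_norm_sq, real_inner_comm (A (P u)) (σ (P u))]
    linear_combination η * k3 - k2
  have k6 := (real_inner_le_norm f _).trans (mul_le_mul_of_nonneg_left ((norm_sub_le _ _).trans
    (add_le_add_right ((H.nσ _).trans_le (H.mb (P u))) (‖A (P u)‖))) (norm_nonneg f))
  have k7 := (real_inner_le_norm (P u) _).trans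
    (mul_le_mul_of_nonneg_left (H.mb (P u)) (norm_nonneg _))
  have k8 := h.lin u (norm_nonneg (A (P u))) (sub_le_self _ (sq_nonneg _))
  have c0 := h.c0 u
  have f0 := norm_nonneg f
  have y0 := norm_nonneg (P u)
  have x0 := norm_nonneg (A (P u))
  generalize ‖A (P u)‖ = x at *
  generalize ‖P u‖ = y at *
  generalize ‖f‖ = F at *
  have k9 : y ^ 2 ≤ 2 * C ^ 2 * x ^ 2 + 2 * c u ^ 2 := by
    nlinarith [pow_le_pow_left₀ y0 k8 2, sq_nonneg (C * x - c u)]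
  have a0 := mul_nonneg h0 H.d0
  have a1 : η * ⟪P u, m (P u)⟫_ℝ ≤ x ^ 2 / 2 + 2 * (η * δ) * c u ^ 2 := by
    nlinarith [mul_le_mul_of_nonneg_left k7 h0, mul_le_mul_of_nonneg_left k9 a0,
      mul_le_mul_of_nonneg_right h1 (sq_nonneg x)]
  have a2 := mul_le_mul_of_nonneg_left k8 (mul_nonneg f0 H.d0)
  have a3 : x ≤ (2 * (1 + δ * C) + (2 * δ + 4 * (η * δ)) + 1) * (F + c u) :=
    quad (by positivity) (by positivity) (by positivity) (by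
      have b1 : 0 ≤ (1 + δ * C) * c u * x := by positivity
      have b2 : 0 ≤ δ * (F ^ 2 + F * c u + c u ^ 2) := by positivity
      have b3 : 0 ≤ η * δ * (F ^ 2 + 2 * F * c u) := by positivity
      nlinarith)
  nlinarith [mul_le_mul_of_nonneg_left a3 h.C0]

theorem step2 (h : Pr A σ m D P C c) (H : Hy A σ m D δ) {k : ℝ} (hk : 2 * δ ≤ k) (v : S)
    (gap : k * ‖v - P v‖ ≤ ‖A (v - P v)‖) :
    k * ‖v - P v‖ ≤ 2 * ‖A v + σ (m v)‖ ∧ ∀ u, P u = P v →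
      ‖P v‖ ≤ C * (4 * ‖A v + σ (m v)‖) + c u := by
  set w := v - P v with hw
  set G := A v + σ (m v) with hG
  have e : G = (A (P v) + σ (m (P v))) + (A w + σ (m w)) := by
    simp only [hG, hw, map_sub]; abel
  have k1 := (h.cross H v (w := w) (by rw [hw, map_sub, h.id, sub_self])).2
  have k2 : ⟪G, A w - σ (m w)⟫_ℝ = ‖A w‖ ^ 2 - ‖σ (m w)‖ ^ 2 := by
    rw [e, inner_add_left, k1]
    simp only [inner_add_left, inner_sub_right, real_inner_self_eq_norm_sq,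
      real_inner_comm (A w) (σ (m w))]
    ring
  have k3 := (real_inner_le_norm G _).trans
    (mul_le_mul_of_nonneg_left (norm_sub_le (A w) (σ (m w))) (norm_nonneg G))
  have k4 : 2 * ‖σ (m w)‖ ≤ ‖A w‖ := by
    nlinarith [H.nσ (m w), H.mb w, mul_le_mul_of_nonneg_right hk (norm_nonneg w)]
  have k5 : ‖A w‖ ≤ 2 * ‖G‖ := by
    by_contra! k
    nlinarith [norm_nonneg G, norm_nonneg (σ (m w))]
  refine ⟨gap.trans k5, fun u e' => e' ▸ h.lin u (by positivity) ?_⟩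
  have a1 : ‖A (P v) + σ (m (P v))‖ ≤ 4 * ‖G‖ := by
    rw [← sub_eq_of_eq_add e]
    linarith [norm_sub_le G (A w + σ (m w)), norm_add_le (A w) (σ (m w))]
  have a2 := norm_add_sq_real (A (P v) - σ (D (P v))) (σ (P (D v)))
  have a3 := norm_add_sq_real (A (P v) - σ (D (P v))) (σ (P (D v + m v)))
  rw [h.O, h.cD, sub_add_cancel, H.nσ] at a2
  rw [h.O, map_add, h.cD, h.cm, map_add, ← add_assoc, sub_add_cancel] at a3
  rw [e']
  nlinarith [pow_le_pow_left₀ (norm_nonneg _) a1 2, sq_nonneg ‖σ (D (P v)) + σ (m (P v))‖]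

/-- **the estimate** -/
theorem est (h : Pr A σ m D P C c) (h' : Pr A σ m D P' C' c') (H : Hy A σ m D δ)
    (o : ∀ u, P (P' u) = 0) (o' : ∀ u, P' (P u) = 0) {k η : ℝ} (k0 : 0 < k) (hk : 2 * δ ≤ k)
    (gap : ∀ w, P w = 0 → P' w = 0 → k * ‖w‖ ≤ ‖A w‖) (h0 : 0 ≤ η) (h1 : η * δ * C ^ 2 ≤ 1 / 4) :
    ∃ K ≥ 0, ∀ u, ‖u‖ ≤ K * (‖A u + σ (η • P u + m (u - P u))‖ + c u + c' u) := by
  obtain ⟨K, K0, s1⟩ := step1 h H h0 h1
  have := h'.C0
  refine ⟨K + (4 * C' + 2 / k) * (1 + (1 + η) * K) + 1, by positivity, fun u => ?_⟩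
  have a1 := s1 u
  obtain ⟨a2, a3⟩ := step2 h' H hk (u - P u) (gap _ (by simp [h.id, o]) (by simp [h'.id]))
  replace a3 := a3 u (by simp [o'])
  set f := A u + σ (η • P u + m (u - P u)) with hf
  have a4 : ‖A (u - P u) + σ (m (u - P u))‖ ≤ ‖f‖ + (‖A (P u)‖ + η * ‖P u‖) := by
    rw [show A (u - P u) + σ (m (u - P u)) = f - (A (P u) + η • σ (P u)) by
      simp only [hf, map_add, map_sub, map_smul]; abel]
    refine (norm_sub_le _ _).trans (add_le_add_right ((norm_add_le _ _).trans_eq ?_) _)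
    rw [norm_smul, H.nσ, Real.norm_of_nonneg h0]
  have a5 : ‖u‖ ≤ ‖P u‖ + (‖P' (u - P u)‖ + ‖u - P u - P' (u - P u)‖) :=
    (norm_le_norm_add_norm_sub' u (P u)).trans (add_le_add_right (norm_le_norm_add_norm_sub' _ _) _)
  have a6 : ‖u - P u - P' (u - P u)‖ ≤ 2 / k * ‖A (u - P u) + σ (m (u - P u))‖ := by
    rw [div_mul_eq_mul_div, le_div_iff₀' k0]; exact a2
  have c0 := h.c0 u
  have c1 := h'.c0 u
  have f0 := norm_nonneg f
  have y0 := norm_nonneg (P u)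
  have x0 := norm_nonneg (A (P u))
  have a7 : ‖A (u - P u) + σ (m (u - P u))‖ ≤ (1 + (1 + η) * K) * (‖f‖ + c u + c' u) := by
    nlinarith [mul_le_mul_of_nonneg_left a1 h0, mul_nonneg h0 x0, mul_nonneg K0 c1,
      mul_nonneg h0 (mul_nonneg K0 c1)]
  have a8 := mul_le_mul_of_nonneg_left a7 (show 0 ≤ 4 * C' + 2 / k by positivity)
  nlinarith [mul_nonneg K0 c1]

end Crest.Agent.X212.Mon62.Zl
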